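import Vale.Agent.P291.Core2
import Vale.Agent.P291.H809.Proj

/-!
# P291, block B1: the elements of `J_D` are combinations of the `kap g`
-/

open MvPolynomial

namespace Vale.Agent.P291

variable {I E B Λ : Type*} [Fintype E] [DecidableEq I] [Fintype B] [DecidableEq B] [CommRing Λ]
  [IsDomain Λ]
variable (Q : QD I E B Λ)

namespace B1

/-- the data of the cut projector attached to a quiver -/
noncomputable def dat : H809.Data Λ B {p : E × B × Option B // p ∈ Q.Wt}
    {p : B × B // p ∈ Q.Prs.filter (fun p => p.1 ≠ p.2)} where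
  src p := p.1.2.1
  tgt p := p.1.2.2
  mass p := - Q.t p.1.1
  p1 p := p.1.1
  p2 p := p.1.2
  ex _ := 1

theorem form_eq (p : {p : E × B × Option B // p ∈ Q.Wt}) :
    (dat Q).form p = - Q.xi p.1 := by
  unfold H809.Data.form QD.xi dat xo
  simp only [map_neg]
  ring

theorem diff_eq (p : {p : B × B // p ∈ Q.Prs.filter (fun p => p.1 ≠ p.2)}) :
    (dat Q).diff p = X p.1.1 - X p.1.2 := by
  unfold H809.Data.diff dat
  simp

open scoped Classical in
/-- the colouring of a partition, the block of `none` has colour `0` -/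
noncomputable def col (S : Setoid (Option B)) (o : Option B) : ℕ :=
  if S.r o none then 0 else (Fintype.equivFin (Quotient S) (Quotient.mk S o)).val + 1

theorem col_none (S : Setoid (Option B)) : col S none = 0 := by
  unfold col
  rw [if_pos (S.refl none)]

theorem col_eq_iff (S : Setoid (Option B)) (o o' : Option B) : col S o = col S o' ↔ S.r o o' := by
  classical
  unfold col
  by_cases h : S.r o none
  · rw [if_pos h]
    by_cases h' : S.r o' none
    · rw [if_pos h']
      exact ⟨fun _ => S.trans h (S.symm h'), fun _ => rfl⟩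
    · rw [if_neg h']
      exact ⟨fun e => absurd e (by omega), fun e => absurd (S.trans (S.symm e) h) h'⟩
  · rw [if_neg h]
    by_cases h' : S.r o' none
    · rw [if_pos h']
      exact ⟨fun e => absurd e (by omega), fun e => absurd (S.trans e h') h⟩
    · rw [if_neg h']
      constructor
      · intro e
        have e1 : (Fintype.equivFin (Quotient S) (Quotient.mk S o)) =
            (Fintype.equivFin (Quotient S) (Quotient.mk S o')) := by
          apply Fin.ext
          omega
        exact Quotient.exact ((Fintype.equivFin (Quotient S)).injective e1)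
      · intro e
        have : (Quotient.mk S o) = Quotient.mk S o' := Quotient.sound e
        rw [this]

theorem col_ne_zero {S : Setoid (Option B)} (h : S ≠ ⊤) :
    (fun b : B => col S (some b)) ≠ 0 := by
  intro e
  apply h
  have h0 : ∀ o, S.r o none := by
    intro o
    cases o with
    | none => exact S.refl none
    | some b =>
      rw [← col_eq_iff, col_none]
      exact congrFun e b
  rw [Setoid.eq_top_iff]
  intro x y
  exact S.trans (h0 x) (S.symm (h0 y))

theorem col_elim (S : Setoid (Option B)) (o : Option B) :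
    o.elim 0 (fun b : B => col S (some b)) = col S o := by
  cases o with
  | none => simp [col_none]
  | some b => rfl

/-- the weights joining different blocks -/
theorem Y_eq (S : Setoid (Option B)) :
    ∃ s : SS B Λ, s * s = 1 ∧
      (dat Q).Y S = s * Q.numG (fun b => col S (some b)) := by
  classical
  refine ⟨∏ e ∈ Finset.univ.filter (fun e : {p : E × B × Option B // p ∈ Q.Wt} =>
    ¬ S.r (some ((dat Q).src e)) ((dat Q).tgt e)), (-1 : SS B Λ), ?_, ?_⟩
  · rw [← Finset.prod_mul_distrib]
    simp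
  · unfold H809.Data.Y QD.numG
    have h1 : ∏ p ∈ Q.Wt.filter (fun p => col S (some p.2.1) ≠
          p.2.2.elim 0 (fun b : B => col S (some b))), Q.xi p =
        ∏ e ∈ Finset.univ.filter (fun e : {p : E × B × Option B // p ∈ Q.Wt} =>
          ¬ S.r (some ((dat Q).src e)) ((dat Q).tgt e)), Q.xi e.1 := by
      rw [Finset.prod_filter, Finset.prod_filter, ← Finset.prod_coe_sort Q.Wt]
      apply Finset.prod_congr rfl
      intro e _
      have : (col S (some e.1.2.1) ≠ e.1.2.2.elim 0 (fun b : B => col S (some b))) ↔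
          ¬ S.r (some ((dat Q).src e)) ((dat Q).tgt e) := by
        rw [col_elim, Ne, col_eq_iff]
        rfl
      by_cases h : S.r (some ((dat Q).src e)) ((dat Q).tgt e)
      · rw [if_neg (by rw [this]; exact not_not.2 h), if_neg (not_not.2 h)]
      · rw [if_pos (this.2 h), if_pos h]
    rw [h1, ← Finset.prod_mul_distrib]
    refine Finset.prod_congr (by congr!) ?_
    intro e _
    rw [form_eq]
    ring

theorem Dn_top : (dat Q).Dn ⊤ = Q.D := by
  classical
  have h1 : (dat Q).Dn ⊤ = ∏ p : {p : B × B // p ∈ Q.Prs.filter (fun p => p.1 ≠ p.2)},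
      (X p.1.1 - X p.1.2 : SS B Λ) := by
    unfold H809.Data.Dn
    rw [Finset.filter_true_of_mem (p := fun p => (⊤ : Setoid (Option B)).r (some ((dat Q).p1 p))
      (some ((dat Q).p2 p))) (fun _ _ => trivial)]
    apply Finset.prod_congr rfl
    intro e _
    rw [diff_eq]
  rw [h1]
  exact Finset.prod_coe_sort (Q.Prs.filter (fun p => p.1 ≠ p.2)) (fun p => (X p.1 - X p.2 : SS B Λ))

theorem Dn_mul (S : Setoid (Option B)) :
    (dat Q).Dn S * Q.denG (fun b => col S (some b)) = Q.D := by
  classical
  unfold H809.Data.Dn QD.denG QD.D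
  have h1 : ∏ p ∈ Finset.univ.filter (fun p : {p : B × B // p ∈ Q.Prs.filter (fun p => p.1 ≠ p.2)} =>
        S.r (some ((dat Q).p1 p)) (some ((dat Q).p2 p))), (dat Q).diff p =
      ∏ p ∈ (Q.Prs.filter (fun p => p.1 ≠ p.2)).filter
        (fun p => S.r (some p.1) (some p.2)), (X p.1 - X p.2 : SS B Λ) := by
    rw [Finset.prod_filter, Finset.prod_filter,
      ← Finset.prod_coe_sort (Q.Prs.filter (fun p => p.1 ≠ p.2))]
    apply Finset.prod_congr rfl
    intro e _
    rw [diff_eq]
    congr
  have h2 : Q.Prs.filter (fun p => col S (some p.1) ≠ col S (some p.2)) =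
      (Q.Prs.filter (fun p => p.1 ≠ p.2)).filter (fun p => ¬ S.r (some p.1) (some p.2)) := by
    ext p
    simp only [Finset.mem_filter, Ne, col_eq_iff]
    constructor
    · rintro ⟨h, h'⟩
      refine ⟨⟨h, ?_⟩, h'⟩
      intro e
      exact h' (by rw [e])
    · rintro ⟨⟨h, _⟩, h'⟩
      exact ⟨h, h'⟩
  rw [h2]
  rw [← Finset.prod_filter_mul_prod_filter_not (Q.Prs.filter (fun p => p.1 ≠ p.2))
    (fun p => S.r (some p.1) (some p.2))]
  rw [← h1]

theorem mem_cutRel (U : Finset B) (o : Option B) : H809.mem U o ↔ ∃ b ∈ U, o = some b := Iff.rfl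

theorem cut_eq (U : Finset B) : Q.cut U =
    Q.numG (fun b => col (H809.cutRel U) (some b)) := by
  classical
  unfold QD.cut QD.numG
  apply Finset.prod_congr _ (fun _ _ => rfl)
  apply Finset.filter_congr
  intro p _
  rw [col_elim, Ne, col_eq_iff]
  apply not_congr
  have h0 : (H809.cutRel U).r (some p.2.1) p.2.2 ↔
    (H809.mem U (some p.2.1) ↔ H809.mem U p.2.2) := Iff.rfl
  rw [h0, H809.mem_some]
  rfl

theorem D_ne_zero : Q.D ≠ 0 := by
  unfold QD.D
  rw [Finset.prod_ne_zero_iff]
  intro p hp
  rw [Finset.mem_filter] at hp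
  intro h
  exact hp.2 (X_injective (sub_eq_zero.1 h))

theorem denG_ne_zero (g : B → ℕ) : Q.denG g ≠ 0 := by
  unfold QD.denG
  rw [Finset.prod_ne_zero_iff]
  intro p hp
  rw [Finset.mem_filter] at hp
  intro h
  exact hp.2 (congrArg g (X_injective (sub_eq_zero.1 h)))

theorem toK_ne_zero {f : SS B Λ} (h : f ≠ 0) : toK f ≠ 0 := by
  intro e
  exact h ((IsFractionRing.injective (SS B Λ) (KK B Λ)) (by rw [map_zero]; exact e))

/-- the span of the `kap g` -/
noncomputable def KS : Submodule (SS B Λ) (KK B Λ) :=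
  Submodule.span (SS B Λ) (Q.kap '' {g | g ≠ 0})

theorem term_mem {S : Setoid (Option B)} (hS : S ≠ ⊤) (r : SS B Λ) :
    toK (r * ((dat Q).Y S * (dat Q).Dn S)) / toK Q.D ∈ KS Q := by
  obtain ⟨s, -, hs⟩ := Y_eq Q S
  have hk : Q.kap (fun b => col S (some b)) ∈ KS Q :=
    Submodule.subset_span ⟨_, col_ne_zero hS, rfl⟩
  have h1 : toK (r * ((dat Q).Y S * (dat Q).Dn S)) / toK Q.D =
      (r * s) • Q.kap (fun b => col S (some b)) := by
    rw [Algebra.smul_def, ← Dn_mul Q S, hs]
    unfold QD.kap
    have e1 : toK ((dat Q).Dn S) ≠ 0 := by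
      apply toK_ne_zero
      intro e
      have := Dn_mul Q S
      rw [e, zero_mul] at this
      exact D_ne_zero Q this.symm
    have e2 : toK (Q.denG (fun b => col S (some b))) ≠ 0 := toK_ne_zero (denG_ne_zero Q _)
    simp only [toK, map_mul] at e1 e2 ⊢
    field_simp
  rw [h1]
  exact Submodule.smul_mem _ _ hk

end B1

open B1 in
theorem JD_span {f : SS B Λ} (hf : Q.D * f ∈ Q.IT) :
    ∃ s : Finset (B → ℕ), ∃ a : (B → ℕ) → SS B Λ, (∀ g ∈ s, g ≠ 0) ∧
      toK f = ∑ g ∈ s, toK (a g) * Q.kap g := by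
  classical
  have h1 : Q.IT ≤ (dat Q).cutIdeal := by
    unfold QD.IT
    rw [Ideal.span_le]
    rintro z ⟨U, hU, rfl⟩
    obtain ⟨s, hs, hY⟩ := Y_eq Q (H809.cutRel U)
    have h2 : Q.cut U = s * (dat Q).Y (H809.cutRel U) := by
      rw [cut_eq, hY, ← mul_assoc, hs, one_mul]
    rw [h2]
    exact Ideal.mul_mem_left _ _ (Ideal.subset_span ⟨U, hU, rfl⟩)
  have h2 : f * (dat Q).Dn ⊤ ∈ (dat Q).multi := by
    apply H809.Data.mem_multi_of_mem_cutIdeal
    rw [Dn_top, mul_comm]
    exact h1 hf
  rw [Dn_top] at h2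
  have h3 : ∀ x ∈ (dat Q).multi, toK x / toK Q.D ∈ KS Q := by
    intro x hx
    refine Submodule.closure_induction (p := fun x _ => toK x / toK Q.D ∈ KS Q) ?_ ?_ ?_ hx
    · simp
    · intro x y _ _ hx hy
      have : toK (x + y) / toK Q.D = toK x / toK Q.D + toK y / toK Q.D := by
        simp only [toK, map_add]
        rw [add_div]
      rw [this]
      exact Submodule.add_mem _ hx hy
    · rintro r x ⟨S, hS, rfl⟩
      exact term_mem Q hS r
  have h4 : toK f ∈ KS Q := by
    have := h3 _ h2
    have e : toK (f * Q.D) / toK Q.D = toK f := by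
      simp only [toK, map_mul]
      exact mul_div_cancel_right₀ _ (toK_ne_zero (D_ne_zero Q))
    rwa [e] at this
  unfold KS at h4
  rw [Finsupp.mem_span_image_iff_linearCombination] at h4
  obtain ⟨l, hl, hl'⟩ := h4
  refine ⟨l.support, l, ?_, ?_⟩
  · intro g hg
    exact (Finsupp.mem_supported _ _).1 hl hg
  · rw [← hl', Finsupp.linearCombination_apply, Finsupp.sum]
    apply Finset.sum_congr rfl
    intro g _
    rw [Algebra.smul_def]

end Vale.Agent.P291
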