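import Vale.Agent.P291.Core2
import Vale.Agent.P291.H134.Surj

/-!
# P291, block S: surjectivity
-/

set_option linter.unusedSectionVars false

open MvPolynomial

namespace Vale.Agent.P291

namespace SBlk

variable {I E B Λ : Type*} [Fintype E] [DecidableEq I] [Fintype B] [DecidableEq B] [CommRing Λ]
  [IsDomain Λ]
variable (Q : QD I E B Λ)

omit [Fintype B] in
theorem some_mem_vact (σ : Equiv.Perm B) (V : Finset (Option B)) (b : B) :
    some (σ b) ∈ vact σ V ↔ some b ∈ V := by
  unfold vact
  rw [Finset.mem_map_equiv]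
  have h : (Equiv.optionCongr σ).symm (some (σ b)) = some b := by
    rw [Equiv.symm_apply_eq]
    rfl
  rw [h]

omit [Fintype B] in
theorem none_mem_vact (σ : Equiv.Perm B) (V : Finset (Option B)) :
    none ∈ vact σ V ↔ none ∈ V := by
  unfold vact
  rw [Finset.mem_map_equiv]
  have h : (Equiv.optionCongr σ).symm none = none := by
    rw [Equiv.symm_apply_eq]
    rfl
  rw [h]

omit [Fintype B] in
theorem vact_mul (σ τ : Equiv.Perm B) (V : Finset (Option B)) :
    vact (σ * τ) V = vact σ (vact τ V) := by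
  ext o
  cases o with
  | none => rw [none_mem_vact, none_mem_vact, none_mem_vact]
  | some b =>
    have h1 : b = (σ * τ) ((σ * τ)⁻¹ b) := by simp
    have h2 : b = σ (σ⁻¹ b) := by simp
    have h3 : σ⁻¹ b = τ (τ⁻¹ (σ⁻¹ b)) := by simp
    rw [h1, some_mem_vact, ← h1]
    conv_rhs => rw [h2, some_mem_vact, h3, some_mem_vact]
    simp [mul_inv_rev, Equiv.Perm.mul_apply]

omit [Fintype B] in
theorem vact_one (V : Finset (Option B)) : vact (1 : Equiv.Perm B) V = V := by
  ext o
  cases o with
  | none => rw [none_mem_vact]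
  | some b =>
    have h := some_mem_vact (1 : Equiv.Perm B) V b
    simpa using h

/-- membership in the stabiliser algebra of a subset of the extended boxes -/
theorem mem_Stb_iff {V : Finset (Option B)} {f : SS B Λ} :
    f ∈ H134.Stb Λ Q.vx {b | some b ∈ V} ↔ ∀ σ ∈ Q.W, vact σ V = V → rename σ f = f := by
  rw [H134.mem_Stb]
  constructor
  · intro h σ hσ hV
    refine h σ hσ fun b => ?_
    change some (σ b) ∈ V ↔ some b ∈ V
    conv_lhs => rw [← hV]
    exact some_mem_vact σ V b
  · intro h σ hσ hV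
    refine h σ hσ ?_
    ext o
    cases o with
    | none => exact none_mem_vact σ V
    | some b =>
      have h2 : b = σ (σ⁻¹ b) := by simp
      rw [h2, some_mem_vact]
      exact (hV _).symm

open Classical in
/-- extension of a stabiliser invariant polynomial to an equivariant dressing supported on the
orbit -/
noncomputable def exv (V0 : Finset (Option B)) (f : SS B Λ) (V : Finset (Option B)) : SS B Λ :=
  if h : Q.orb V0 V then rename h.choose f else 0

theorem exv_apply {V0 : Finset (Option B)} {f : SS B Λ}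
    (hf : ∀ σ ∈ Q.W, vact σ V0 = V0 → rename σ f = f) {σ : Equiv.Perm B} (hσ : σ ∈ Q.W) :
    exv Q V0 f (vact σ V0) = rename σ f := by
  have h : Q.orb V0 (vact σ V0) := ⟨σ, hσ, rfl⟩
  rw [exv, dif_pos h]
  obtain ⟨h1, h2⟩ := h.choose_spec
  set τ := h.choose
  have h3 : rename (σ⁻¹ * τ) f = f := by
    refine hf _ (Q.W.mul_mem (Q.W.inv_mem hσ) h1) ?_
    rw [vact_mul, h2, ← vact_mul, inv_mul_cancel, vact_one]
  have h4 : rename σ (rename (σ⁻¹ * τ) f) = rename τ f := by
    rw [rename_rename]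
    congr 1
    congr 1
    funext b
    simp
  rw [← h4, h3]

theorem exv_self {V0 : Finset (Option B)} {f : SS B Λ}
    (hf : ∀ σ ∈ Q.W, vact σ V0 = V0 → rename σ f = f) : exv Q V0 f V0 = f := by
  have h := exv_apply Q hf Q.W.one_mem
  rw [vact_one] at h
  rw [h]
  have : ((1 : Equiv.Perm B) : B → B) = id := rfl
  rw [this, rename_id]
  rfl

theorem exv_orb {V0 V : Finset (Option B)} {f : SS B Λ} (h : exv Q V0 f V ≠ 0) : Q.orb V0 V := by
  by_contra hn
  exact h (dif_neg hn)

theorem exv_mem {V0 : Finset (Option B)} {f : SS B Λ}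
    (hf : ∀ σ ∈ Q.W, vact σ V0 = V0 → rename σ f = f) : exv Q V0 f ∈ Q.Eqv := by
  intro σ hσ V
  by_cases h : Q.orb V0 V
  · obtain ⟨τ, hτ, rfl⟩ := h
    rw [← vact_mul, exv_apply Q hf (Q.W.mul_mem hσ hτ), exv_apply Q hf hτ, rename_rename]
    rfl
  · have h' : ¬ Q.orb V0 (vact σ V) := by
      rintro ⟨τ, hτ, h1⟩
      refine h ⟨σ⁻¹ * τ, Q.W.mul_mem (Q.W.inv_mem hσ) hτ, ?_⟩
      rw [vact_mul, h1, ← vact_mul, inv_mul_cancel, vact_one]
    rw [exv, exv, dif_neg h, dif_neg h', map_zero]

/-- the family of sets of boxes belonging to a tuple, with the set of all boxes added -/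
def fam {k : ℕ} (V : Fin k → Finset (Option B)) : Option (Fin k) → Set B
  | none => Set.univ
  | some j => {b | some b ∈ V j}

omit [Fintype B] [DecidableEq B] in
theorem mem_fam {k : ℕ} (V : Fin k → Finset (Option B)) (j : Fin k) (b : B) :
    b ∈ fam V (some j) ↔ some b ∈ V j := Iff.rfl

theorem pure_dec (k : ℕ) (V : Fin k → Finset (Option B)) (F : Option (Fin k) → SS B Λ)
    (hF : ∀ o, F o ∈ H134.Stb Λ Q.vx (fam V o)) :
    ∃ τ ∈ Q.Dec k, τ V = ∏ o, F o ∧ Q.SuppOn V τ := by
  have hF' : ∀ j, ∀ σ ∈ Q.W, vact σ (V j) = V j → rename σ (F (some j)) = F (some j) :=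
    fun j => (mem_Stb_iff Q).1 (hF (some j))
  have hR : F none ∈ Q.R := by
    intro σ hσ
    have h1 := H134.mem_Stb.1 (hF none)
    exact h1 σ hσ fun b => Iff.rfl
  refine ⟨fun V' => F none * ∏ j, exv Q (V j) (F (some j)) (V' j),
    Submodule.subset_span ⟨F none, hR, fun j => exv Q (V j) (F (some j)),
      fun j => exv_mem Q (hF' j), rfl⟩, ?_, ?_⟩
  · have h1 : ∀ j, exv Q (V j) (F (some j)) (V j) = F (some j) := fun j => exv_self Q (hF' j)
    have h2 : F none * ∏ j, exv Q (V j) (F (some j)) (V j) = F none * ∏ j, F (some j) :=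
      congrArg (F none * ·) (Finset.prod_congr rfl fun j _ => h1 j)
    exact h2.trans (Fintype.prod_option F).symm
  · intro V' hV' j
    by_contra hn
    have h0 : exv Q (V j) (F (some j)) (V' j) = 0 := dif_neg hn
    have h1 : ∏ j, exv Q (V j) (F (some j)) (V' j) = 0 :=
      Finset.prod_eq_zero (Finset.mem_univ j) h0
    have h2 : F none * ∏ j, exv Q (V j) (F (some j)) (V' j) = 0 := by rw [h1, mul_zero]
    exact hV' h2

theorem exists_of_mem_prodSpan (k : ℕ) (V : Fin k → Finset (Option B)) {h : SS B Λ}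
    (hh : h ∈ H134.prodSpan (fun o : Option (Fin k) => H134.Stb Λ Q.vx (fam V o))) :
    ∃ τ ∈ Q.Dec k, τ V = h ∧ Q.SuppOn V τ := by
  unfold H134.prodSpan at hh
  induction hh using Submodule.span_induction with
  | mem x hx =>
    obtain ⟨F, hF, rfl⟩ := hx
    exact pure_dec Q k V F hF
  | zero => exact ⟨0, Submodule.zero_mem _, rfl, fun V' h => absurd rfl h⟩
  | add x y _ _ hx hy =>
    obtain ⟨τ1, h1, h2, h3⟩ := hx
    obtain ⟨τ2, h1', h2', h3'⟩ := hy
    refine ⟨τ1 + τ2, Submodule.add_mem _ h1 h1', by rw [Pi.add_apply, h2, h2'], ?_⟩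
    intro V' hV' j
    by_cases h : τ1 V' = 0
    · refine h3' V' (fun h0 => hV' ?_) j
      rw [Pi.add_apply, h, h0, add_zero]
    · exact h3 V' h j
  | smul a x _ hx =>
    obtain ⟨τ1, h1, h2, h3⟩ := hx
    refine ⟨a • τ1, Submodule.smul_mem _ _ h1, by rw [Pi.smul_apply, h2], ?_⟩
    intro V' hV' j
    refine h3 V' (fun h0 => hV' ?_) j
    rw [Pi.smul_apply, h0, smul_zero]

end SBlk

variable {I E B Λ : Type*} [Fintype E] [DecidableEq I] [Fintype B] [DecidableEq B] [CommRing Λ]
  [IsDomain Λ]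
variable (Q : QD I E B Λ)

/-- `V_1,…,V_k` such that the indicator of each atom is (at its vertex) a rational linear
combination of the indicators of the `V_j` and `1`: every polynomial invariant under the common
stabiliser is the value at `V` of a decomposable equivariant dressing supported on the orbits. -/
theorem surj [Algebra ℚ Λ] (k : ℕ) (V : Fin k → Finset (Option B))
    (hV : ∀ b : B, ∃ c0 : ℚ, ∃ c : Fin k → ℚ, ∀ b' : B, Q.vx b' = Q.vx b →
      c0 + ∑ j, (if some b' ∈ V j then c j else 0) =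
        if ∀ j, (some b' ∈ V j ↔ some b ∈ V j) then 1 else 0)
    (h : SS B Λ) (hh : ∀ σ ∈ Q.W, (∀ j, vact σ (V j) = V j) → rename σ h = h) :
    ∃ τ ∈ Q.Dec k, τ V = h ∧ Q.SuppOn V τ := by
  classical
  refine SBlk.exists_of_mem_prodSpan Q k V ?_
  refine H134.surj_of_atoms Q.vx (SBlk.fam V) ?_ ?_
  · intro b
    obtain ⟨c0, c, hc⟩ := hV b
    refine ⟨c0, fun o => o.elim 0 c, fun b' hb' => ?_⟩
    have h1 := hc b' hb'
    have h3 : ∀ j : Fin k, (c j * if b' ∈ SBlk.fam V (some j) then (1 : ℚ) else 0) =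
        if some b' ∈ V j then c j else 0 := by
      intro j
      by_cases h : some b' ∈ V j
      · rw [if_pos h, if_pos ((SBlk.mem_fam V j b').2 h), mul_one]
      · rw [if_neg h, if_neg (fun hh => h ((SBlk.mem_fam V j b').1 hh)), mul_zero]
    rw [Fintype.sum_option]
    simp only [Option.elim, zero_mul, zero_add]
    rw [Finset.sum_congr rfl fun j _ => h3 j, h1]
    by_cases h4 : ∀ j, (some b' ∈ V j ↔ some b ∈ V j)
    · rw [if_pos h4, if_pos]
      intro o
      cases o with
      | none => exact ⟨fun _ => trivial, fun _ => trivial⟩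
      | some j => exact h4 j
    · rw [if_neg h4, if_neg]
      exact fun h5 => h4 fun j => h5 (some j)
  · intro σ hσ1 hσ2
    refine hh σ hσ1 fun j => ?_
    ext o
    cases o with
    | none => exact SBlk.none_mem_vact σ _
    | some b =>
      have h2 : b = σ (σ⁻¹ b) := by simp
      rw [h2, SBlk.some_mem_vact]
      exact (hσ2 (some j) (σ⁻¹ b)).symm

/-- chains satisfy the hypothesis of `surj` -/
theorem surj_chain [Algebra ℚ Λ] (k : ℕ) (V : Fin k → Finset (Option B))
    (hV : ∀ i j, i ≤ j → V j ⊆ V i)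
    (h : SS B Λ) (hh : ∀ σ ∈ Q.W, (∀ j, vact σ (V j) = V j) → rename σ h = h) :
    ∃ τ ∈ Q.Dec k, τ V = h ∧ Q.SuppOn V τ := by
  classical
  refine SBlk.exists_of_mem_prodSpan Q k V ?_
  refine H134.surj_chain Q.vx (SBlk.fam V) ?_ ?_
  · intro o o'
    cases o with
    | none => exact Or.inr (Set.subset_univ _)
    | some i =>
      cases o' with
      | none => exact Or.inl (Set.subset_univ _)
      | some j =>
        rcases le_total i j with h | h
        · exact Or.inr fun b hb => hV i j h hb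
        · exact Or.inl fun b hb => hV j i h hb
  · intro σ hσ1 hσ2
    refine hh σ hσ1 fun j => ?_
    ext o
    cases o with
    | none => exact SBlk.none_mem_vact σ _
    | some b =>
      have h2 : b = σ (σ⁻¹ b) := by simp
      rw [h2, SBlk.some_mem_vact]
      exact (hσ2 (some j) (σ⁻¹ b)).symm

end Vale.Agent.P291
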