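import Vale.Agent.P291.Core2

/-!
# P291, block T: tuple sums
-/

open MvPolynomial

set_option linter.unusedSectionVars false

namespace Vale.Agent.P291

namespace TB

section gen

variable {K G X ι : Type*} [CommRing K] [Fintype X]

theorem prod_single' [AddCommMonoid G] (s : Finset ι) (c : ι → G) (a : ι → K) :
    ∏ j ∈ s, AddMonoidAlgebra.single (c j) (a j)
      = AddMonoidAlgebra.single (∑ j ∈ s, c j) (∏ j ∈ s, a j) := by
  classical
  induction s using Finset.induction_on with
  | empty => simp [AddMonoidAlgebra.one_def]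
  | insert j s hj ih =>
    rw [Finset.prod_insert hj, ih, Finset.sum_insert hj, Finset.prod_insert hj,
      AddMonoidAlgebra.single_mul_single]

/-- product of a family of sums `∑_x a_j(x) u^{c(x)}` -/
theorem prod_sum_single' [AddCommMonoid G] [Fintype ι] [DecidableEq ι] (c : X → G)
    (a : ι → X → K) :
    ∏ j, ∑ x, AddMonoidAlgebra.single (c x) (a j x)
      = ∑ V : ι → X, AddMonoidAlgebra.single (∑ j, c (V j)) (∏ j, a j (V j)) := by
  rw [Finset.prod_univ_sum]
  rw [Fintype.piFinset_univ]
  refine Finset.sum_congr rfl fun V _ => ?_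
  rw [prod_single']

theorem coeff_sum_single' [DecidableEq G] (c : X → G) (a : X → K) (m : G) :
    (∑ y, AddMonoidAlgebra.single (c y) (a y)).coeff m
      = ∑ y with c y = m, a y := by
  rw [AddMonoidAlgebra.coeff_sum, Finsupp.finsetSum_apply, Finset.sum_filter]
  refine Finset.sum_congr rfl fun y _ => ?_
  rw [AddMonoidAlgebra.coeff_single, Finsupp.single_apply]

end gen

end TB

open TB

variable {I E B Λ : Type*} [Fintype E] [DecidableEq I] [Fintype B] [DecidableEq B] [CommRing Λ]
  [IsDomain Λ]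
variable (Q : QD I E B Λ)

theorem MT_pure (k : ℕ) (r : SS B Λ) (F : Fin k → Finset (Option B) → SS B Λ) :
    Q.MT k (fun V => r * ∏ j, F j (V j)) = QD.cst r * ∏ j, Q.M (F j) := by
  unfold QD.MT QD.M QD.cst
  rw [prod_sum_single', Finset.mul_sum]
  refine Finset.sum_congr rfl fun V _ => ?_
  rw [AddMonoidAlgebra.single_mul_single, zero_add, Finset.prod_mul_distrib]
  congr 1
  simp only [toK, map_mul, map_prod]
  ring

theorem MT_coeff (k : ℕ) (τ : (Fin k → Finset (Option B)) → SS B Λ) (mu : B → ℤ) :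
    (Q.MT k τ).coeff mu = ∑ V : Fin k → Finset (Option B) with ∑ j, lamV (V j) = mu,
      toK (τ V) * ∏ j, Q.e (lamV (V j)) := by
  unfold QD.MT
  rw [coeff_sum_single']


namespace TB

theorem ext_zero' (o : Option B) : ext (0 : B → ℤ) o = 0 := by
  rcases o with _ | b <;> rfl

theorem e_zero_aux : Q.e 0 = 1 := by
  have h1 : Q.rho (0 : B → ℤ) = 1 := by
    unfold QD.rho
    apply Finset.prod_eq_one
    intro p _
    simp [ext_zero']
  have h2 : Q.den (0 : B → ℤ) = 1 := by
    unfold QD.den
    apply Finset.prod_eq_one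
    intro p _
    simp
  unfold QD.e
  rw [h1, h2]
  simp [toK]

theorem lamV_empty : lamV (∅ : Finset (Option B)) = 0 := by
  funext b; simp [lamV]

theorem vact_empty (σ : Equiv.Perm B) : vact σ (∅ : Finset (Option B)) = ∅ := by
  simp [vact]

theorem vact_univ (σ : Equiv.Perm B) :
    vact σ (Finset.univ : Finset (Option B)) = Finset.univ := by
  simp [vact]

theorem vact_injective (σ : Equiv.Perm B) : Function.Injective (vact σ) := by
  intro V V' h
  exact Finset.map_injective _ h

theorem vact_eq_empty {σ : Equiv.Perm B} {V : Finset (Option B)} : vact σ V = ∅ ↔ V = ∅ := by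
  simp [vact]

theorem vact_eq_univ {σ : Equiv.Perm B} {V : Finset (Option B)} :
    vact σ V = Finset.univ ↔ V = Finset.univ := by
  constructor
  · intro h
    apply vact_injective σ
    rw [h, vact_univ]
  · rintro rfl; exact vact_univ σ

theorem M_mem {F : Finset (Option B) → SS B Λ} (hF : F ∈ Q.Eqv) : Q.M F ∈ Q.A :=
  Algebra.subset_adjoin ⟨F, hF, rfl⟩

end TB

theorem cst_mem {r : SS B Λ} (hr : r ∈ Q.R) : QD.cst r ∈ Q.A := by
  have h : QD.cst r = Q.M (fun V => if V = ∅ then r else 0) := by
    unfold QD.cst QD.M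
    rw [Finset.sum_eq_single ∅]
    · rw [lamV_empty, e_zero_aux]; simp
    · intro V _ hV
      simp [hV, toK]
    · intro h; exact absurd (Finset.mem_univ _) h
  rw [h]
  apply M_mem
  intro σ hσ V
  show (if vact σ V = ∅ then r else 0) = rename σ (if V = ∅ then r else 0)
  by_cases hV : V = ∅
  · simp [hV, vact_empty, hr σ hσ]
  · have : ¬ vact σ V = ∅ := by rwa [vact_eq_empty]
    simp [hV, this]

namespace TB

theorem MT_add (k : ℕ) (τ τ' : (Fin k → Finset (Option B)) → SS B Λ) :
    Q.MT k (τ + τ') = Q.MT k τ + Q.MT k τ' := by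
  unfold QD.MT
  rw [← Finset.sum_add_distrib]
  refine Finset.sum_congr rfl fun V _ => ?_
  rw [← AddMonoidAlgebra.single_add]
  congr 1
  simp only [toK, Pi.add_apply, map_add]
  ring

theorem MT_zero (k : ℕ) : Q.MT k (0 : (Fin k → Finset (Option B)) → SS B Λ) = 0 := by
  unfold QD.MT
  apply Finset.sum_eq_zero
  intro V _
  simp [toK]

theorem MT_smul (k : ℕ) (c : Λ) (τ : (Fin k → Finset (Option B)) → SS B Λ) :
    Q.MT k (c • τ) = c • Q.MT k τ := by
  unfold QD.MT
  rw [Finset.smul_sum]
  refine Finset.sum_congr rfl fun V _ => ?_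
  rw [AddMonoidAlgebra.smul_single]
  congr 1
  simp only [toK, Pi.smul_apply]
  rw [Algebra.smul_def c (τ V), map_mul, ← IsScalarTower.algebraMap_apply,
    Algebra.smul_def, mul_assoc]

/-- `MT` as a linear map -/
noncomputable def MTl (k : ℕ) : ((Fin k → Finset (Option B)) → SS B Λ) →ₗ[Λ] AA B Λ where
  toFun := Q.MT k
  map_add' := MT_add Q k
  map_smul' := MT_smul Q k

theorem MTl_apply (k : ℕ) (τ : (Fin k → Finset (Option B)) → SS B Λ) :
    MTl Q k τ = Q.MT k τ := rfl

end TB

theorem MT_mem (k : ℕ) {τ : (Fin k → Finset (Option B)) → SS B Λ} (hτ : τ ∈ Q.Dec k) :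
    Q.MT k τ ∈ Q.A := by
  unfold QD.Dec at hτ
  induction hτ using Submodule.span_induction with
  | mem x h =>
    obtain ⟨r, hr, F, hF, rfl⟩ := h
    rw [MT_pure]
    exact mul_mem (cst_mem Q hr) (prod_mem fun j _ => M_mem Q (hF j))
  | zero => rw [MT_zero]; exact zero_mem _
  | add x y _ _ hx hy => rw [MT_add]; exact add_mem hx hy
  | smul c x _ hx => rw [MT_smul]; exact Subalgebra.smul_mem _ hx c

namespace TB

/-- II is a Λ-submodule -/
theorem II_smul_mem (c : Λ) {z : AA B Λ} (hz : z ∈ Q.II) : c • z ∈ Q.II := by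
  have : c • z = (algebraMap Λ Q.A c) • z := by
    rw [Algebra.smul_def c z]
    rfl
  rw [this]
  exact Submodule.smul_mem _ _ hz

theorem II_mul_mem {a z : AA B Λ} (ha : a ∈ Q.A) (hz : z ∈ Q.II) : a * z ∈ Q.II := by
  have : a * z = (⟨a, ha⟩ : Q.A) • z := rfl
  rw [this]
  exact Submodule.smul_mem _ _ hz

end TB

theorem MT_memII (k : ℕ) {τ : (Fin k → Finset (Option B)) → SS B Λ} (hτ : τ ∈ Q.Dec k)
    (j : Fin k) (h : ∀ V, τ V ≠ 0 → V j ≠ ∅ ∧ V j ≠ Finset.univ) : Q.MT k τ ∈ Q.II := by
  -- the indicator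
  let χ : (Fin k → Finset (Option B)) → SS B Λ :=
    fun V => if V j ≠ ∅ ∧ V j ≠ Finset.univ then 1 else 0
  have key : ∀ τ ∈ Q.Dec k, Q.MT k (χ * τ) ∈ Q.II := by
    intro τ hτ
    unfold QD.Dec at hτ
    induction hτ using Submodule.span_induction with
    | mem x h =>
      obtain ⟨r, hr, F, hF, rfl⟩ := h
      let ψ : Finset (Option B) → SS B Λ := fun V => if V ≠ ∅ ∧ V ≠ Finset.univ then 1 else 0
      have hψ : ψ ∈ Q.Eqv := by
        intro σ hσ V
        show (if vact σ V ≠ ∅ ∧ vact σ V ≠ Finset.univ then (1 : SS B Λ) else 0)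
          = rename σ (if V ≠ ∅ ∧ V ≠ Finset.univ then (1 : SS B Λ) else 0)
        rw [apply_ite (rename σ), map_one, map_zero]
        simp only [ne_eq, vact_eq_empty, vact_eq_univ]
      let F' : Fin k → Finset (Option B) → SS B Λ := fun i => if i = j then ψ * F i else F i
      have hF' : ∀ i, F' i ∈ Q.Eqv := by
        intro i
        show (if i = j then ψ * F i else F i) ∈ Q.Eqv
        split_ifs
        · exact mul_mem hψ (hF i)
        · exact hF i
      have e1 : (χ * fun V => r * ∏ i, F i (V i)) = fun V => r * ∏ i, F' i (V i) := by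
        funext V
        have : ∏ i, F' i (V i) = ψ (V j) * ∏ i, F i (V i) := by
          rw [← Finset.mul_prod_erase Finset.univ _ (Finset.mem_univ j),
            ← Finset.mul_prod_erase Finset.univ (fun i => F i (V i)) (Finset.mem_univ j),
            ← mul_assoc]
          congr 1
          · simp [F']
          · refine Finset.prod_congr rfl fun i hi => ?_
            have : i ≠ j := Finset.ne_of_mem_erase hi
            simp [F', this]
        rw [this]
        show χ V * (r * ∏ i, F i (V i)) = _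
        show ψ (V j) * (r * ∏ i, F i (V i)) = _
        ring
      rw [e1, MT_pure, ← Finset.prod_erase_mul Finset.univ _ (Finset.mem_univ j), ← mul_assoc]
      apply II_mul_mem Q (mul_mem (cst_mem Q hr) (prod_mem fun i _ => M_mem Q (hF' i)))
      apply Submodule.subset_span
      refine ⟨F' j, hF' j, ?_, ?_, rfl⟩
      · simp [F', ψ]
      · simp [F', ψ]
    | zero => rw [mul_zero, MT_zero]; exact zero_mem _
    | add x y _ _ hx hy => rw [mul_add, MT_add]; exact add_mem hx hy
    | smul c x _ hx =>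
      rw [mul_smul_comm, MT_smul]
      exact II_smul_mem Q c hx
  have e2 : χ * τ = τ := by
    funext V
    show χ V * τ V = τ V
    by_cases hV : τ V = 0
    · rw [hV, mul_zero]
    · simp only [χ]
      rw [if_pos (h V hV), one_mul]
  rw [← e2]
  exact key τ hτ

theorem Dec_equivariant (k : ℕ) {τ : (Fin k → Finset (Option B)) → SS B Λ} (hτ : τ ∈ Q.Dec k)
    {σ : Equiv.Perm B} (hσ : σ ∈ Q.W) (V : Fin k → Finset (Option B)) :
    τ (fun j => vact σ (V j)) = rename σ (τ V) := by
  unfold QD.Dec at hτ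
  induction hτ using Submodule.span_induction with
  | mem x h =>
    obtain ⟨r, hr, F, hF, rfl⟩ := h
    simp only [map_mul, map_prod]
    rw [hr σ hσ]
    congr 1
    exact Finset.prod_congr rfl fun j _ => hF j σ hσ (V j)
  | zero => simp
  | add x y _ _ hx hy => simp only [Pi.add_apply, map_add, hx, hy]
  | smul c x _ hx => simp only [Pi.smul_apply, map_smul, hx]

end Vale.Agent.P291
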