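import Vale.Agent.P291.QBlk
import Vale.Agent.P291.TBlk
import Vale.Agent.P291.SBlk
import Vale.Agent.P291.H216.Kap

/-!
# P291, block B2: lifting the abelian localisation classes `kap g` to the ideal `II`
-/

set_option linter.unusedSectionVars false

open MvPolynomial

namespace Vale.Agent.P291

namespace B2

variable {I E B Λ : Type*} [Fintype E] [DecidableEq I] [Fintype B] [DecidableEq B] [CommRing Λ]
  [IsDomain Λ]
variable (Q : QD I E B Λ)

theorem vact_mul (σ τ : Equiv.Perm B) (V : Finset (Option B)) :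
    vact (σ * τ) V = vact σ (vact τ V) := by
  ext o
  cases o <;> simp [mem_vact_none, mem_vact_some, mul_inv_rev, Equiv.Perm.mul_apply]

theorem vact_inv_vact (σ : Equiv.Perm B) (V : Finset (Option B)) :
    vact σ⁻¹ (vact σ V) = V := by
  ext o
  cases o <;> simp [mem_vact_none, mem_vact_some]

theorem vact_vact_inv (σ : Equiv.Perm B) (V : Finset (Option B)) :
    vact σ (vact σ⁻¹ V) = V := by
  ext o
  cases o <;> simp [mem_vact_none, mem_vact_some]

/-- permutation with prescribed values of an invariant -/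
theorem exists_perm {C : Type*} [DecidableEq C] (f f' : B → C)
    (h : ∀ c, (Finset.univ.filter fun b => f b = c).card =
      (Finset.univ.filter fun b => f' b = c).card) :
    ∃ σ : Equiv.Perm B, ∀ b, f' (σ b) = f b := by
  classical
  have h1 : ∀ c, Nonempty ({a // f a = c} ≃ {b // f' b = c}) := by
    intro c
    rw [← Fintype.card_eq, Fintype.card_subtype, Fintype.card_subtype]
    exact h c
  exact ⟨Equiv.ofFiberEquiv fun c => (h1 c).some, fun b => Equiv.ofFiberEquiv_map _ b⟩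

theorem chg_lact (i : I) {σ : Equiv.Perm B} (hσ : σ ∈ Q.W) (lam : B → ℤ) :
    Q.chg i (lact σ lam) = Q.chg i lam := by
  unfold QD.chg
  symm
  refine Finset.sum_equiv σ (fun b => ?_) (fun b _ => ?_)
  · simp [(mem_W Q).1 hσ b]
  · rw [lact_apply]

theorem chg_sum {k : ℕ} (i : I) (f : Fin k → B → ℤ) :
    Q.chg i (∑ j, f j) = ∑ j, Q.chg i (f j) := by
  unfold QD.chg
  rw [Finset.sum_comm]
  refine Finset.sum_congr rfl fun b _ => ?_
  rw [Finset.sum_apply]

/-- the tuple of complements of the colour classes -/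
def VV {k : ℕ} (jj : Option B → Fin k) (j : Fin k) : Finset (Option B) :=
  Finset.univ.filter fun o => jj o ≠ j

theorem mem_VV {k : ℕ} (jj : Option B → Fin k) (o : Option B) (j : Fin k) :
    o ∉ VV jj j ↔ jj o = j := by
  simp [VV]

/-- the value of the sum of cocharacters if `none` is missing from exactly one of the sets -/
theorem sum_lamV_apply {k : ℕ} (V : Fin k → Finset (Option B)) (j0 : Fin k)
    (h0 : ∀ j, none ∉ V j ↔ j = j0) (b : B) :
    (∑ j, lamV (V j)) b = 1 - ((Finset.univ.filter fun j => some b ∉ V j).card : ℤ) := by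
  rw [Finset.sum_apply]
  have h1 : ∀ j, lamV (V j) b = (if j = j0 then 1 else 0) - (if some b ∉ V j then (1 : ℤ) else 0) := by
    intro j
    have h2 := h0 j
    unfold lamV
    by_cases h3 : j = j0
    · have h4 : none ∉ V j := h2.2 h3
      by_cases h5 : some b ∈ V j <;> simp [h3] <;> simp_all
    · have h4 : none ∈ V j := by
        by_contra h4
        exact h3 (h2.1 h4)
      by_cases h5 : some b ∈ V j <;> simp [h3, h4, h5]
  rw [Finset.sum_congr rfl fun j _ => h1 j, Finset.sum_sub_distrib]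
  congr 1
  · simp
  · rw [Finset.sum_ite]
    simp

theorem sum_lamV_VV {k : ℕ} (jj : Option B → Fin k) : ∑ j, lamV (VV jj j) = 0 := by
  funext b
  rw [sum_lamV_apply (VV jj) (jj none) (fun j => by rw [mem_VV]; exact eq_comm)]
  have h1 : (Finset.univ.filter fun j => some b ∉ VV jj j) = {jj (some b)} := by
    ext j
    simp only [mem_VV, Finset.mem_filter, Finset.mem_univ, true_and, Finset.mem_singleton]
    exact eq_comm
  rw [h1]
  simp

/-- a tuple in the orbits of the tuple of `jj` with sum zero is in the orbit of the tuple -/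
theorem exists_orb {k : ℕ} (jj : Option B → Fin k) (V' : Fin k → Finset (Option B))
    (h : ∀ j, Q.orb (VV jj j) (V' j)) (h0 : ∑ j, lamV (V' j) = 0) :
    ∃ σ ∈ Q.W, ∀ j, vact σ (VV jj j) = V' j := by
  classical
  have hn : ∀ j, none ∈ V' j ↔ none ∈ VV jj j := by
    intro j
    obtain ⟨σ, _, h1⟩ := h j
    rw [← h1, mem_vact_none]
  have hn' : ∀ j, none ∉ V' j ↔ j = jj none := by
    intro j
    rw [hn j, mem_VV]
    exact eq_comm
  have hc : ∀ b : B, ∃ j, (Finset.univ.filter fun j => some b ∉ V' j) = {j} := by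
    intro b
    rw [← Finset.card_eq_one]
    have h1 := congrFun h0 b
    rw [sum_lamV_apply V' (jj none) hn'] at h1
    have h2 : (0 : B → ℤ) b = 0 := rfl
    rw [h2] at h1
    omega
  choose j' hj' using hc
  have hj : ∀ b j, some b ∉ V' j ↔ j' b = j := by
    intro b j
    have h1 : j ∈ (Finset.univ.filter fun j => some b ∉ V' j) ↔ j ∈ ({j' b} : Finset (Fin k)) := by
      rw [hj' b]
    simp only [Finset.mem_filter, Finset.mem_univ, true_and, Finset.mem_singleton] at h1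
    rw [h1]
    exact eq_comm
  obtain ⟨σ, hσ⟩ := exists_perm (fun b => (Q.vx b, jj (some b))) (fun b => (Q.vx b, j' b)) (by
    rintro ⟨i, j⟩
    obtain ⟨ρ, hρ, h1⟩ := h j
    refine Finset.card_equiv ρ ?_
    intro b
    simp only [Finset.mem_filter, Finset.mem_univ, true_and, Prod.mk.injEq]
    rw [(mem_W Q).1 hρ b, ← hj, ← h1, mem_vact_some, ← mem_VV]
    simp)
  simp only [Prod.mk.injEq] at hσ
  refine ⟨σ, (mem_W Q).2 fun b => (hσ b).1, fun j => ?_⟩
  ext o
  cases o with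
  | none => rw [mem_vact_none, hn]
  | some b =>
    rw [mem_vact_some, ← not_iff_not, mem_VV, hj, ← (hσ (σ⁻¹ b)).2]
    simp

/-- orbit sums -/
noncomputable def HH {k : ℕ} (V : Fin k → Finset (Option B)) (s : SS B Λ)
    (V' : Fin k → Finset (Option B)) : SS B Λ :=
  ∑ σ ∈ Q.Wf.filter (fun σ => ∀ j, vact σ (V j) = V' j), rename σ s

theorem rename_HH {k : ℕ} (V : Fin k → Finset (Option B)) (s : SS B Λ)
    {σ : Equiv.Perm B} (hσ : σ ∈ Q.W) (V' : Fin k → Finset (Option B)) :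
    rename σ (HH Q V s V') = HH Q V s (fun j => vact σ (V' j)) := by
  unfold HH
  rw [map_sum]
  refine Finset.sum_equiv (Equiv.mulLeft σ) (fun ρ => ?_) (fun ρ _ => ?_)
  · simp only [Finset.mem_filter, mem_Wf, Equiv.coe_mulLeft]
    constructor
    · rintro ⟨h1, h2⟩
      refine ⟨Q.W.mul_mem hσ h1, fun j => ?_⟩
      rw [vact_mul, h2 j]
    · rintro ⟨h1, h2⟩
      refine ⟨?_, fun j => ?_⟩
      · have h3 := Q.W.mul_mem (Q.W.inv_mem hσ) h1
        simpa using h3
      · have h3 := h2 j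
        rw [vact_mul] at h3
        exact (vact_bijective σ).1 h3
  · rw [rename_rename]
    rfl

theorem act_mul_kap {k : ℕ} (jj : Option B → Fin k) (g : B → ℕ)
    (hg : ∀ o o', H216.gO g o = H216.gO g o' ↔ jj o = jj o')
    {σ : Equiv.Perm B} (hσ : σ ∈ Q.W) :
    act σ (Q.kap g) = ∏ j, Q.e (lamV (vact σ (VV jj j))) := by
  rw [← H216.prod_e Q (VV jj) jj (mem_VV jj) g hg, map_prod]
  refine Finset.prod_congr rfl fun j _ => ?_
  rw [e_act Q σ hσ, lamV_vact]

theorem act_term {k : ℕ} (jj : Option B → Fin k) (g : B → ℕ)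
    (hg : ∀ o o', H216.gO g o = H216.gO g o' ↔ jj o = jj o') (s : SS B Λ)
    {σ : Equiv.Perm B} (hσ : σ ∈ Q.W) :
    act σ (toK s * Q.kap g) = toK (rename σ s) * ∏ j, Q.e (lamV (vact σ (VV jj j))) := by
  rw [map_mul, act_mul_kap Q jj g hg hσ, act_toK]

theorem toK_HH {k : ℕ} (V : Fin k → Finset (Option B)) (s : SS B Λ)
    (V' : Fin k → Finset (Option B)) :
    toK (HH Q V s V') =
      ∑ σ ∈ Q.Wf.filter (fun σ => ∀ j, vact σ (V j) = V' j), toK (rename σ s) := by
  unfold HH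
  exact map_sum _ _ _

theorem sum_vact_zero {k : ℕ} (jj : Option B → Fin k) (σ : Equiv.Perm B) :
    ∑ j, lamV (vact σ (VV jj j)) = 0 := by
  have h4 : ∀ j, lamV (vact σ (VV jj j)) = lactHom σ (lamV (VV jj j)) := by
    intro j
    rw [lamV_vact]
    rfl
  rw [Finset.sum_congr rfl fun j _ => h4 j, ← map_sum, sum_lamV_VV, map_zero]

theorem sum_act {k : ℕ} (jj : Option B → Fin k) (g : B → ℕ)
    (hg : ∀ o o', H216.gO g o = H216.gO g o' ↔ jj o = jj o') (s : SS B Λ) :
    ∑ σ ∈ Q.Wf, act σ (toK s * Q.kap g) =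
      ∑ V' : Fin k → Finset (Option B) with ∑ j, lamV (V' j) = 0,
        toK (HH Q (VV jj) s V') * ∏ j, Q.e (lamV (V' j)) := by
  classical
  rw [← Finset.sum_fiberwise_of_maps_to (s := Q.Wf)
    (t := Finset.univ.filter fun V' : Fin k → Finset (Option B) => ∑ j, lamV (V' j) = 0)
    (g := fun σ j => vact σ (VV jj j))
    (fun σ _ => Finset.mem_filter.2 ⟨Finset.mem_univ _, sum_vact_zero jj σ⟩)]
  refine Finset.sum_congr rfl fun V' _ => ?_
  rw [toK_HH, Finset.sum_mul]
  refine Finset.sum_congr ?_ fun σ hσ => ?_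
  · refine Finset.filter_congr fun σ _ => ?_
    exact ⟨fun h j => congrFun h j, fun h => funext h⟩
  · rw [Finset.mem_filter] at hσ
    rw [act_term Q jj g hg s ((mem_Wf Q).1 hσ.1)]
    have h5 : ∀ j, vact σ (VV jj j) = V' j := hσ.2
    rw [Finset.prod_congr rfl fun j _ => by rw [h5 j]]

/-- the hypothesis of `surj` -/
theorem atoms {k : ℕ} (jj : Option B → Fin k) (b : B) :
    ∃ c0 : ℚ, ∃ c : Fin k → ℚ, ∀ b' : B, Q.vx b' = Q.vx b →
      c0 + ∑ j, (if some b' ∈ VV jj j then c j else 0) =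
        if ∀ j, (some b' ∈ VV jj j ↔ some b ∈ VV jj j) then 1 else 0 := by
  classical
  refine ⟨1, fun j => if j = jj (some b) then -1 else 0, fun b' _ => ?_⟩
  have h1 : ∀ j, (if some b' ∈ VV jj j then (if j = jj (some b) then (-1 : ℚ) else 0) else 0) =
      if j = jj (some b) then (if some b' ∈ VV jj j then (-1 : ℚ) else 0) else 0 := by
    intro j
    by_cases h2 : j = jj (some b) <;> by_cases h3 : some b' ∈ VV jj j <;> simp [h2, h3]
  rw [Finset.sum_congr rfl fun j _ => h1 j]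
  simp only [Finset.sum_ite_eq', Finset.mem_univ, if_true]
  by_cases h4 : jj (some b') = jj (some b)
  · have h5 : some b' ∉ VV jj (jj (some b)) := (mem_VV _ _ _).2 h4
    rw [if_neg h5, if_pos]
    · norm_num
    · intro j
      rw [← not_iff_not, mem_VV, mem_VV, h4]
  · have h5 : some b' ∈ VV jj (jj (some b)) := by
      by_contra h5
      exact h4 ((mem_VV _ _ _).1 h5)
    rw [if_pos h5, if_neg]
    · norm_num
    · intro h6
      have h7 := (h6 (jj (some b))).1 h5
      exact absurd rfl (fun h8 => (mem_VV jj (some b) (jj (some b))).2 h8 h7)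

/-- A decomposable dressing supported on the orbits of the tuple of complements of the colour
classes, the constant coefficient of whose tuple sum is `∑_σ σ(s κ_g)`. -/
theorem exists_tau {k : ℕ} (jj : Option B → Fin k) [Algebra ℚ Λ] (g : B → ℕ)
    (hg : ∀ o o', H216.gO g o = H216.gO g o' ↔ jj o = jj o') (s : SS B Λ) :
    ∃ τ ∈ Q.Dec k, Q.SuppOn (VV jj) τ ∧
      (Q.MT k τ).coeff 0 = ∑ σ ∈ Q.Wf, act σ (toK s * Q.kap g) := by
  classical
  obtain ⟨τ, hτ, h1, h2⟩ := surj Q k (VV jj) (atoms Q jj) (HH Q (VV jj) s (VV jj)) (by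
    intro σ hσ h1
    rw [rename_HH Q _ s hσ]
    congr 1
    funext j
    exact h1 j)
  refine ⟨τ, hτ, h2, ?_⟩
  rw [MT_coeff]
  -- the value of `τ` on tuples of sum zero
  have h3 : ∀ V', ∑ j, lamV (V' j) = 0 → τ V' = HH Q (VV jj) s V' := by
    intro V' hV'
    by_cases h4 : ∃ σ ∈ Q.W, ∀ j, vact σ (VV jj j) = V' j
    · obtain ⟨σ, hσ, h5⟩ := h4
      have h6 : V' = fun j => vact σ (VV jj j) := funext fun j => (h5 j).symm
      rw [h6, Dec_equivariant Q k hτ hσ, h1, rename_HH Q _ s hσ]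
    · have h5 : HH Q (VV jj) s V' = 0 := by
        unfold HH
        rw [Finset.filter_eq_empty_iff.2, Finset.sum_empty]
        intro σ hσ h6
        exact h4 ⟨σ, (mem_Wf Q).1 hσ, h6⟩
      rw [h5]
      by_contra h6
      exact h4 (exists_orb Q jj V' (h2 V' h6) hV')
  rw [sum_act Q jj g hg s]
  refine Finset.sum_congr rfl fun V' hV' => ?_
  rw [h3 V' (Finset.mem_filter.1 hV').2]

theorem none_of_suppOn {k : ℕ} {jj : Option B → Fin k} {V' : Fin k → Finset (Option B)}
    (h : ∀ j, Q.orb (VV jj j) (V' j)) (j : Fin k) : none ∉ V' j ↔ j = jj none := by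
  obtain ⟨σ, _, h3⟩ := h j
  rw [← h3, mem_vact_none, mem_VV]
  exact eq_comm

theorem le_one_of_orb {k : ℕ} {jj : Option B → Fin k} {V' : Fin k → Finset (Option B)}
    (h : ∀ j, Q.orb (VV jj j) (V' j)) (b : B) : (∑ j, lamV (V' j)) b ≤ 1 := by
  rw [sum_lamV_apply V' (jj none) (none_of_suppOn Q h)]
  omega

theorem chg_of_orb {k : ℕ} {jj : Option B → Fin k} {V' : Fin k → Finset (Option B)}
    (h : ∀ j, Q.orb (VV jj j) (V' j)) (i : I) : Q.chg i (∑ j, lamV (V' j)) = 0 := by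
  rw [chg_sum]
  have h5 : ∀ j, Q.chg i (lamV (V' j)) = Q.chg i (lamV (VV jj j)) := by
    intro j
    obtain ⟨σ, hσ, h6⟩ := h j
    rw [← h6, lamV_vact, chg_lact Q i hσ]
  rw [Finset.sum_congr rfl fun j _ => h5 j, ← chg_sum, sum_lamV_VV]
  simp [QD.chg]

theorem ne_of_orb {k : ℕ} {jj : Option B → Fin k} (g : B → ℕ) (hg0 : g ≠ 0)
    (hg : ∀ o o', H216.gO g o = H216.gO g o' ↔ jj o = jj o') {V' : Finset (Option B)}
    (h : Q.orb (VV jj (jj none)) V') : V' ≠ ∅ ∧ V' ≠ Finset.univ := by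
  obtain ⟨σ, _, h3⟩ := h
  rw [← h3]
  refine ⟨fun h4 => ?_, fun h4 => ?_⟩
  · rw [TB.vact_eq_empty] at h4
    apply hg0
    funext b
    have h5 : some b ∉ VV jj (jj none) := by rw [h4]; simp
    rw [mem_VV] at h5
    exact (hg (some b) none).2 h5
  · rw [TB.vact_eq_univ] at h4
    have h5 : none ∉ VV jj (jj none) := (mem_VV _ _ _).2 rfl
    rw [h4] at h5
    exact h5 (Finset.mem_univ _)

theorem main {k : ℕ} (jj : Option B → Fin k) [Algebra ℚ Λ] (g : B → ℕ) (hg0 : g ≠ 0)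
    (hg : ∀ o o', H216.gO g o = H216.gO g o' ↔ jj o = jj o') (s : SS B Λ) :
    ∃ y ∈ Q.A, y ∈ Q.II ∧ (∀ lam, y.coeff lam ≠ 0 → (∀ b, lam b ≤ 1) ∧ ∀ i, Q.chg i lam = 0) ∧
      y.coeff 0 = ∑ σ ∈ Q.Wf, act σ (toK s * Q.kap g) := by
  classical
  obtain ⟨τ, hτ, h2, h1⟩ := exists_tau Q jj g hg s
  refine ⟨Q.MT k τ, MT_mem Q k hτ, MT_memII Q k hτ (jj none) ?_, ?_, h1⟩
  · intro V' hV'
    exact ne_of_orb Q g hg0 hg (h2 V' hV' (jj none))
  · intro lam hlam
    rw [MT_coeff] at hlam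
    obtain ⟨V', hV', h3⟩ := Finset.exists_ne_zero_of_sum_ne_zero hlam
    rw [Finset.mem_filter] at hV'
    have h4 : τ V' ≠ 0 := by
      intro h4
      apply h3
      rw [h4]
      simp
    rw [← hV'.2]
    exact ⟨fun b => le_one_of_orb Q (h2 V' h4) b, fun i => chg_of_orb Q (h2 V' h4) i⟩

/-- the colour classes indexed by `Fin (m+1)`, class `0` being the one of `none` -/
theorem exists_index (g : B → ℕ) : ∃ m : ℕ, ∃ jj : Option B → Fin (m + 1),
    (∀ o o', H216.gO g o = H216.gO g o' ↔ jj o = jj o') ∧ jj none = 0 ∧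
      Function.Surjective jj := by
  classical
  let T : Finset ℕ := Finset.univ.image (H216.gO g)
  have hT : ∀ o, H216.gO g o ∈ T := fun o => Finset.mem_image_of_mem _ (Finset.mem_univ o)
  obtain ⟨m, hm⟩ : ∃ m, T.card = m + 1 :=
    ⟨T.card - 1, (Nat.succ_pred_eq_of_pos (Finset.card_pos.2 ⟨_, hT none⟩)).symm⟩
  let e0 : T ≃ Fin (m + 1) := T.equivFinOfCardEq hm
  let e1 : T ≃ Fin (m + 1) := e0.trans (Equiv.swap (e0 ⟨H216.gO g none, hT none⟩) 0)
  refine ⟨m, fun o => e1 ⟨H216.gO g o, hT o⟩, fun o o' => ?_, ?_, ?_⟩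
  · rw [Equiv.apply_eq_iff_eq, Subtype.mk.injEq]
  · show (Equiv.swap (e0 ⟨H216.gO g none, hT none⟩) 0) (e0 ⟨H216.gO g none, hT none⟩) = 0
    rw [Equiv.swap_apply_left]
  · intro j
    obtain ⟨⟨n, hn⟩, hx⟩ := e1.surjective j
    obtain ⟨o, _, ho⟩ := Finset.mem_image.1 hn
    refine ⟨o, ?_⟩
    rw [← hx]
    simp only [ho]

end B2

variable {I E B Λ : Type*} [Fintype E] [DecidableEq I] [Fintype B] [DecidableEq B] [CommRing Λ]
  [IsDomain Λ]
variable (Q : QD I E B Λ)

/-- lifting of `∑_σ σ(s κ_g)` to an element of `A ∩ II` whose support has entries at most one and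
charge zero -/
theorem kap_lift [Algebra ℚ Λ] (g : B → ℕ) (hg : g ≠ 0) (s : SS B Λ) :
    ∃ y ∈ Q.A, y ∈ Q.II ∧ (∀ lam, y.coeff lam ≠ 0 → (∀ b, lam b ≤ 1) ∧ ∀ i, Q.chg i lam = 0) ∧
      y.coeff 0 = ∑ σ ∈ Q.Wf, act σ (toK s * Q.kap g) := by
  obtain ⟨m, jj, h1, _, _⟩ := B2.exists_index g
  exact B2.main Q jj g hg h1 s

end Vale.Agent.P291
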