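import Vale.Agent.P291.Core2
import Vale.Agent.P291.H216.Cluster

/-!
# P291, block IIa: existence of the cluster map
-/

open MvPolynomial

namespace Vale.Agent.P291

variable {I E B Λ : Type*} [Fintype E] [DecidableEq I] [Fintype B] [DecidableEq B] [CommRing Λ]
  [IsDomain Λ]
variable (Q : QD I E B Λ)

/-- (II-a) -/
theorem exists_cl {lam : B → ℤ} (h1 : ∀ b, lam b ≤ 1) (h2 : ∀ i, Q.chg i lam = 0) :
    ∃ cl : B → B, Q.IsCl lam cl := by
  classical
  obtain ⟨cl, hcl⟩ := H216.exists_isCl Q.vx lam h1 (fun i => by
    have := h2 i
    unfold QD.chg at this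
    convert this)
  refine ⟨cl, hcl.cl_of_le, ?_, hcl.vx_cl, ?_⟩
  · intro b hb
    refine lt_of_le_of_ne (hcl.lam_cl b) ?_
    intro h0
    have hc := hcl.card_fib (cl b) (hcl.lam_cl b)
    rw [h0] at hc
    have hc1 : (H216.fib cl (cl b)).card = 1 := by omega
    rw [Finset.card_eq_one] at hc1
    obtain ⟨a, ha⟩ := hc1
    have hb1 : b ∈ H216.fib cl (cl b) := by simp
    have hb2 : cl b ∈ H216.fib cl (cl b) := by
      simp only [H216.mem_fib]; exact hcl.cl_cl b
    rw [ha, Finset.mem_singleton] at hb1 hb2
    rw [← hb2] at hb1
    rw [← hb1, hb] at h0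
    exact one_ne_zero h0
  · intro b hb
    have hc := hcl.card_fib b hb.le
    have hins : H216.fib cl b =
        insert b (Finset.univ.filter fun c => lam c = 1 ∧ cl c = b) := by
      ext c
      simp only [H216.mem_fib, Finset.mem_insert, Finset.mem_filter, Finset.mem_univ, true_and]
      constructor
      · intro h
        by_cases h3 : lam c = 1
        · exact Or.inr ⟨h3, h⟩
        · left
          have := h1 c
          rw [hcl.cl_of_le c (by omega)] at h
          exact h
      · rintro (rfl | ⟨_, h⟩)
        · exact hcl.cl_of_le _ hb.le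
        · exact h
    rw [hins, Finset.card_insert_of_notMem] at hc
    · push_cast at hc
      omega
    · simp only [Finset.mem_filter, Finset.mem_univ, true_and, not_and]
      intro h; omega

/-- Conversion of the frozen definition to the working one. -/
theorem QD.IsCl.toH216 {lam : B → ℤ} (h1 : ∀ b, lam b ≤ 1) {cl : B → B} (h : Q.IsCl lam cl) :
    H216.IsCl Q.vx lam cl where
  vx_cl := h.2.2.1
  cl_of_le := h.1
  lam_cl b := by
    by_cases hb : lam b = 1
    · exact (h.2.1 b hb).le
    · have := h1 b
      rw [h.1 b (by omega)]; omega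
  card_fib c hc := by
    classical
    have hins : H216.fib cl c =
        insert c (Finset.univ.filter fun b => lam b = 1 ∧ cl b = c) := by
      ext b
      simp only [H216.mem_fib, Finset.mem_insert, Finset.mem_filter, Finset.mem_univ, true_and]
      constructor
      · intro h5
        by_cases h3 : lam b = 1
        · exact Or.inr ⟨h3, h5⟩
        · left
          have := h1 b
          rw [h.1 b (by omega)] at h5
          exact h5
      · rintro (rfl | ⟨_, h⟩)
        · exact h.1 _ hc
        · exact h
    have hnot : c ∉ (Finset.univ.filter fun b => lam b = 1 ∧ cl b = c) := by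
      simp only [Finset.mem_filter, Finset.mem_univ, true_and, not_and]
      intro h; omega
    rw [hins, Finset.card_insert_of_notMem hnot]
    push_cast
    congr 1
    rcases lt_or_eq_of_le hc with hlt | heq
    · exact h.2.2.2 c hlt
    · rw [heq, neg_zero, Nat.cast_eq_zero, Finset.card_eq_zero]
      ext b
      simp only [Finset.mem_filter, Finset.mem_univ, true_and, Finset.notMem_empty, iff_false,
        not_and]
      intro hb hbc
      have := h.2.1 b hb
      rw [hbc, heq] at this
      exact lt_irrefl _ this

end Vale.Agent.P291
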