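import Vale.Agent.P291.Core2

/-!
# P291, block L: level sets of a cocharacter and multiplicativity of `e` on chains
-/

open MvPolynomial

namespace Vale.Agent.P291

section level

variable {B : Type*} [Fintype B]

theorem lo_le (lam : B → ℤ) (o : Option B) : lo lam ≤ ext lam o :=
  Finset.inf'_le _ (Finset.mem_univ o)

theorem le_hi (lam : B → ℤ) (o : Option B) : ext lam o ≤ hi lam :=
  Finset.le_sup' _ (Finset.mem_univ o)

theorem exists_lo (lam : B → ℤ) : ∃ o, ext lam o = lo lam := by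
  obtain ⟨o, _, ho⟩ := Finset.exists_mem_eq_inf' (s := (Finset.univ : Finset (Option B)))
    ⟨none, Finset.mem_univ _⟩ (ext lam)
  exact ⟨o, ho.symm⟩

theorem exists_hi (lam : B → ℤ) : ∃ o, ext lam o = hi lam := by
  obtain ⟨o, _, ho⟩ := Finset.exists_mem_eq_sup' (s := (Finset.univ : Finset (Option B)))
    ⟨none, Finset.mem_univ _⟩ (ext lam)
  exact ⟨o, ho.symm⟩

theorem lo_le_hi (lam : B → ℤ) : lo lam ≤ hi lam := (lo_le lam none).trans (le_hi lam none)

theorem len_cast (lam : B → ℤ) : (len lam : ℤ) = hi lam - lo lam := by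
  have := lo_le_hi lam
  unfold len
  omega

/-- number of `j < n` with `j + 1 ≤ c` -/
theorem sum_thresh (n : ℕ) (a c : ℤ) (h0 : 0 ≤ c) (h1 : c ≤ n) :
    ∑ j : Fin n, (if a + 1 + (j : ℤ) ≤ a + c then (1 : ℤ) else 0) = c := by
  have h2 : ∑ j : Fin n, (if a + 1 + (j : ℤ) ≤ a + c then (1 : ℤ) else 0)
      = ∑ j ∈ Finset.range n, (if a + 1 + (j : ℤ) ≤ a + c then (1 : ℤ) else 0) :=
    Fin.sum_univ_eq_sum_range (fun j : ℕ => if a + 1 + (j : ℤ) ≤ a + c then (1 : ℤ) else 0) n
  rw [h2, Finset.sum_boole]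
  have h3 : (Finset.range n).filter (fun j : ℕ => a + 1 + (j : ℤ) ≤ a + c)
      = Finset.range c.toNat := by
    ext j
    simp only [Finset.mem_filter, Finset.mem_range]
    omega
  rw [h3, Finset.card_range]
  omega

variable [DecidableEq B]

theorem mem_lv (lam : B → ℤ) (j : Fin (len lam)) (o : Option B) :
    o ∈ lv lam j ↔ lo lam + 1 + (j : ℤ) ≤ ext lam o := by
  simp [lv]

theorem lv_ne_empty (lam : B → ℤ) (j : Fin (len lam)) : lv lam j ≠ ∅ := by
  obtain ⟨o, ho⟩ := exists_hi lam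
  have hj := j.2
  have hl := len_cast lam
  have : o ∈ lv lam j := by
    rw [mem_lv, ho]
    omega
  exact Finset.ne_empty_of_mem this

theorem lv_ne_univ (lam : B → ℤ) (j : Fin (len lam)) : lv lam j ≠ Finset.univ := by
  obtain ⟨o, ho⟩ := exists_lo lam
  intro h
  have h1 : o ∈ lv lam j := by rw [h]; exact Finset.mem_univ _
  rw [mem_lv, ho] at h1
  omega

theorem lv_anti (lam : B → ℤ) {i j : Fin (len lam)} (h : i ≤ j) : lv lam j ⊆ lv lam i := by
  intro o ho
  rw [mem_lv] at ho ⊢
  have : (i : ℕ) ≤ (j : ℕ) := h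
  omega

theorem sum_lv (lam : B → ℤ) : ∑ j, lamV (lv lam j) = lam := by
  have key : ∀ o : Option B, ∑ j : Fin (len lam), (if o ∈ lv lam j then (1 : ℤ) else 0)
      = ext lam o - lo lam := by
    intro o
    have h1 := lo_le lam o
    have h2 := le_hi lam o
    have h3 := len_cast lam
    have h4 := sum_thresh (len lam) (lo lam) (ext lam o - lo lam) (by omega) (by omega)
    rw [← h4]
    refine Finset.sum_congr rfl fun j _ => ?_
    have : (o ∈ lv lam j) ↔ lo lam + 1 + (j : ℤ) ≤ lo lam + (ext lam o - lo lam) := by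
      rw [mem_lv]
      constructor <;> intro h <;> omega
    by_cases hh : o ∈ lv lam j
    · rw [if_pos hh, if_pos (this.1 hh)]
    · rw [if_neg hh, if_neg (fun h => hh (this.2 h))]
  funext b
  rw [Finset.sum_apply]
  simp only [lamV]
  rw [Finset.sum_sub_distrib, key, key]
  simp [ext]

set_option linter.unusedSectionVars false in
theorem len_pos {lam : B → ℤ} (h : lam ≠ 0) : 0 < len lam := by
  obtain ⟨b, hb⟩ := Function.ne_iff.1 h
  have h1 := lo_le lam (some b)
  have h2 := le_hi lam (some b)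
  have h3 := lo_le lam none
  have h4 := le_hi lam none
  have h5 := len_cast lam
  simp only [ext, Option.elim_some, Option.elim_none] at h1 h2 h3 h4
  have hb' : lam b ≠ 0 := hb
  omega

/-- integers of the same sign -/
theorem toNat_sum_of_sign {ι : Type*} (s : Finset ι) (d : ι → ℤ)
    (h : (∀ j ∈ s, 0 ≤ d j) ∨ (∀ j ∈ s, d j ≤ 0)) :
    (∑ j ∈ s, d j).toNat = ∑ j ∈ s, (d j).toNat := by
  rcases h with h | h
  · have h1 : (∑ j ∈ s, ((d j).toNat : ℤ)) = ∑ j ∈ s, d j :=
      Finset.sum_congr rfl fun j hj => Int.toNat_of_nonneg (h j hj)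
    rw [← h1, ← Nat.cast_sum, Int.toNat_natCast]
  · have h1 : ∑ j ∈ s, d j ≤ 0 := Finset.sum_nonpos h
    have h2 : ∑ j ∈ s, (d j).toNat = 0 :=
      Finset.sum_eq_zero fun j hj => Int.toNat_eq_zero.2 (h j hj)
    rw [h2]
    exact Int.toNat_eq_zero.2 h1

omit [Fintype B] in
theorem ext_lamV (V : Finset (Option B)) (o : Option B) :
    ext (lamV V) o = (if o ∈ V then 1 else 0) - (if none ∈ V then 1 else 0) := by
  cases o with
  | none => simp [ext]
  | some b => simp [ext, lamV]

omit [Fintype B] [DecidableEq B] in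
theorem ext_sum {ι : Type*} (s : Finset ι) (f : ι → B → ℤ) (o : Option B) :
    ext (∑ j ∈ s, f j) o = ∑ j ∈ s, ext (f j) o := by
  cases o with
  | none => simp [ext]
  | some b => simp [ext]

omit [Fintype B] in
/-- on a chain the difference of two indicators has constant sign -/
theorem chain_toNat {k : ℕ} (V : Fin k → Finset (Option B)) (hV : ∀ i j, i ≤ j → V j ⊆ V i)
    (o o' : Option B) :
    (ext (∑ j, lamV (V j)) o - ext (∑ j, lamV (V j)) o').toNat
      = ∑ j, (ext (lamV (V j)) o - ext (lamV (V j)) o').toNat := by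
  rw [ext_sum, ext_sum, ← Finset.sum_sub_distrib]
  refine toNat_sum_of_sign _ _ ?_
  simp only [ext_lamV]
  by_cases h : ∃ i, o ∈ V i ∧ o' ∉ V i
  · left
    obtain ⟨i, hi1, hi2⟩ := h
    intro j _
    have : o' ∈ V j → o ∈ V j := by
      intro hj
      rcases le_total i j with hij | hij
      · exact absurd (hV i j hij hj) hi2
      · exact hV j i hij hi1
    by_cases h1 : o' ∈ V j
    · simp [h1, this h1]
    · by_cases h2 : o ∈ V j <;> simp [h1, h2]
  · right
    intro j _
    have : o ∈ V j → o' ∈ V j := by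
      intro hj
      by_contra h'
      exact h ⟨j, hj, h'⟩
    by_cases h1 : o ∈ V j
    · simp [h1, this h1]
    · by_cases h2 : o' ∈ V j <;> simp [h1, h2]

end level

section chain

variable {I E B Λ : Type*} [Fintype E] [DecidableEq I] [Fintype B] [DecidableEq B] [CommRing Λ]
  [IsDomain Λ]
variable (Q : QD I E B Λ)

omit [IsDomain Λ] in
theorem rho_chain {k : ℕ} (V : Fin k → Finset (Option B)) (hV : ∀ i j, i ≤ j → V j ⊆ V i) :
    Q.rho (∑ j, lamV (V j)) = ∏ j, Q.rho (lamV (V j)) := by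
  unfold QD.rho
  rw [Finset.prod_comm]
  refine Finset.prod_congr rfl fun p _ => ?_
  rw [Finset.prod_pow_eq_pow_sum]
  congr 1
  exact chain_toNat V hV (some p.2.1) p.2.2

omit [Fintype E] [IsDomain Λ] in
theorem den_chain {k : ℕ} (V : Fin k → Finset (Option B)) (hV : ∀ i j, i ≤ j → V j ⊆ V i) :
    Q.den (∑ j, lamV (V j)) = ∏ j, Q.den (lamV (V j)) := by
  unfold QD.den
  rw [Finset.prod_comm]
  refine Finset.prod_congr rfl fun p _ => ?_
  rw [Finset.prod_pow_eq_pow_sum]
  congr 1
  exact chain_toNat V hV (some p.1) (some p.2)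

/-- `e` is multiplicative on chains -/
theorem e_chain (k : ℕ) (V : Fin k → Finset (Option B)) (hV : ∀ i j, i ≤ j → V j ⊆ V i) :
    ∏ j, Q.e (lamV (V j)) = Q.e (∑ j, lamV (V j)) := by
  unfold QD.e
  rw [rho_chain Q V hV, den_chain Q V hV, Finset.prod_div_distrib]
  simp only [toK, map_prod]

end chain

end Vale.Agent.P291
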