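import Vale.Agent.P291.LBlk

/-!
# P291, block N: norms of sums of moved level sets
-/

open MvPolynomial

namespace Vale.Agent.P291

namespace NB

section

variable {B : Type*} [Fintype B] [DecidableEq B]

omit [Fintype B] [DecidableEq B] in
theorem none_mem_vact (σ : Equiv.Perm B) (V : Finset (Option B)) :
    none ∈ vact σ V ↔ none ∈ V := by
  unfold vact
  rw [Finset.mem_map_equiv]
  rfl

omit [Fintype B] [DecidableEq B] in
theorem some_mem_vact (σ : Equiv.Perm B) (V : Finset (Option B)) (b : B) :
    some b ∈ vact σ V ↔ some (σ⁻¹ b) ∈ V := by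
  unfold vact
  rw [Finset.mem_map_equiv]
  rfl

/-- number of the sets that contain the box `b` -/
def cnt {n : ℕ} (V : Fin n → Finset (Option B)) (b : B) : ℤ :=
  ∑ j, if some b ∈ V j then 1 else 0

/-- number of the sets that contain the framing box -/
def qn {n : ℕ} (V : Fin n → Finset (Option B)) : ℤ := ∑ j, if none ∈ V j then 1 else 0

/-- boxes of a set -/
def body (V : Finset (Option B)) : Finset B := Finset.univ.filter fun b => some b ∈ V

theorem mem_body {V : Finset (Option B)} {b : B} : b ∈ body V ↔ some b ∈ V := by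
  simp [body]

omit [Fintype B] in
theorem sum_lamV_apply {n : ℕ} (V : Fin n → Finset (Option B)) (b : B) :
    (∑ j, lamV (V j)) b = cnt V b - qn V := by
  rw [Finset.sum_apply, cnt, qn, ← Finset.sum_sub_distrib]
  rfl

theorem nrm_eq {n : ℕ} (V : Fin n → Finset (Option B)) :
    nrm (∑ j, lamV (V j)) = ∑ b, cnt V b ^ 2 - 2 * qn V * ∑ b, cnt V b +
      (Fintype.card B : ℤ) * qn V ^ 2 := by
  unfold nrm
  simp_rw [sum_lamV_apply]
  have : ∀ b, (cnt V b - qn V) ^ 2 = cnt V b ^ 2 - 2 * qn V * cnt V b + qn V ^ 2 :=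
    fun b => by ring
  simp_rw [this]
  rw [Finset.sum_add_distrib, Finset.sum_sub_distrib, ← Finset.mul_sum]
  simp

theorem sum_cnt {n : ℕ} (V : Fin n → Finset (Option B)) :
    ∑ b, cnt V b = ∑ j, ((body (V j)).card : ℤ) := by
  unfold cnt
  rw [Finset.sum_comm]
  refine Finset.sum_congr rfl fun j _ => ?_
  unfold body
  rw [Finset.card_filter]
  push_cast
  rfl

theorem sum_cnt_sq {n : ℕ} (V : Fin n → Finset (Option B)) :
    ∑ b, cnt V b ^ 2 = ∑ j, ∑ l, ((body (V j) ∩ body (V l)).card : ℤ) := by
  have h1 : ∀ b, cnt V b ^ 2 = ∑ j, ∑ l, (if b ∈ body (V j) ∩ body (V l) then (1 : ℤ) else 0) := by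
    intro b
    unfold cnt
    rw [sq, Finset.sum_mul_sum]
    refine Finset.sum_congr rfl fun j _ => Finset.sum_congr rfl fun l _ => ?_
    simp only [Finset.mem_inter, mem_body]
    by_cases h : some b ∈ V j <;> by_cases h' : some b ∈ V l <;> simp [h, h']
  simp_rw [h1]
  rw [Finset.sum_comm]
  refine Finset.sum_congr rfl fun j _ => ?_
  rw [Finset.sum_comm]
  refine Finset.sum_congr rfl fun l _ => ?_
  rw [Finset.sum_ite_mem]
  simp

omit [Fintype B] in
/-- combinatorial core: two families with the same cardinalities, the first one a chain -/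
theorem sq_le {n : ℕ} (S T : Fin n → Finset B) (hS : ∀ i j, i ≤ j → S j ⊆ S i)
    (hc : ∀ j, (T j).card = (S j).card) :
    ∑ j, ∑ l, ((T j ∩ T l).card : ℤ) ≤ ∑ j, ∑ l, ((S j ∩ S l).card : ℤ) ∧
    (∑ j, ∑ l, ((T j ∩ T l).card : ℤ) = ∑ j, ∑ l, ((S j ∩ S l).card : ℤ) →
      ∀ i j, i ≤ j → T j ⊆ T i) := by
  have key : ∀ i j, i ≤ j → ((T i ∩ T j).card : ℤ) ≤ ((S i ∩ S j).card : ℤ) := by
    intro i j hij
    rw [Finset.inter_eq_right.2 (hS i j hij), ← hc j]
    exact_mod_cast Finset.card_le_card Finset.inter_subset_right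
  have key' : ∀ i j, ((T i ∩ T j).card : ℤ) ≤ ((S i ∩ S j).card : ℤ) := by
    intro i j
    rcases le_total i j with h | h
    · exact key i j h
    · rw [Finset.inter_comm, Finset.inter_comm (S i)]; exact key j i h
  refine ⟨Finset.sum_le_sum fun j _ => Finset.sum_le_sum fun l _ => key' j l, ?_⟩
  intro heq i j hij
  have h1 := (Finset.sum_eq_sum_iff_of_le
    (fun j _ => Finset.sum_le_sum fun l _ => key' j l)).1 heq i (Finset.mem_univ _)
  have h2 := (Finset.sum_eq_sum_iff_of_le (fun l _ => key' i l)).1 h1 j (Finset.mem_univ _)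
  rw [Finset.inter_eq_right.2 (hS i j hij), ← hc j] at h2
  have h3 : T i ∩ T j = T j := by
    apply Finset.eq_of_subset_of_card_le Finset.inter_subset_right
    exact_mod_cast h2.ge
  exact Finset.inter_eq_right.1 h3

omit [Fintype B] in
/-- in a decreasing chain membership is determined by the count -/
theorem mem_iff_cnt {n : ℕ} (T : Fin n → Finset B) (hT : ∀ i j, i ≤ j → T j ⊆ T i) (b : B)
    (j : Fin n) : b ∈ T j ↔ (j : ℕ) < (Finset.univ.filter fun i => b ∈ T i).card := by
  constructor
  · intro h
    have : (Finset.Iic j) ⊆ Finset.univ.filter fun i => b ∈ T i := by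
      intro i hi
      simp only [Finset.mem_filter, Finset.mem_univ, true_and]
      exact hT i j (Finset.mem_Iic.1 hi) h
    have h2 := Finset.card_le_card this
    rw [Fin.card_Iic] at h2
    omega
  · intro h
    by_contra hb
    have : (Finset.univ.filter fun i => b ∈ T i) ⊆ Finset.Iio j := by
      intro i hi
      simp only [Finset.mem_filter, Finset.mem_univ, true_and] at hi
      rw [Finset.mem_Iio]
      by_contra hij
      exact hb (hT j i (not_lt.1 hij) hi)
    have h2 := Finset.card_le_card this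
    rw [Fin.card_Iio] at h2
    omega

/-- two decreasing chains with the same number of boxes at every vertex are conjugate -/
theorem exists_perm {I : Type*} [DecidableEq I] (vx : B → I) {n : ℕ} (S T : Fin n → Finset B)
    (hS : ∀ i j, i ≤ j → S j ⊆ S i) (hT : ∀ i j, i ≤ j → T j ⊆ T i)
    (hc : ∀ j i, ((T j).filter fun b => vx b = i).card = ((S j).filter fun b => vx b = i).card) :
    ∃ σ : Equiv.Perm B, (∀ b, vx (σ b) = vx b) ∧ ∀ j b, σ b ∈ T j ↔ b ∈ S j := by
  classical
  -- counting functions
  set cS : B → ℕ := fun b => (Finset.univ.filter fun i => b ∈ S i).card with hcS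
  set cT : B → ℕ := fun b => (Finset.univ.filter fun i => b ∈ T i).card with hcT
  have mS : ∀ b j, b ∈ S j ↔ (j : ℕ) < cS b := fun b j => mem_iff_cnt S hS b j
  have mT : ∀ b j, b ∈ T j ↔ (j : ℕ) < cT b := fun b j => mem_iff_cnt T hT b j
  have bS : ∀ b, cS b ≤ n := fun b => by
    have := Finset.card_le_univ (Finset.univ.filter fun i => b ∈ S i)
    simpa using this
  have bT : ∀ b, cT b ≤ n := fun b => by
    have := Finset.card_le_univ (Finset.univ.filter fun i => b ∈ T i)
    simpa using this
  have hlt : ∀ i m, (Finset.univ.filter fun b => vx b = i ∧ m < cT b).card =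
      (Finset.univ.filter fun b => vx b = i ∧ m < cS b).card := by
    intro i m
    by_cases hm : m < n
    · have h1 : (Finset.univ.filter fun b => vx b = i ∧ m < cT b) =
          (T ⟨m, hm⟩).filter fun b => vx b = i := by
        ext b
        simp only [Finset.mem_filter, Finset.mem_univ, true_and, mT b ⟨m, hm⟩]
        tauto
      have h2 : (Finset.univ.filter fun b => vx b = i ∧ m < cS b) =
          (S ⟨m, hm⟩).filter fun b => vx b = i := by
        ext b
        simp only [Finset.mem_filter, Finset.mem_univ, true_and, mS b ⟨m, hm⟩]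
        tauto
      rw [h1, h2, hc]
    · have h1 : (Finset.univ.filter fun b => vx b = i ∧ m < cT b) = ∅ := by
        apply Finset.filter_eq_empty_iff.2
        intro b _ h
        have := bT b
        omega
      have h2 : (Finset.univ.filter fun b => vx b = i ∧ m < cS b) = ∅ := by
        apply Finset.filter_eq_empty_iff.2
        intro b _ h
        have := bS b
        omega
      rw [h1, h2]
  have hle : ∀ i m, (Finset.univ.filter fun b => vx b = i ∧ m ≤ cT b).card =
      (Finset.univ.filter fun b => vx b = i ∧ m ≤ cS b).card := by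
    intro i m
    rcases m with _ | m
    · simp
    · exact hlt i m
  have split : ∀ (c : B → ℕ) i m, (Finset.univ.filter fun b => vx b = i ∧ m ≤ c b).card =
      (Finset.univ.filter fun b => vx b = i ∧ c b = m).card +
      (Finset.univ.filter fun b => vx b = i ∧ m < c b).card := by
    intro c i m
    rw [← Finset.card_union_of_disjoint]
    · congr 1
      ext b
      simp only [Finset.mem_filter, Finset.mem_univ, true_and, Finset.mem_union]
      constructor
      · rintro ⟨h1, h2⟩
        rcases h2.eq_or_lt with h | h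
        · exact Or.inl ⟨h1, h.symm⟩
        · exact Or.inr ⟨h1, h⟩
      · rintro (⟨h1, h2⟩ | ⟨h1, h2⟩)
        · exact ⟨h1, h2.ge⟩
        · exact ⟨h1, h2.le⟩
    · rw [Finset.disjoint_filter]
      rintro b _ ⟨_, h⟩ ⟨_, h'⟩
      omega
  have heq : ∀ i m, (Finset.univ.filter fun b => vx b = i ∧ cT b = m).card =
      (Finset.univ.filter fun b => vx b = i ∧ cS b = m).card := by
    intro i m
    have h1 := split cT i m
    have h2 := split cS i m
    have h3 := hlt i m
    have h4 := hle i m
    omega
  have hcard : ∀ c : I × ℕ, Nonempty ({b // (vx b, cS b) = c} ≃ {b // (vx b, cT b) = c}) := by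
    rintro ⟨i, m⟩
    refine ⟨Fintype.equivOfCardEq ?_⟩
    rw [Fintype.card_subtype, Fintype.card_subtype]
    simp only [Prod.mk.injEq]
    exact (heq i m).symm
  let ev : ∀ c : I × ℕ, {b // (vx b, cS b) = c} ≃ {b // (vx b, cT b) = c} :=
    fun c => (hcard c).some
  have hσ : ∀ b, (vx (Equiv.ofFiberEquiv ev b), cT (Equiv.ofFiberEquiv ev b)) = (vx b, cS b) :=
    fun b => Equiv.ofFiberEquiv_map ev b
  refine ⟨Equiv.ofFiberEquiv ev, fun b => congrArg Prod.fst (hσ b), fun j b => ?_⟩
  rw [mT, mS]
  have h2 : cT (Equiv.ofFiberEquiv ev b) = cS b := congrArg Prod.snd (hσ b)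
  rw [h2]

end

end NB

namespace QD

variable {I E B Λ : Type*} [Fintype E] [DecidableEq I] [Fintype B] [DecidableEq B] [CommRing Λ]
  [IsDomain Λ]
variable (Q : QD I E B Λ)

end QD

section

variable {I E B Λ : Type*} [Fintype E] [DecidableEq I] [Fintype B] [DecidableEq B] [CommRing Λ]
  [IsDomain Λ]
variable (Q : QD I E B Λ)

/-- Moving the level sets of `lam` separately by elements of `W` does not increase the norm;
equality only if they are moved simultaneously. -/
theorem norm_le (lam : B → ℤ) (V : Fin (len lam) → Finset (Option B))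
    (hV : ∀ j, Q.orb (lv lam j) (V j)) :
    nrm (∑ j, lamV (V j)) ≤ nrm lam ∧
      (nrm (∑ j, lamV (V j)) = nrm lam →
        ∃ σ ∈ Q.W, (∀ j, V j = vact σ (lv lam j)) ∧ ∑ j, lamV (V j) = lact σ lam) := by
  classical
  set U : Fin (len lam) → Finset (Option B) := lv lam with hU
  choose τ hτW hτ using hV
  -- the bodies
  have hnone : ∀ j, (none ∈ V j ↔ none ∈ U j) := fun j => by
    rw [← hτ j]; exact NB.none_mem_vact _ _
  have hq : NB.qn V = NB.qn U := by
    unfold NB.qn
    exact Finset.sum_congr rfl fun j _ => by simp only [hnone j]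
  have hchain : ∀ i j, i ≤ j → NB.body (U j) ⊆ NB.body (U i) := by
    intro i j hij b hb
    rw [NB.mem_body] at hb ⊢
    exact lv_anti lam hij hb
  have hc : ∀ j i, ((NB.body (V j)).filter fun b => Q.vx b = i).card =
      ((NB.body (U j)).filter fun b => Q.vx b = i).card := by
    intro j i
    symm
    apply Finset.card_bij (fun b _ => τ j b)
    · intro b hb
      rw [Finset.mem_filter, NB.mem_body] at hb ⊢
      refine ⟨?_, (hτW j b).trans hb.2⟩
      rw [← hτ j, NB.some_mem_vact]
      simpa using hb.1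
    · intro a _ b _ h
      exact (τ j).injective h
    · intro b hb
      rw [Finset.mem_filter, NB.mem_body] at hb
      refine ⟨(τ j)⁻¹ b, ?_, by simp⟩
      rw [Finset.mem_filter, NB.mem_body]
      constructor
      · have := hb.1
        rw [← hτ j, NB.some_mem_vact] at this
        exact this
      · have h5 : τ j ((τ j)⁻¹ b) = b := by simp
        have := hτW j ((τ j)⁻¹ b)
        rw [h5] at this
        rw [← this]; exact hb.2
  have hc' : ∀ j, (NB.body (V j)).card = (NB.body (U j)).card := by
    intro j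
    rw [Finset.card_eq_sum_card_fiberwise (f := Q.vx) (t := Finset.univ.image Q.vx)
      (s := NB.body (V j)) (fun b _ => by simp),
      Finset.card_eq_sum_card_fiberwise (f := Q.vx) (t := Finset.univ.image Q.vx)
      (s := NB.body (U j)) (fun b _ => by simp)]
    exact Finset.sum_congr rfl fun i _ => hc j i
  have hsum : ∑ j, lamV (U j) = lam := sum_lv lam
  have hlin : ∑ b, NB.cnt V b = ∑ b, NB.cnt U b := by
    rw [NB.sum_cnt, NB.sum_cnt]
    exact Finset.sum_congr rfl fun j _ => by rw [hc' j]
  have hnl : nrm lam = ∑ b, NB.cnt U b ^ 2 - 2 * NB.qn U * ∑ b, NB.cnt U b +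
      (Fintype.card B : ℤ) * NB.qn U ^ 2 := by
    conv_lhs => rw [← hsum]
    exact NB.nrm_eq U
  obtain ⟨h1, h2⟩ := NB.sq_le (fun j => NB.body (U j)) (fun j => NB.body (V j)) hchain hc'
  rw [NB.nrm_eq V, hnl, hq, hlin]
  refine ⟨?_, ?_⟩
  · have := NB.sum_cnt_sq V
    have := NB.sum_cnt_sq U
    linarith
  · intro heq
    have h3 : ∀ i j, i ≤ j → NB.body (V j) ⊆ NB.body (V i) := by
      apply h2
      have := NB.sum_cnt_sq V
      have := NB.sum_cnt_sq U
      linarith
    obtain ⟨σ, hσ, hσ'⟩ := NB.exists_perm Q.vx (fun j => NB.body (U j)) (fun j => NB.body (V j))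
      hchain h3 hc
    have hmem : ∀ j b, (some b ∈ V j ↔ some (σ⁻¹ b) ∈ U j) := by
      intro j b
      have := hσ' j (σ⁻¹ b)
      have h5 : σ (σ⁻¹ b) = b := by simp
      rw [h5] at this
      simpa only [NB.mem_body] using this
    have hVU : ∀ j, V j = vact σ (U j) := by
      intro j
      ext o
      cases o with
      | none => rw [NB.none_mem_vact, hnone j]
      | some b => rw [NB.some_mem_vact, hmem j b]
    refine ⟨σ, hσ, hVU, ?_⟩
    funext b
    have e1 : lam (σ⁻¹ b) = (∑ j, lamV (U j)) (σ⁻¹ b) := by rw [hsum]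
    show (∑ j, lamV (V j)) b = lam (σ⁻¹ b)
    rw [e1, NB.sum_lamV_apply, NB.sum_lamV_apply, hq]
    congr 1
    unfold NB.cnt
    exact Finset.sum_congr rfl fun j _ => by simp only [hmem j b]

end

end Vale.Agent.P291
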