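import Vale.Agent.P291.QBlk
import Vale.Agent.P291.TBlk
import Vale.Agent.P291.LBlk
import Vale.Agent.P291.NBlk
import Vale.Agent.P291.SBlk

/-!
# P291, block X: existence of tuple sums with prescribed leading coefficient
-/

open MvPolynomial

set_option linter.unusedSectionVars false

namespace Vale.Agent.P291

variable {I E B Λ : Type*} [Fintype E] [DecidableEq I] [Fintype B] [DecidableEq B] [CommRing Λ]
  [IsDomain Λ]
variable (Q : QD I E B Λ)

namespace XB

theorem lact_sum {ι : Type*} (σ : Equiv.Perm B) (s : Finset ι) (f : ι → B → ℤ) :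
    lact σ (∑ j ∈ s, f j) = ∑ j ∈ s, lact σ (f j) := by
  funext b
  simp [lact, Finset.sum_apply]

theorem lact_one (lam : B → ℤ) : lact 1 lam = lam := by
  funext b; simp [lact]

theorem lact_mul (σ σ' : Equiv.Perm B) (lam : B → ℤ) :
    lact (σ * σ') lam = lact σ (lact σ' lam) := by
  funext b; simp [lact, mul_inv_rev]

theorem lact_inv_cancel (σ : Equiv.Perm B) (lam : B → ℤ) : lact σ⁻¹ (lact σ lam) = lam := by
  rw [← lact_mul, inv_mul_cancel, lact_one]

theorem nrm_lact (σ : Equiv.Perm B) (lam : B → ℤ) : nrm (lact σ lam) = nrm lam := by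
  unfold nrm lact
  exact Equiv.sum_comp σ⁻¹ (fun b => lam b ^ 2)

theorem mem_vact (σ : Equiv.Perm B) (V : Finset (Option B)) (o : Option B) :
    o ∈ vact σ V ↔ Option.map (σ⁻¹ : Equiv.Perm B) o ∈ V := by
  unfold vact
  rw [Finset.mem_map]
  constructor
  · rintro ⟨x, hx, rfl⟩
    rcases x with _ | b
    · simpa using hx
    · simpa using hx
  · intro h
    refine ⟨_, h, ?_⟩
    rcases o with _ | b <;> simp

theorem ext_lact (σ : Equiv.Perm B) (lam : B → ℤ) (o : Option B) :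
    ext (lact σ lam) o = ext lam (Option.map (σ⁻¹ : Equiv.Perm B) o) := by
  rcases o with _ | b <;> rfl

theorem vact_lv {σ : Equiv.Perm B} {lam : B → ℤ} (h : lact σ lam = lam) (j : Fin (len lam)) :
    vact σ (lv lam j) = lv lam j := by
  ext o
  rw [mem_vact]
  unfold lv
  simp only [Finset.mem_filter, Finset.mem_univ, true_and]
  rw [← ext_lact, h]

theorem lact_of_vact {σ : Equiv.Perm B} {lam : B → ℤ}
    (h : ∀ j, vact σ (lv lam j) = lv lam j) : lact σ lam = lam := by
  have h1 : lact σ (∑ j, lamV (lv lam j)) = ∑ j, lamV (lv lam j) := by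
    rw [lact_sum]
    refine Finset.sum_congr rfl fun j _ => ?_
    rw [← lamV_vact, h]
  rwa [sum_lv] at h1

end XB

open XB

theorem exists_MT [Algebra ℚ Λ] (hQ : Q.NonzeroLoops) {lam : B → ℤ} (h : SS B Λ)
    (hh : Q.InvL lam h) :
    ∃ τ ∈ Q.Dec (len lam), Q.SuppOn (lv lam) τ ∧ τ (lv lam) = h := by
  obtain ⟨τ, h1, h2, h3⟩ := surj_chain Q (len lam) (lv lam) (fun i j hij => lv_anti lam hij) h
    (fun σ hσ hV => hh σ hσ (lact_of_vact hV))
  exact ⟨τ, h1, h3, h2⟩

theorem MT_lead (hQ : Q.NonzeroLoops) {lam : B → ℤ}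
    {τ : (Fin (len lam) → Finset (Option B)) → SS B Λ} (hτ : τ ∈ Q.Dec (len lam))
    (hs : Q.SuppOn (lv lam) τ) :
    (Q.MT (len lam) τ).coeff lam = toK (τ (lv lam)) * Q.e lam ∧
    (∀ mu, (Q.MT (len lam) τ).coeff mu ≠ 0 → nrm mu ≤ nrm lam ∧
      (nrm mu = nrm lam → ∃ σ ∈ Q.W, mu = lact σ lam)) ∧
    (lam ≠ 0 → Q.MT (len lam) τ ∈ Q.II) := by
  refine ⟨?_, ?_, ?_⟩
  · rw [MT_coeff, Finset.sum_eq_single (lv lam)]
    · rw [e_chain Q (len lam) (lv lam) (fun i j hij => lv_anti lam hij), sum_lv]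
    · intro V hV hne
      rw [Finset.mem_filter] at hV
      by_cases h0 : τ V = 0
      · rw [h0]; simp [toK]
      · exfalso
        apply hne
        have h1 := norm_le Q lam V (hs V h0)
        obtain ⟨σ, hσ, h2, h3⟩ := h1.2 (by rw [hV.2])
        rw [hV.2] at h3
        funext j
        rw [h2 j, vact_lv h3.symm]
    · intro h
      exfalso
      apply h
      rw [Finset.mem_filter]
      exact ⟨Finset.mem_univ _, sum_lv lam⟩
  · intro mu hmu
    rw [MT_coeff] at hmu
    obtain ⟨V, hV, hne⟩ := Finset.exists_ne_zero_of_sum_ne_zero hmu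
    rw [Finset.mem_filter] at hV
    have h0 : τ V ≠ 0 := by
      intro h0
      apply hne
      rw [h0]; simp [toK]
    have h1 := norm_le Q lam V (hs V h0)
    rw [hV.2] at h1
    refine ⟨h1.1, fun h2 => ?_⟩
    obtain ⟨σ, hσ, _, h3⟩ := h1.2 h2
    exact ⟨σ, hσ, h3⟩
  · intro hlam
    have hl := len_pos hlam
    apply MT_memII Q (len lam) hτ ⟨0, hl⟩
    intro V hV
    obtain ⟨σ, hσ, h⟩ := hs V hV ⟨0, hl⟩
    rw [← h]
    constructor
    · rw [ne_eq, TB.vact_eq_empty]
      exact lv_ne_empty lam _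
    · rw [ne_eq, TB.vact_eq_univ]
      exact lv_ne_univ lam _

end Vale.Agent.P291
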