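import Vale.Agent.P291.LCBlk
import Vale.Agent.P291.XBlk

/-!
# P291, block F: straightening by induction on the norm
-/

open MvPolynomial

set_option linter.unusedSectionVars false

namespace Vale.Agent.P291


variable {I E B Λ : Type*} [Fintype E] [DecidableEq I] [Fintype B] [DecidableEq B] [CommRing Λ]
  [IsDomain Λ]
variable (Q : QD I E B Λ)

namespace FB

open XB

/-- conjugacy under the Weyl group -/
def conj : Setoid (B → ℤ) where
  r lam mu := ∃ σ ∈ Q.W, mu = lact σ lam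
  iseqv := by
    refine ⟨fun lam => ⟨1, one_mem _, (lact_one lam).symm⟩, ?_, ?_⟩
    · rintro lam mu ⟨σ, hσ, rfl⟩
      exact ⟨σ⁻¹, inv_mem hσ, (lact_inv_cancel σ lam).symm⟩
    · rintro lam mu nu ⟨σ, hσ, rfl⟩ ⟨σ', hσ', rfl⟩
      exact ⟨σ' * σ, mul_mem hσ' hσ, (lact_mul σ' σ lam).symm⟩

/-- representatives -/
theorem exists_reps (T : Finset (B → ℤ)) (hT : ∀ lam ∈ T, ∀ σ ∈ Q.W, lact σ lam ∈ T) :
    ∃ s ⊆ T, (∀ mu ∈ T, ∃ lam ∈ s, ∃ σ ∈ Q.W, mu = lact σ lam) ∧
      (∀ lam ∈ s, ∀ mu ∈ s, (∃ σ ∈ Q.W, mu = lact σ lam) → lam = mu) := by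
  classical
  let rep : (B → ℤ) → (B → ℤ) := fun mu => (Quotient.mk (conj Q) mu).out
  have hrep : ∀ mu, ∃ σ ∈ Q.W, mu = lact σ (rep mu) := fun mu =>
    Quotient.exact (s := conj Q) (Quotient.out_eq (Quotient.mk (conj Q) mu))
  have hrep2 : ∀ lam mu, (∃ σ ∈ Q.W, mu = lact σ lam) → rep lam = rep mu := by
    intro lam mu h
    have : Quotient.mk (conj Q) lam = Quotient.mk (conj Q) mu := Quotient.sound (s := conj Q) h
    simp only [rep, this]
  have hrr : ∀ mu, rep (rep mu) = rep mu := fun mu => hrep2 _ _ (hrep mu)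
  refine ⟨T.image rep, ?_, ?_, ?_⟩
  · intro lam h
    obtain ⟨mu, hmu, rfl⟩ := Finset.mem_image.1 h
    obtain ⟨σ, hσ, h2⟩ := hrep mu
    have : rep mu = lact σ⁻¹ mu := by
      conv_rhs => rw [h2]
      rw [lact_inv_cancel]
    rw [this]
    exact hT mu hmu _ (inv_mem hσ)
  · intro mu hmu
    exact ⟨rep mu, Finset.mem_image_of_mem _ hmu, hrep mu⟩
  · intro lam hlam mu hmu h
    obtain ⟨lam', _, rfl⟩ := Finset.mem_image.1 hlam
    obtain ⟨mu', _, rfl⟩ := Finset.mem_image.1 hmu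
    have := hrep2 _ _ h
    rwa [hrr, hrr] at this

theorem nrm_eq_zero {mu : B → ℤ} (h : nrm mu = 0) : mu = 0 := by
  unfold nrm at h
  rw [Finset.sum_eq_zero_iff_of_nonneg (fun _ _ => sq_nonneg _)] at h
  funext b
  have := h b (Finset.mem_univ _)
  simpa using this

theorem nrm_nonneg (mu : B → ℤ) : 0 ≤ nrm mu := Finset.sum_nonneg fun _ _ => sq_nonneg _

theorem nrm_zero : nrm (0 : B → ℤ) = 0 := by
  simp [nrm]

theorem lact_zero (σ : Equiv.Perm B) : lact σ (0 : B → ℤ) = 0 := rfl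

theorem MT_supp (Ω : Set (B → ℤ))
    (hΩ : ∀ lam ∈ Ω, ∀ V : Fin (len lam) → Finset (Option B),
      (∀ j, Q.orb (lv lam j) (V j)) → ∑ j, lamV (V j) ∈ Ω) {lam : B → ℤ} (hlam : lam ∈ Ω)
    {τ : (Fin (len lam) → Finset (Option B)) → SS B Λ}
    (hs : Q.SuppOn (lv lam) τ) (mu : B → ℤ) (hmu : (Q.MT (len lam) τ).coeff mu ≠ 0) :
    mu ∈ Ω := by
  rw [MT_coeff] at hmu
  obtain ⟨V, hV, hne⟩ := Finset.exists_ne_zero_of_sum_ne_zero hmu
  rw [Finset.mem_filter] at hV
  have h0 : τ V ≠ 0 := by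
    intro h0
    apply hne
    rw [h0]; simp [toK]
  rw [← hV.2]
  exact hΩ lam hlam V (hs V h0)

theorem F1_aux [Algebra ℚ Λ] (hQ : Q.NonzeroLoops) (Ω : Set (B → ℤ))
    (hΩ : ∀ lam ∈ Ω, ∀ V : Fin (len lam) → Finset (Option B),
      (∀ j, Q.orb (lv lam j) (V j)) → ∑ j, lamV (V j) ∈ Ω) (n : ℕ) :
    ∀ z : AA B Λ, z ∈ Q.A → (∀ mu, z.coeff mu ≠ 0 → mu ∈ Ω) →
    (∀ mu, z.coeff mu ≠ 0 → nrm mu ≤ n) →
    ∃ r ∈ Q.R, ∃ s : Finset (B → ℤ), ∃ τ : ∀ lam : B → ℤ,
      (Fin (len lam) → Finset (Option B)) → SS B Λ,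
      (∀ lam ∈ s, lam ≠ 0 ∧ lam ∈ Ω ∧ nrm lam ≤ n ∧ τ lam ∈ Q.Dec (len lam) ∧
        Q.SuppOn (lv lam) (τ lam)) ∧
      (∀ lam ∈ s, ∀ mu ∈ s, (∃ σ ∈ Q.W, mu = lact σ lam) → lam = mu) ∧
      z = QD.cst r + ∑ lam ∈ s, Q.MT (len lam) (τ lam) := by
  classical
  induction n with
  | zero =>
    intro z hz hz' hN
    have hsup : ∀ mu, mu ≠ 0 → z.coeff mu = 0 := by
      intro mu hmu
      by_contra h
      have h1 := hN mu h
      have h2 := nrm_nonneg mu
      apply hmu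
      apply nrm_eq_zero
      exact le_antisymm (by exact_mod_cast h1) h2
    have hz0 : z = AddMonoidAlgebra.single 0 (z.coeff 0) := by
      apply AddMonoidAlgebra.ext
      apply Finsupp.ext
      intro mu
      rw [AddMonoidAlgebra.coeff_single, Finsupp.single_apply]
      split_ifs with h
      · rw [h]
      · exact hsup mu (fun h' => h h'.symm)
    by_cases h0 : z.coeff 0 = 0
    · refine ⟨0, zero_mem _, ∅, fun _ => 0, ?_, ?_, ?_⟩
      · intro lam h; exact absurd h (Finset.notMem_empty _)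
      · intro lam h; exact absurd h (Finset.notMem_empty _)
      · rw [hz0, h0]; simp [QD.cst, toK]
    · obtain ⟨h, h1, h2⟩ := LC Q hQ hz h0 (by
        intro mu hmu
        rw [nrm_zero]
        have := hN mu hmu
        exact_mod_cast this)
      refine ⟨h, ?_, ∅, fun _ => 0, ?_, ?_, ?_⟩
      · intro σ hσ
        exact h2 σ hσ (lact_zero σ)
      · intro lam h; exact absurd h (Finset.notMem_empty _)
      · intro lam h; exact absurd h (Finset.notMem_empty _)
      · rw [hz0, h1, e_zero]; simp [QD.cst]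
  | succ n ih =>
    intro z hz hz' hN
    -- the elements of maximal norm
    let T : Finset (B → ℤ) := z.coeff.support.filter fun mu => nrm mu = n + 1
    have hTmem : ∀ mu, mu ∈ T ↔ z.coeff mu ≠ 0 ∧ nrm mu = n + 1 := by
      intro mu
      simp only [T, Finset.mem_filter, Finsupp.mem_support_iff]
    have hT : ∀ lam ∈ T, ∀ σ ∈ Q.W, lact σ lam ∈ T := by
      intro lam hlam σ hσ
      rw [hTmem] at hlam ⊢
      rw [A_inv Q hz hσ lam, nrm_lact]
      refine ⟨?_, hlam.2⟩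
      intro h
      exact hlam.1 (by simpa using h)
    obtain ⟨s0, hs0T, hs0a, hs0b⟩ := exists_reps Q T hT
    have hmax : ∀ lam ∈ T, ∀ mu, z.coeff mu ≠ 0 → nrm mu ≤ nrm lam := by
      intro lam hlam mu hmu
      rw [((hTmem lam).1 hlam).2]
      have := hN mu hmu
      exact_mod_cast this
    have hex : ∀ lam : B → ℤ, ∃ τ : (Fin (len lam) → Finset (Option B)) → SS B Λ,
        lam ∈ T → τ ∈ Q.Dec (len lam) ∧ Q.SuppOn (lv lam) τ ∧
          z.coeff lam = toK (τ (lv lam)) * Q.e lam := by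
      intro lam
      by_cases hlam : lam ∈ T
      · obtain ⟨h, h1, h2⟩ := LC Q hQ hz ((hTmem lam).1 hlam).1 (hmax lam hlam)
        obtain ⟨τ, h3, h4, h5⟩ := exists_MT Q hQ h h2
        exact ⟨τ, fun _ => ⟨h3, h4, by rw [h5]; exact h1⟩⟩
      · exact ⟨0, fun h => absurd h hlam⟩
    choose τ hτ using hex
    let y : (B → ℤ) → AA B Λ := fun lam => Q.MT (len lam) (τ lam)
    have hyA : ∀ lam ∈ s0, y lam ∈ Q.A := fun lam hlam => MT_mem Q _ (hτ lam (hs0T hlam)).1
    have hylead := fun lam (hlam : lam ∈ s0) =>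
      MT_lead Q hQ (hτ lam (hs0T hlam)).1 (hτ lam (hs0T hlam)).2.1
    have hyΩ : ∀ lam ∈ s0, ∀ mu, (y lam).coeff mu ≠ 0 → mu ∈ Ω := by
      intro lam hlam mu hmu
      exact MT_supp Q Ω hΩ (hz' lam ((hTmem lam).1 (hs0T hlam)).1) (hτ lam (hs0T hlam)).2.1 mu hmu
    have hlamn : ∀ lam ∈ s0, nrm lam = n + 1 := fun lam hlam => ((hTmem lam).1 (hs0T hlam)).2
    let z' : AA B Λ := z - ∑ lam ∈ s0, y lam
    have hz'A : z' ∈ Q.A := sub_mem hz (sum_mem hyA)
    have hcoef : ∀ mu, z'.coeff mu = z.coeff mu - ∑ lam ∈ s0, (y lam).coeff mu := by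
      intro mu
      simp only [z', AddMonoidAlgebra.coeff_sub, Finsupp.sub_apply, AddMonoidAlgebra.coeff_sum,
        Finsupp.finsetSum_apply]
    have hne : ∀ mu, z'.coeff mu ≠ 0 → z.coeff mu ≠ 0 ∨ ∃ lam ∈ s0, (y lam).coeff mu ≠ 0 := by
      intro mu hmu
      by_contra hcon
      push Not at hcon
      apply hmu
      rw [hcoef, hcon.1, Finset.sum_eq_zero hcon.2, sub_zero]
    have hz'Ω : ∀ mu, z'.coeff mu ≠ 0 → mu ∈ Ω := by
      intro mu hmu
      rcases hne mu hmu with h | ⟨lam, hlam, h⟩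
      · exact hz' mu h
      · exact hyΩ lam hlam mu h
    have hz'n1 : ∀ mu, z'.coeff mu ≠ 0 → nrm mu ≤ n + 1 := by
      intro mu hmu
      rcases hne mu hmu with h | ⟨lam, hlam, h⟩
      · have := hN mu h; exact_mod_cast this
      · rw [← hlamn lam hlam]
        exact ((hylead lam hlam).2.1 mu h).1
    have htop : ∀ mu, nrm mu = n + 1 → z'.coeff mu = 0 := by
      intro mu hmu
      rw [hcoef]
      by_cases hc : ∃ lam ∈ s0, ∃ σ ∈ Q.W, mu = lact σ lam
      · obtain ⟨lam, hlam, σ, hσ, rfl⟩ := hc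
        rw [Finset.sum_eq_single lam]
        · rw [A_inv Q hz hσ, A_inv Q (hyA lam hlam) hσ]
          have h1 := (hylead lam hlam).1
          have h2 := (hτ lam (hs0T hlam)).2.2
          show act σ (z.coeff lam) - act σ ((Q.MT (len lam) (τ lam)).coeff lam) = 0
          rw [h1, h2, sub_self]
        · intro lam' hlam' hne'
          by_contra h
          have h1 := ((hylead lam' hlam').2.1 _ h).2 (by rw [hmu, hlamn lam' hlam'])
          obtain ⟨σ', hσ', h2⟩ := h1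
          apply hne'
          apply hs0b lam' hlam' lam hlam
          refine ⟨σ⁻¹ * σ', mul_mem (inv_mem hσ) hσ', ?_⟩
          rw [lact_mul, ← h2, lact_inv_cancel]
        · intro h; exact absurd hlam h
      · have h1 : z.coeff mu = 0 := by
          by_contra h
          apply hc
          exact hs0a mu ((hTmem mu).2 ⟨h, hmu⟩)
        rw [h1, Finset.sum_eq_zero, sub_zero]
        intro lam hlam
        by_contra h
        apply hc
        obtain ⟨σ, hσ, h2⟩ := ((hylead lam hlam).2.1 mu h).2 (by rw [hmu, hlamn lam hlam])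
        exact ⟨lam, hlam, σ, hσ, h2⟩
    have hz'n : ∀ mu, z'.coeff mu ≠ 0 → nrm mu ≤ n := by
      intro mu hmu
      have h1 := hz'n1 mu hmu
      have h2 : nrm mu ≠ n + 1 := fun h => hmu (htop mu h)
      omega
    obtain ⟨r, hr, s1, τ1, h1, h2, h3⟩ := ih z' hz'A hz'Ω hz'n
    have hdisj : ∀ lam ∈ s0, ∀ mu ∈ s1, nrm mu < nrm lam := by
      intro lam hlam mu hmu
      have := (h1 mu hmu).2.2.1
      rw [hlamn lam hlam]
      omega
    refine ⟨r, hr, s0 ∪ s1, fun lam => if lam ∈ s0 then τ lam else τ1 lam, ?_, ?_, ?_⟩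
    · intro lam hlam
      rcases Finset.mem_union.1 hlam with h | h
      · simp only [if_pos h]
        refine ⟨?_, hz' lam ((hTmem lam).1 (hs0T h)).1, ?_, (hτ lam (hs0T h)).1,
          (hτ lam (hs0T h)).2.1⟩
        · rintro rfl
          have := hlamn 0 h
          rw [nrm_zero] at this
          omega
        · rw [hlamn lam h]; push_cast; exact le_rfl
      · have hn : lam ∉ s0 := fun h' => lt_irrefl _ (hdisj lam h' lam h)
        simp only [if_neg hn]
        obtain ⟨a1, a2, a3, a4, a5⟩ := h1 lam h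
        refine ⟨a1, a2, ?_, a4, a5⟩
        push_cast; omega
    · intro lam hlam mu hmu hc
      rcases Finset.mem_union.1 hlam with h | h <;> rcases Finset.mem_union.1 hmu with h' | h'
      · exact hs0b lam h mu h' hc
      · obtain ⟨σ, hσ, rfl⟩ := hc
        have := hdisj lam h _ h'
        rw [nrm_lact] at this
        exact absurd this (lt_irrefl _)
      · obtain ⟨σ, hσ, rfl⟩ := hc
        have := hdisj _ h' lam h
        rw [nrm_lact] at this
        exact absurd this (lt_irrefl _)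
      · exact h2 lam h mu h' hc
    · have hd : Disjoint s0 s1 := by
        rw [Finset.disjoint_left]
        intro lam h h'
        exact lt_irrefl _ (hdisj lam h lam h')
      rw [Finset.sum_union hd]
      have e0 : ∑ lam ∈ s0, Q.MT (len lam) (if lam ∈ s0 then τ lam else τ1 lam)
          = ∑ lam ∈ s0, y lam := by
        refine Finset.sum_congr rfl fun lam hlam => ?_
        rw [if_pos hlam]
      have e1 : ∑ lam ∈ s1, Q.MT (len lam) (if lam ∈ s0 then τ lam else τ1 lam)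
          = ∑ lam ∈ s1, Q.MT (len lam) (τ1 lam) := by
        refine Finset.sum_congr rfl fun lam hlam => ?_
        rw [if_neg (fun h => Finset.disjoint_left.1 hd h hlam)]
      rw [e0, e1]
      have h4 : z = z' + ∑ lam ∈ s0, y lam := by simp [z']
      rw [h4, h3]
      abel

end FB

/-- Every element of `A` with support in `Ω` is a sum of an element of `R` and of standard
tuple sums for pairwise non-conjugate `lam ∈ Ω`. -/
theorem F1 [Algebra ℚ Λ] (hQ : Q.NonzeroLoops) (Ω : Set (B → ℤ))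
    (hΩ : ∀ lam ∈ Ω, ∀ V : Fin (len lam) → Finset (Option B),
      (∀ j, Q.orb (lv lam j) (V j)) → ∑ j, lamV (V j) ∈ Ω)
    {z : AA B Λ} (hz : z ∈ Q.A) (hz' : ∀ mu, z.coeff mu ≠ 0 → mu ∈ Ω) (N : ℤ)
    (hN : ∀ mu, z.coeff mu ≠ 0 → nrm mu ≤ N) :
    ∃ r ∈ Q.R, ∃ s : Finset (B → ℤ), ∃ τ : ∀ lam : B → ℤ,
      (Fin (len lam) → Finset (Option B)) → SS B Λ,
      (∀ lam ∈ s, lam ≠ 0 ∧ lam ∈ Ω ∧ nrm lam ≤ N ∧ τ lam ∈ Q.Dec (len lam) ∧
        Q.SuppOn (lv lam) (τ lam)) ∧
      (∀ lam ∈ s, ∀ mu ∈ s, (∃ σ ∈ Q.W, mu = lact σ lam) → lam = mu) ∧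
      z = QD.cst r + ∑ lam ∈ s, Q.MT (len lam) (τ lam) := by
  by_cases h0 : 0 ≤ N
  · obtain ⟨n, rfl⟩ := Int.eq_ofNat_of_zero_le h0
    exact FB.F1_aux Q hQ Ω hΩ n z hz hz' hN
  · have hz0 : z = 0 := by
      apply AddMonoidAlgebra.ext
      apply Finsupp.ext
      intro mu
      by_contra h
      have h1 := hN mu h
      have h2 := FB.nrm_nonneg mu
      omega
    refine ⟨0, zero_mem _, ∅, fun _ => 0, ?_, ?_, ?_⟩
    · intro lam h; exact absurd h (Finset.notMem_empty _)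
    · intro lam h; exact absurd h (Finset.notMem_empty _)
    · rw [hz0]; simp [QD.cst, toK]

end Vale.Agent.P291
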