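import Vale.Agent.P291.H216.Tuple
import Vale.Agent.P291.LBlk
import Vale.Agent.P291.XBlk
import Vale.Agent.P291.FBlk

/-!
# P291, block IIb: the key vanishing
-/

set_option linter.unusedSectionVars false

open MvPolynomial

namespace Vale.Agent.P291

namespace H216

variable {I E B Λ : Type*} [Fintype E] [DecidableEq I] [Fintype B] [DecidableEq B] [CommRing Λ]
  [IsDomain Λ]
variable (Q : QD I E B Λ)

theorem Om_closed (lam : B → ℤ) (hlam : lam ∈ Om Q) (V : Fin (len lam) → Finset (Option B))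
    (hV : ∀ j, Q.orb (lv lam j) (V j)) : ∑ j, lamV (V j) ∈ Om Q := by
  constructor
  · intro b
    rw [Finset.sum_apply]
    -- at most one set does not contain `none`
    have hhi : hi lam ≤ 1 := by
      refine Finset.sup'_le _ _ ?_
      rintro (_ | b) _
      · exact zero_le_one
      · exact hlam.1 b
    have hnone : ∀ j, none ∉ V j → (j : ℕ) = len lam - 1 ∧ 0 < len lam := by
      intro j hj
      obtain ⟨σ, _, hσV⟩ := hV j
      rw [← hσV, mem_vact_none, mem_lv] at hj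
      have hj2 := j.2
      simp only [ext, Option.elim] at hj
      have hl := lo_nonpos lam
      unfold len at hj2 ⊢
      omega
    have hle : ∀ j, lamV (V j) b ≤ if (j : ℕ) = len lam - 1 then 1 else 0 := by
      intro j
      by_cases hj : none ∈ V j
      · have : lamV (V j) b ≤ 0 := by
          simp only [lamV, if_pos hj]
          split_ifs <;> omega
        split_ifs <;> omega
      · rw [if_pos (hnone j hj).1]
        simp only [lamV, if_neg hj]
        split_ifs <;> omega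
    refine (Finset.sum_le_sum fun j _ => hle j).trans ?_
    rw [Finset.sum_boole]
    norm_cast
    rw [Finset.card_le_one]
    intro a ha c hc
    apply Fin.ext
    rw [(Finset.mem_filter.1 ha).2, (Finset.mem_filter.1 hc).2]
  · intro i
    rw [chg_sum]
    have : ∀ j, Q.chg i (lamV (V j)) = Q.chg i (lamV (lv lam j)) := by
      intro j
      obtain ⟨σ, hσ, hσV⟩ := hV j
      rw [← hσV, lamV_vact, chg_lact Q hσ]
    rw [Finset.sum_congr rfl fun j _ => this j, ← chg_sum, sum_lv]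
    exact hlam.2 i

/-- The data of a weight `mu` (nonzero, entries `≤ 1`, charge zero) used for its tuples. -/
theorem len_data {mu : B → ℤ} (hmu : mu ∈ Om Q) (h0 : mu ≠ 0) :
    hi mu = 1 ∧ 0 < len mu ∧ (len mu : ℤ) = 1 - lo mu := by
  have hhi := hi_eq_one hmu.1 (exists_one Q hmu h0)
  have hl := lo_nonpos mu
  refine ⟨hhi, ?_, ?_⟩
  · unfold len; rw [hhi]; omega
  · unfold len; rw [hhi]; omega

theorem none_lv {mu : B → ℤ} (hmu : mu ∈ Om Q) (h0 : mu ≠ 0) (j : Fin (len mu)) :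
    none ∉ lv mu j ↔ (⟨len mu - 1, by have := j.2; omega⟩ : Fin (len mu)) = j := by
  rw [notMem_lv (len_data Q hmu h0).1, Fin.ext_iff]
  simp only [ext, Option.elim]
  have := j.2
  omega

/-- A tuple of total weight zero in the orbits of the level sets of `mu` gives a partition. -/
theorem tuple_jj {mu : B → ℤ} (hmu : mu ∈ Om Q) (h0 : mu ≠ 0)
    (V : Fin (len mu) → Finset (Option B)) (hV : ∀ j, Q.orb (lv mu j) (V j))
    (hs : ∑ j, lamV (V j) = 0) :
    ∃ jj : Option B → Fin (len mu), (∀ o j, o ∉ V j ↔ jj o = j) ∧ (jj none : ℕ) = len mu - 1 := by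
  have hpos := (len_data Q hmu h0).2.1
  obtain ⟨jj, h1, h2⟩ := exists_jj V ⟨len mu - 1, by omega⟩ (fun j => by
    obtain ⟨σ, _, hσ⟩ := hV j
    rw [← hσ, mem_vact_none]
    exact none_lv Q hmu h0 j) hs
  exact ⟨jj, h1, by rw [h2]⟩

/-- Colour classes of the colouring of a tuple. -/
theorem gcol_iff {k : ℕ} {V : Fin k → Finset (Option B)} {jj : Option B → Fin k}
    (h1 : ∀ o j, o ∉ V j ↔ jj o = j) (h2 : (jj none : ℕ) = k - 1) (j : Fin k) (b : B) :
    gcol V b = k - 1 - (j : ℕ) ↔ some b ∉ V j := by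
  have h3 := gO_gcol V jj h1 h2 (some b)
  rw [gO_some] at h3
  rw [h3, h1, Fin.ext_iff]
  have := (jj (some b)).2
  have := j.2
  omega

theorem card_orb {mu : B → ℤ} (hhi : hi mu = 1) {V : Finset (Option B)} (j : Fin (len mu))
    (hV : Q.orb (lv mu j) V) (i : I) :
    (Finset.univ.filter fun b => Q.vx b = i ∧ some b ∉ V).card =
      (Finset.univ.filter fun b => Q.vx b = i ∧ mu b ≤ -((len mu - 1 - (j : ℕ) : ℕ) : ℤ)).card := by
  obtain ⟨σ, hσ, rfl⟩ := hV
  symm
  refine Finset.card_equiv σ ?_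
  intro b
  simp only [Finset.mem_filter, Finset.mem_univ, true_and, mem_vact_some, (mem_W Q).1 hσ]
  have h1 : σ⁻¹ (σ b) = b := by simp
  rw [h1, notMem_lv hhi]
  rfl

/-- The colouring of a tuple has the class sizes of `mu`. -/
theorem card_gcol {mu : B → ℤ} (hmu : mu ∈ Om Q) (h0 : mu ≠ 0)
    (V : Fin (len mu) → Finset (Option B)) (hV : ∀ j, Q.orb (lv mu j) (V j))
    (hs : ∑ j, lamV (V j) = 0) (i : I) (κ : ℕ) :
    (Finset.univ.filter fun b => Q.vx b = i ∧ gcol V b = κ).card =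
      (Finset.univ.filter fun b => Q.vx b = i ∧ mu b ≤ -(κ : ℤ)).card := by
  obtain ⟨jj, h1, h2⟩ := tuple_jj Q hmu h0 V hV hs
  obtain ⟨hhi, hpos, hlen⟩ := len_data Q hmu h0
  by_cases hκ : κ ≤ len mu - 1
  · have hj : len mu - 1 - κ < len mu := by omega
    have hκ' : len mu - 1 - (len mu - 1 - κ) = κ := by omega
    have h3 := card_orb Q hhi ⟨len mu - 1 - κ, hj⟩ (hV _) i
    simp only [hκ'] at h3
    rw [← h3]
    congr 1
    refine Finset.filter_congr fun b _ => ?_
    have h4 := gcol_iff h1 h2 ⟨len mu - 1 - κ, hj⟩ b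
    simp only [hκ'] at h4
    rw [h4]
  · rw [Finset.filter_false_of_mem, Finset.filter_false_of_mem]
    · intro b _ hb
      have h3 := lo_le mu (some b)
      simp only [ext, Option.elim] at h3
      omega
    · intro b _ hb
      have h3 := gO_gcol V jj h1 h2 (some b)
      rw [gO_some] at h3
      omega

theorem card_gcol' {mu : B → ℤ} (hmu : mu ∈ Om Q) (h0 : mu ≠ 0)
    (V : Fin (len mu) → Finset (Option B)) (hV : ∀ j, Q.orb (lv mu j) (V j))
    (hs : ∑ j, lamV (V j) = 0) (κ : ℕ) :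
    (Finset.univ.filter fun b => gcol V b = κ).card =
      (Finset.univ.filter fun b => mu b ≤ -(κ : ℤ)).card :=
  card_of_vertex Q fun i => card_gcol Q hmu h0 V hV hs i κ

/-- If the colouring is injective on the clusters of `lam` and `|mu| ≤ |lam|`, it is full and `mu`
is conjugate to `lam`. -/
theorem full_of_inj {lam : B → ℤ} (hlam : lam ∈ Om Q) {cl : B → B}
    (hcl : IsCl Q.vx lam cl) {mu : B → ℤ} (hmu : mu ∈ Om Q) (h0 : mu ≠ 0)
    (hle : nrm mu ≤ nrm lam)
    (V : Fin (len mu) → Finset (Option B)) (hV : ∀ j, Q.orb (lv mu j) (V j))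
    (hs : ∑ j, lamV (V j) = 0) (hinj : ClInj cl (gcol V)) :
    (∀ c, (fib cl c).image (gcol V) = Finset.range (fib cl c).card) ∧
      ∃ σ ∈ Q.W, mu = lact σ lam := by
  classical
  have hf : ∀ c, (fib cl c).image (gcol V) = Finset.range (fib cl c).card := by
    intro c
    refine hcl.full hlam.1 (sum_eq_zero_of_chg Q hlam.2) hinj hmu.1
      (sum_eq_zero_of_chg Q hmu.2) ?_ hle c
    intro j _
    convert card_gcol' Q hmu h0 V hV hs j
  refine ⟨hf, ?_⟩
  refine conj_of_card Q hmu.1 hlam.1 ?_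
  intro i κ
  rw [← card_gcol Q hmu h0 V hV hs i κ]
  have := hcl.card_color hinj hf i κ
  convert this

theorem term_eq {mu : B → ℤ} (hmu : mu ∈ Om Q) (h0 : mu ≠ 0)
    (V : Fin (len mu) → Finset (Option B)) (hV : ∀ j, Q.orb (lv mu j) (V j))
    (hs : ∑ j, lamV (V j) = 0) (t : SS B Λ) :
    toK Q.D * (toK t * ∏ j, Q.e (lamV (V j))) = toK (t * PG Q (gcol V)) := by
  obtain ⟨jj, h1, h2⟩ := tuple_jj Q hmu h0 V hV hs
  rw [prod_e Q V jj h1 (gcol V) (gO_gcol_inj V jj h1 h2), toK_mul, ← D_mul_kap]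
  ring

/-- For a full colouring with clusters of `lam = σ0 • mu`, the set at place `j` is obtained from
the level set by moving boxes inside their clusters. -/
theorem set_eq {lam mu : B → ℤ} {cl : B → B} (hcl : IsCl Q.vx lam cl)
    (hmu : mu ∈ Om Q) (h0 : mu ≠ 0) {σ0 : Equiv.Perm B} (hlm : lam = lact σ0 mu)
    {g : B → ℕ} (hinj : ClInj cl g)
    (hf : ∀ c, (fib cl c).image g = Finset.range (fib cl c).card)
    (j : Fin (len mu)) (U : Finset (Option B))
    (hU : ∀ b, some b ∉ U ↔ g b = len mu - 1 - (j : ℕ))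
    (hn : none ∉ U ↔ none ∉ lv mu j) :
    U = vact (hcl.perm g (len mu - 1 - (j : ℕ))) (vact σ0 (lv mu j)) := by
  have hhi := (len_data Q hmu h0).1
  ext o
  rw [← not_iff_not]
  cases o with
  | none => rw [hn, mem_vact_none, mem_vact_none]
  | some b =>
    rw [hU, mem_vact_some, mem_vact_some, notMem_lv hhi]
    have h1 := hcl.color_perm hinj hf (len mu - 1 - (j : ℕ))
      ((hcl.perm g (len mu - 1 - (j : ℕ)))⁻¹ b)
    have h2 : (hcl.perm g (len mu - 1 - (j : ℕ)))
      ((hcl.perm g (len mu - 1 - (j : ℕ)))⁻¹ b) = b := by simp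
    rw [h2] at h1
    have h3 := congrFun hlm ((hcl.perm g (len mu - 1 - (j : ℕ)))⁻¹ b)
    rw [h1, h3]
    rfl

theorem psi_tau {lam mu : B → ℤ} {cl : B → B} (hcl : IsCl Q.vx lam cl)
    (hmu : mu ∈ Om Q) (h0 : mu ≠ 0) {σ0 : Equiv.Perm B} (hσ0 : σ0 ∈ Q.W)
    (hlm : lam = lact σ0 mu)
    {τ : (Fin (len mu) → Finset (Option B)) → SS B Λ} (hτ : τ ∈ Q.Dec (len mu))
    (V : Fin (len mu) → Finset (Option B)) (hV : ∀ j, Q.orb (lv mu j) (V j))
    (hs : ∑ j, lamV (V j) = 0) (hinj : ClInj cl (gcol V))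
    (hf : ∀ c, (fib cl c).image (gcol V) = Finset.range (fib cl c).card) :
    rename cl (τ V) = rename cl (rename σ0 (τ (lv mu))) := by
  obtain ⟨jj, h1, h2⟩ := tuple_jj Q hmu h0 V hV hs
  rw [← Dec_equivariant Q _ hτ hσ0]
  have hw : ∀ j : Fin (len mu), hcl.perm (gcol V) (len mu - 1 - (j : ℕ)) ∈ Q.W :=
    fun j => (mem_W Q).2 fun b => hcl.vx_perm _ _ b
  rw [← Dec_psi Q hτ (fun j => hcl.perm (gcol V) (len mu - 1 - (j : ℕ))) hw
    (fun j b => hcl.cl_perm _ _ b) (fun j => vact σ0 (lv mu j))]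
  congr 2
  funext j
  refine set_eq Q hcl hmu h0 hlm hinj hf j (V j) ?_ ?_
  · intro b; exact (gcol_iff h1 h2 j b).symm
  · obtain ⟨σ, _, hσ⟩ := hV j
    rw [← hσ, mem_vact_none]

/-- The tuple of a colouring. -/
def VV (k : ℕ) (g : B → ℕ) : Fin k → Finset (Option B) :=
  fun j => Finset.univ.filter fun o => gO g o ≠ k - 1 - (j : ℕ)

theorem notMem_VV (k : ℕ) (g : B → ℕ) (j : Fin k) (o : Option B) :
    o ∉ VV k g j ↔ gO g o = k - 1 - (j : ℕ) := by
  simp [VV]

theorem VV_jj {k : ℕ} (hk : 0 < k) (g : B → ℕ) (hg : ∀ b, g b ≤ k - 1) :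
    ∃ jj : Option B → Fin k, (∀ o j, o ∉ VV k g j ↔ jj o = j) ∧ (jj none : ℕ) = k - 1 := by
  refine ⟨fun o => ⟨k - 1 - gO g o, by omega⟩, ?_, by simp⟩
  intro o j
  rw [notMem_VV, Fin.ext_iff]
  have hgo : gO g o ≤ k - 1 := by
    cases o with
    | none => simp
    | some b => exact hg b
  have := j.2
  simp only
  omega

theorem sum_VV {k : ℕ} (hk : 0 < k) (g : B → ℕ) (hg : ∀ b, g b ≤ k - 1) :
    ∑ j, lamV (VV k g j) = 0 := by
  obtain ⟨jj, h1, _⟩ := VV_jj hk g hg
  have e1 : ∀ o : Option B, ∑ j, (if o ∈ VV k g j then (1 : ℤ) else 0) = k - 1 := by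
    intro o
    have h2 := Finset.card_filter_add_card_filter_not (s := (Finset.univ : Finset (Fin k)))
      (fun j => o ∈ VV k g j)
    have e2 : (Finset.univ.filter fun j => o ∉ VV k g j) = {jj o} := by
      ext j
      simp only [Finset.mem_filter, Finset.mem_univ, true_and, Finset.mem_singleton, h1]
      exact eq_comm
    rw [e2, Finset.card_singleton, Finset.card_univ, Fintype.card_fin] at h2
    rw [Finset.sum_boole]
    have h3 : (((Finset.univ.filter fun j => o ∈ VV k g j).card + 1 : ℕ) : ℤ) = (k : ℤ) := by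
      rw [h2]
    push_cast at h3
    linarith
  funext b
  rw [Finset.sum_apply]
  simp only [lamV, Finset.sum_sub_distrib, e1, Pi.zero_apply, sub_self]

theorem gcol_VV {k : ℕ} (hk : 0 < k) (g : B → ℕ) (hg : ∀ b, g b ≤ k - 1) :
    gcol (VV k g) = g := by
  obtain ⟨jj, h1, h2⟩ := VV_jj hk g hg
  funext b
  have h3 := gO_gcol (VV k g) jj h1 h2 (some b)
  rw [gO_some] at h3
  rw [h3]
  have h4 := (notMem_VV k g (jj (some b)) (some b)).1 ((h1 _ _).2 rfl)
  rw [gO_some] at h4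
  exact h4.symm

/-- There is a tuple with full colouring. -/
theorem exists_tuple {lam mu : B → ℤ} {cl : B → B} (hcl : IsCl Q.vx lam cl)
    (hmu : mu ∈ Om Q) (h0 : mu ≠ 0) {σ0 : Equiv.Perm B} (hσ0 : σ0 ∈ Q.W)
    (hlm : lam = lact σ0 mu) :
    ∃ V : Fin (len mu) → Finset (Option B), (∀ j, Q.orb (lv mu j) (V j)) ∧
      ∑ j, lamV (V j) = 0 ∧ ClInj cl (gcol V) := by
  obtain ⟨g, hinj, hf⟩ := hcl.exists_full
  obtain ⟨hhi, hpos, hlen⟩ := len_data Q hmu h0
  have hg : ∀ b, g b ≤ len mu - 1 := by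
    intro b
    have h1 : g b ∈ (fib cl (cl b)).image g := Finset.mem_image.2 ⟨b, by simp, rfl⟩
    rw [hf, Finset.mem_range] at h1
    have h2 := hcl.card_fib (cl b) (hcl.lam_cl b)
    have h3 : lo mu ≤ lam (cl b) := by
      rw [hlm]
      exact lo_le mu (some (σ0⁻¹ (cl b)))
    omega
  refine ⟨VV (len mu) g, ?_, sum_VV hpos g hg, by rw [gcol_VV hpos g hg]; exact hinj⟩
  intro j
  have h1 := set_eq Q hcl hmu h0 hlm hinj hf j (VV (len mu) g j) (fun b => by
    rw [notMem_VV]; rfl) (by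
    rw [notMem_VV, none_lv Q hmu h0, Fin.ext_iff]
    simp only [gO_none]
    have := j.2
    omega)
  refine ⟨hcl.perm g (len mu - 1 - (j : ℕ)) * σ0, Q.W.mul_mem
    ((mem_W Q).2 fun b => hcl.vx_perm _ _ b) hσ0, ?_⟩
  rw [h1]
  ext o
  cases o with
  | none => simp only [mem_vact_none]
  | some b => simp only [mem_vact_some]; rfl

theorem coeff_cst (r : SS B Λ) (mu : B → ℤ) :
    (QD.cst r).coeff mu = if mu = 0 then toK r else 0 := by
  unfold QD.cst
  rw [AddMonoidAlgebra.coeff_single, Finsupp.single_apply]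
  by_cases h : mu = 0
  · rw [if_pos h, if_pos h.symm]
  · rw [if_neg h, if_neg (fun h' => h h'.symm)]

theorem coeff_sum' {ι : Type*} (s : Finset ι) (f : ι → AA B Λ) (mu : B → ℤ) :
    (∑ i ∈ s, f i).coeff mu = ∑ i ∈ s, (f i).coeff mu := by
  rw [AddMonoidAlgebra.coeff_sum, Finsupp.finsetSum_apply]

theorem toK_sum {ι : Type*} (s : Finset ι) (f : ι → SS B Λ) :
    toK (∑ i ∈ s, f i) = ∑ i ∈ s, toK (f i) := map_sum _ _ _

end H216

open H216 in
/-- (II-b) the key vanishing -/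
theorem psi_eq_zero {I E B Λ : Type*} [Fintype E] [DecidableEq I] [Fintype B] [DecidableEq B]
    [CommRing Λ] [IsDomain Λ] (Q : QD I E B Λ) [Algebra ℚ Λ]
    (hQ : Q.NonzeroLoops) {z : AA B Λ} (hz : z ∈ Q.A)
    (h1 : ∀ mu, z.coeff mu ≠ 0 → ∀ b, mu b ≤ 1)
    (h2 : ∀ mu, z.coeff mu ≠ 0 → ∀ i, Q.chg i mu = 0)
    (h0 : z.coeff 0 = 0) {lam : B → ℤ} (hlam : z.coeff lam ≠ 0)
    (hmax : ∀ mu, z.coeff mu ≠ 0 → nrm mu ≤ nrm lam)
    {h : SS B Λ} (hh : z.coeff lam = toK h * Q.e lam) {cl : B → B} (hcl : Q.IsCl lam cl) :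
    rename cl h = 0 := by
  classical
  have hlamΩ : lam ∈ Om Q := ⟨h1 lam hlam, h2 lam hlam⟩
  have hcl' : IsCl Q.vx lam cl := hcl.toH216 Q hlamΩ.1
  have hlam0 : lam ≠ 0 := by
    rintro rfl; exact hlam h0
  obtain ⟨r, hr, s, τ, hs, hnc, hzs⟩ := F1 Q hQ (Om Q) (Om_closed Q) hz
    (fun mu hmu => ⟨h1 mu hmu, h2 mu hmu⟩) (nrm lam) hmax
  -- the unique summand conjugate to `lam`
  have hconj : ∀ mu ∈ s, (Q.MT (len mu) (τ mu)).coeff lam ≠ 0 → ∃ σ ∈ Q.W, lam = lact σ mu := by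
    intro mu hmu hne
    obtain ⟨_, _, hnm, hdec, hsupp⟩ := hs mu hmu
    have h3 := (MT_lead Q hQ hdec hsupp).2.1 lam hne
    exact h3.2 (le_antisymm h3.1 hnm)
  have hcoef : z.coeff lam = ∑ mu ∈ s, (Q.MT (len mu) (τ mu)).coeff lam := by
    rw [hzs, AddMonoidAlgebra.coeff_add, Finsupp.add_apply, coeff_sum', coeff_cst,
      if_neg hlam0, zero_add]
  obtain ⟨mu0, hmu0, hne0⟩ := Finset.exists_ne_zero_of_sum_ne_zero (hcoef ▸ hlam)
  obtain ⟨σ0, hσ0, hlm⟩ := hconj mu0 hmu0 hne0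
  have huniq : ∀ mu ∈ s, (∃ σ ∈ Q.W, lam = lact σ mu) → mu = mu0 := by
    rintro mu hmu ⟨σ, hσ, hσl⟩
    refine hnc mu hmu mu0 hmu0 ⟨σ0⁻¹ * σ, Q.W.mul_mem (Q.W.inv_mem hσ0) hσ, ?_⟩
    funext b
    have h3 := congrFun (hlm.symm.trans hσl) (σ0 b)
    simp only [lact] at h3 ⊢
    have h4 : σ0⁻¹ (σ0 b) = b := by simp
    rw [h4] at h3
    rw [h3]
    rfl
  have hone : z.coeff lam = (Q.MT (len mu0) (τ mu0)).coeff lam := by
    rw [hcoef]
    refine Finset.sum_eq_single mu0 ?_ (fun h => absurd hmu0 h)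
    intro mu hmu hne
    by_contra hc
    exact hne (huniq mu hmu (hconj mu hmu hc))
  obtain ⟨hm0, hmΩ, hmn, hdec0, hsupp0⟩ := hs mu0 hmu0
  -- `h` is the rotated leading coefficient
  have hhτ : h = rename σ0 (τ mu0 (lv mu0)) := by
    have h3 := (MT_lead Q hQ hdec0 hsupp0).1
    have h4 := A_inv Q (MT_mem Q _ hdec0) hσ0 mu0
    rw [← hlm, ← hone, hh, h3, map_mul, act_toK, e_act Q σ0 hσ0, ← hlm] at h4
    exact toK_inj.1 (mul_right_cancel₀ (e_ne_zero Q lam) h4)
  -- the constant coefficient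
  let T : ∀ mu : B → ℤ, (Fin (len mu) → Finset (Option B)) → SS B Λ :=
    fun mu V => τ mu V * PG Q (gcol V)
  have hsum : Q.D * r + ∑ mu ∈ s, ∑ V : Fin (len mu) → Finset (Option B) with
      ∑ j, lamV (V j) = 0, T mu V = 0 := by
    have h3 : z.coeff 0 = toK r + ∑ mu ∈ s, (Q.MT (len mu) (τ mu)).coeff 0 := by
      conv_lhs => rw [hzs]
      rw [AddMonoidAlgebra.coeff_add, Finsupp.add_apply, coeff_sum', coeff_cst, if_pos rfl]
    rw [h0] at h3
    have h4 : toK Q.D * (toK r + ∑ mu ∈ s, (Q.MT (len mu) (τ mu)).coeff 0) =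
        toK (Q.D * r + ∑ mu ∈ s, ∑ V : Fin (len mu) → Finset (Option B) with
          ∑ j, lamV (V j) = 0, T mu V) := by
      rw [mul_add, Finset.mul_sum]
      have e1 : ∀ mu ∈ s, toK Q.D * (Q.MT (len mu) (τ mu)).coeff 0 =
          ∑ V : Fin (len mu) → Finset (Option B) with ∑ j, lamV (V j) = 0, toK (T mu V) := by
        intro mu hmu
        obtain ⟨hm0, hmΩ, _, _, hsupp⟩ := hs mu hmu
        rw [MT_coeff, Finset.mul_sum]
        refine Finset.sum_congr rfl fun V hV => ?_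
        by_cases hτV : τ mu V = 0
        · simp only [T, hτV, zero_mul]
          rw [show toK (0 : SS B Λ) = 0 from map_zero _]
          simp
        · exact term_eq Q hmΩ hm0 V (hsupp V hτV) (Finset.mem_filter.1 hV).2 (τ mu V)
      rw [Finset.sum_congr rfl e1]
      rw [show ∀ a b : SS B Λ, toK (a + b) = toK a + toK b from fun a b => map_add _ a b,
        toK_mul, toK_sum]
      congr 1
      refine Finset.sum_congr rfl fun mu _ => ?_
      rw [toK_sum]
    rw [← h3, mul_zero] at h4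
    exact toK_eq_zero.1 h4.symm
  -- restrict to the diagonal
  have hpsi := congrArg (rename cl) hsum
  obtain ⟨b1, hb1⟩ := exists_one Q hlamΩ hlam0
  have hb1' : cl b1 ≠ b1 := by
    intro h3
    have h4 := hcl'.lam_cl b1
    rw [h3, hb1] at h4
    exact absurd h4 (by norm_num)
  rw [map_add, map_mul, psi_D_eq_zero Q hcl' hb1', zero_mul, zero_add, map_zero, map_sum] at hpsi
  -- only `mu0` contributes
  have hzero : ∀ mu ∈ s, mu ≠ mu0 → rename cl
      (∑ V : Fin (len mu) → Finset (Option B) with ∑ j, lamV (V j) = 0, T mu V) = 0 := by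
    intro mu hmu hne
    obtain ⟨hm0, hmΩ, hmn, _, hsupp⟩ := hs mu hmu
    rw [map_sum]
    refine Finset.sum_eq_zero fun V hV => ?_
    have hV' := (Finset.mem_filter.1 hV).2
    simp only [T, map_mul]
    by_cases hτV : τ mu V = 0
    · rw [hτV, map_zero, zero_mul]
    · by_cases hinj : ClInj cl (gcol V)
      · exfalso
        obtain ⟨_, σ, hσ, hσl⟩ := full_of_inj Q hlamΩ hcl' hmΩ hm0 hmn V (hsupp V hτV) hV' hinj
        refine hne (huniq mu hmu ⟨σ⁻¹, Q.W.inv_mem hσ, ?_⟩)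
        rw [hσl]
        funext b
        simp only [lact, inv_inv]
        have h4 : σ⁻¹ (σ b) = b := by simp
        rw [h4]
      · rw [psi_PG_eq_zero Q hcl' hinj, mul_zero]
  rw [Finset.sum_eq_single mu0 hzero (fun h => absurd hmu0 h), map_sum] at hpsi
  -- evaluate the terms of `mu0`
  obtain ⟨g0, hg0, hg0f⟩ := hcl'.exists_full
  let cond : (Fin (len mu0) → Finset (Option B)) → Prop := fun V =>
    (∀ j, Q.orb (lv mu0 j) (V j)) ∧ ClInj cl (gcol V)
  have hterm : ∀ V : Fin (len mu0) → Finset (Option B), ∑ j, lamV (V j) = 0 →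
      rename cl (T mu0 V) = if cond V then rename cl h * rename cl (PG Q g0) else 0 := by
    intro V hV
    by_cases hc : cond V
    · rw [if_pos hc]
      obtain ⟨hf, _⟩ := full_of_inj Q hlamΩ hcl' hmΩ hm0 hmn V hc.1 hV hc.2
      simp only [T, map_mul]
      rw [psi_tau Q hcl' hmΩ hm0 hσ0 hlm hdec0 V hc.1 hV hc.2 hf, ← hhτ]
      obtain ⟨σ, hσ, hσg⟩ := exists_perm_full hc.2 hg0 hf hg0f
      rw [hσg, psi_PG_perm Q hcl' g0 σ hσ]
    · rw [if_neg hc]
      simp only [T, map_mul]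
      by_cases hτV : τ mu0 V = 0
      · rw [hτV, map_zero, zero_mul]
      · by_cases hinj : ClInj cl (gcol V)
        · exact absurd ⟨hsupp0 V hτV, hinj⟩ hc
        · rw [psi_PG_eq_zero Q hcl' hinj, mul_zero]
  rw [Finset.sum_congr rfl fun V hV => hterm V (Finset.mem_filter.1 hV).2,
    ← Finset.sum_filter, Finset.sum_const, nsmul_eq_mul] at hpsi
  have hP : rename cl (PG Q g0) ≠ 0 := psi_PG_ne_zero Q hQ hcl' hg0
  rcases mul_eq_zero.1 hpsi with hcard | hprod
  · exfalso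
    have hchar : CharZero (SS B Λ) := by
      have : CharZero Λ := algebraRat.charZero Λ
      infer_instance
    rw [Nat.cast_eq_zero, Finset.card_eq_zero] at hcard
    obtain ⟨V, hV1, hV2, hV3⟩ := exists_tuple Q hcl' hmΩ hm0 hσ0 hlm
    have : V ∈ ((Finset.univ.filter fun V : Fin (len mu0) → Finset (Option B) =>
        ∑ j, lamV (V j) = 0).filter fun V => cond V) := by
      rw [Finset.mem_filter, Finset.mem_filter]
      exact ⟨⟨Finset.mem_univ _, hV2⟩, hV1, hV3⟩
    rw [hcard] at this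
    exact absurd this (Finset.notMem_empty _)
  · exact (mul_eq_zero.1 hprod).resolve_right hP

end Vale.Agent.P291
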