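import Vale.Agent.P291.Core2
import Vale.Agent.P291.H134.Ker

/-!
# P291, block IIc: the kernel of the cluster map on the invariants of the stabiliser of `lam`
-/

set_option linter.unusedSectionVars false

open MvPolynomial

namespace Vale.Agent.P291

namespace IIcBlk

variable {I E B Λ : Type*} [Fintype E] [DecidableEq I] [Fintype B] [DecidableEq B] [CommRing Λ]
  [IsDomain Λ]
variable (Q : QD I E B Λ)

omit [Fintype B] [DecidableEq B] in
theorem lact_eq_iff (σ : Equiv.Perm B) (lam : B → ℤ) :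
    lact σ lam = lam ↔ ∀ b, lam (σ b) = lam b := by
  constructor
  · intro h b
    have h1 : lam (σ⁻¹ (σ b)) = lam (σ b) := congrFun h (σ b)
    have h2 : σ⁻¹ (σ b) = b := by simp
    rw [h2] at h1
    exact h1.symm
  · intro h
    funext b
    have h1 := h (σ⁻¹ b)
    have h2 : σ (σ⁻¹ b) = b := by simp
    rw [h2] at h1
    exact h1.symm

theorem invL_iff {lam : B → ℤ} {h : SS B Λ} :
    Q.InvL lam h ↔ ∀ σ : Equiv.Perm B, (∀ b, Q.vx (σ b) = Q.vx b) →
      (∀ b, lam (σ b) = lam b) → rename σ h = h := by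
  constructor
  · intro hh σ h1 h2
    exact hh σ h1 ((lact_eq_iff σ lam).2 h2)
  · intro hh σ h1 h2
    exact hh σ h1 ((lact_eq_iff σ lam).1 h2)

theorem wps_eq {lam : B → ℤ} (h1 : ∀ b, lam b ≤ 1) (n : ℕ) (i : I) :
    Q.wps n i lam = H134.GG Λ Q.vx lam i n := by
  unfold QD.wps H134.GG
  rw [Finset.sum_filter, Finset.sum_filter, Finset.sum_filter, ← Finset.sum_sub_distrib]
  refine Finset.sum_congr rfl fun b _ => ?_
  by_cases hi : Q.vx b = i
  · rw [if_pos hi]
    rcases lt_trichotomy (lam b) 0 with h | h | h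
    · rw [if_neg (by rintro ⟨_, h2⟩; omega), if_pos ⟨hi, h⟩, zero_sub]
      obtain ⟨m, hm⟩ := Int.eq_ofNat_of_zero_le (show 0 ≤ -lam b by omega)
      have h3 : lam b = -(m : ℤ) := by omega
      rw [h3]
      simp
    · rw [if_neg (by rintro ⟨_, h2⟩; omega), if_neg (by rintro ⟨_, h2⟩; omega), h]
      simp
    · have h4 : lam b = 1 := le_antisymm (h1 b) (by omega)
      rw [if_pos ⟨hi, h4⟩, if_neg (by rintro ⟨_, h2⟩; omega), h4]
      simp
  · rw [if_neg hi, if_neg (fun h => hi h.1), if_neg (fun h => hi h.1), sub_zero]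

end IIcBlk

variable {I E B Λ : Type*} [Fintype E] [DecidableEq I] [Fintype B] [DecidableEq B] [CommRing Λ]
  [IsDomain Λ]
variable (Q : QD I E B Λ)

/-- (II-c) the kernel of `rename cl` is generated by the weighted power sums -/
theorem ker_cl [Algebra ℚ Λ] {lam : B → ℤ} (h1 : ∀ b, lam b ≤ 1) (h2 : ∀ i, Q.chg i lam = 0)
    {cl : B → B} (hcl : Q.IsCl lam cl) {h : SS B Λ} (hh : Q.InvL lam h)
    (h0 : rename cl h = 0) :
    ∃ (s : Finset (ℕ × I)) (a : ℕ × I → SS B Λ), (∀ p ∈ s, Q.InvL lam (a p)) ∧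
      h = ∑ p ∈ s, a p * Q.wps p.1 p.2 lam := by
  obtain ⟨hc0, hc1, hvx, hfib⟩ := hcl
  obtain ⟨T, g, hg, hsum⟩ := H134.ker_psi_sum (Λ := Λ) Q.vx lam cl h1 hvx hc0 hc1 hfib
    ((IIcBlk.invL_iff Q).1 hh) h0
  refine ⟨T.map ⟨fun t : I × ℕ => (t.2 + 1, t.1), fun t t' h => ?_⟩,
    fun p => g (p.2, p.1 - 1), ?_, ?_⟩
  · simp only [Prod.mk.injEq, Nat.add_right_cancel_iff] at h
    exact Prod.ext h.2 h.1
  · intro p _
    exact (IIcBlk.invL_iff Q).2 (hg _)
  · rw [hsum, Finset.sum_map]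
    refine Finset.sum_congr rfl fun t _ => ?_
    rw [IIcBlk.wps_eq Q h1]
    rfl

end Vale.Agent.P291
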