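import Vale.Agent.P291.XBlk
import Vale.Agent.P291.IIaBlk
import Vale.Agent.P291.IIbBlk
import Vale.Agent.P291.IIcBlk

/-!
# P291: block IId (partII): the assembly of section 5
-/

set_option linter.unusedSectionVars false

open MvPolynomial

namespace Vale.Agent.P291


section aux

variable {I E B Λ : Type*} [Fintype E] [DecidableEq I] [Fintype B] [DecidableEq B] [CommRing Λ]
  [IsDomain Λ]
variable (Q : QD I E B Λ)

namespace QD

theorem wps_add (n : ℕ) (i : I) (f g : B → ℤ) :
    Q.wps n i (f + g) = Q.wps n i f + Q.wps n i g := by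
  simp only [wps, Pi.add_apply, Int.cast_add, map_add, add_mul, Finset.sum_add_distrib]

theorem wps_zero (n : ℕ) (i : I) : Q.wps n i (0 : B → ℤ) = 0 := by
  simp [wps]

theorem wps_sum {ι : Type*} (s : Finset ι) (n : ℕ) (i : I) (f : ι → B → ℤ) :
    Q.wps n i (∑ j ∈ s, f j) = ∑ j ∈ s, Q.wps n i (f j) := by
  classical
  induction s using Finset.induction_on with
  | empty => simp [wps_zero]
  | insert a s ha ih => rw [Finset.sum_insert ha, Finset.sum_insert ha, wps_add, ih]

theorem wps_lact (n : ℕ) (i : I) {σ : Equiv.Perm B} (hσ : σ ∈ Q.W) (lam : B → ℤ) :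
    Q.wps n i (lact σ lam) = rename σ (Q.wps n i lam) := by
  have hσ' : ∀ b, Q.vx (σ b) = Q.vx b := hσ
  simp only [wps, map_sum, map_mul, rename_C, map_pow, rename_X]
  refine (Finset.sum_nbij' (i := fun b => σ b) (j := fun b => σ⁻¹ b) ?_ ?_ ?_ ?_ ?_).symm
  · intro b hb
    simp only [Finset.mem_filter, Finset.mem_univ, true_and] at hb ⊢
    rw [hσ', hb]
  · intro b hb
    simp only [Finset.mem_filter, Finset.mem_univ, true_and] at hb ⊢
    have h := hσ' (σ⁻¹ b)
    rw [show σ (σ⁻¹ b) = b from σ.apply_symm_apply b] at h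
    rw [← h, hb]
  · intro b _
    simp
  · intro b _
    simp
  · intro b _
    simp [lact]

theorem wps_eqv (n : ℕ) (i : I) : (fun V => Q.wps n i (lamV V)) ∈ Q.Eqv := by
  intro σ hσ V
  change Q.wps n i (lamV (vact σ V)) = _
  rw [lamV_vact σ V, wps_lact Q n i hσ]

theorem chg_add (i : I) (f g : B → ℤ) : Q.chg i (f + g) = Q.chg i f + Q.chg i g := by
  simp only [chg, Pi.add_apply, Finset.sum_add_distrib]

theorem chg_zero (i : I) : Q.chg i (0 : B → ℤ) = 0 := by
  simp [chg]

theorem chg_sum {ι : Type*} (s : Finset ι) (i : I) (f : ι → B → ℤ) :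
    Q.chg i (∑ j ∈ s, f j) = ∑ j ∈ s, Q.chg i (f j) := by
  classical
  induction s using Finset.induction_on with
  | empty => simp [chg_zero]
  | insert a s ha ih => rw [Finset.sum_insert ha, Finset.sum_insert ha, chg_add, ih]

theorem chg_lact (i : I) {σ : Equiv.Perm B} (hσ : σ ∈ Q.W) (lam : B → ℤ) :
    Q.chg i (lact σ lam) = Q.chg i lam := by
  have hσ' : ∀ b, Q.vx (σ b) = Q.vx b := hσ
  simp only [chg]
  refine (Finset.sum_nbij' (i := fun b => σ b) (j := fun b => σ⁻¹ b) ?_ ?_ ?_ ?_ ?_).symm
  · intro b hb
    simp only [Finset.mem_filter, Finset.mem_univ, true_and] at hb ⊢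
    rw [hσ', hb]
  · intro b hb
    simp only [Finset.mem_filter, Finset.mem_univ, true_and] at hb ⊢
    have h := hσ' (σ⁻¹ b)
    rw [show σ (σ⁻¹ b) = b from σ.apply_symm_apply b] at h
    rw [← h, hb]
  · intro b _
    simp
  · intro b _
    simp
  · intro b _
    simp [lact]

/-- multiplying a decomposable dressing by an equivariant factor of one slot -/
theorem Dec_mul_slot (k : ℕ) {τ : (Fin k → Finset (Option B)) → SS B Λ} (hτ : τ ∈ Q.Dec k)
    {G : Finset (Option B) → SS B Λ} (hG : G ∈ Q.Eqv) (j0 : Fin k) :
    (fun V => τ V * G (V j0)) ∈ Q.Dec k := by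
  induction hτ using Submodule.span_induction with
  | mem τ h =>
    obtain ⟨r, hr, F, hF, rfl⟩ := h
    refine Submodule.subset_span ⟨r, hr, fun j => if j = j0 then F j * G else F j, ?_, ?_⟩
    · intro j
      by_cases h : j = j0
      · simp only [h, if_true]
        exact Q.Eqv.mul_mem (hF j0) hG
      · simp only [h, if_false]
        exact hF j
    · funext V
      have : ∀ j, (if j = j0 then F j * G else F j) (V j)
          = F j (V j) * (if j = j0 then G (V j0) else 1) := by
        intro j
        by_cases h : j = j0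
        · subst h; simp
        · simp [h]
      simp only [this, Finset.prod_mul_distrib, Finset.prod_ite_eq', Finset.mem_univ, if_true]
      ring
  | zero =>
    simp only [Pi.zero_apply, zero_mul]
    exact Submodule.zero_mem _
  | add x y _ _ hx hy =>
    have : (fun V => (x + y) V * G (V j0)) = (fun V => x V * G (V j0)) + fun V => y V * G (V j0) := by
      funext V; simp [add_mul]
    rw [this]
    exact Submodule.add_mem _ hx hy
  | smul a x _ hx =>
    have : (fun V => (a • x) V * G (V j0)) = a • fun V => x V * G (V j0) := by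
      funext V; simp
    rw [this]
    exact Submodule.smul_mem _ _ hx

theorem Dec_mul_wps (k : ℕ) {τ : (Fin k → Finset (Option B)) → SS B Λ} (hτ : τ ∈ Q.Dec k)
    (n : ℕ) (i : I) :
    (fun V => τ V * Q.wps n i (∑ j, lamV (V j))) ∈ Q.Dec k := by
  have : (fun V : Fin k → Finset (Option B) => τ V * Q.wps n i (∑ j, lamV (V j)))
      = ∑ j : Fin k, fun V : Fin k → Finset (Option B) => τ V * Q.wps n i (lamV (V j)) := by
    funext V
    rw [Finset.sum_apply, wps_sum, Finset.mul_sum]
  rw [this]
  refine Submodule.sum_mem _ fun j _ => ?_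
  exact Dec_mul_slot Q k hτ (wps_eqv Q n i) j

end QD

theorem none_mem_vact (σ : Equiv.Perm B) (V : Finset (Option B)) :
    none ∈ vact σ V ↔ none ∈ V := by
  unfold vact
  rw [Finset.mem_map]
  constructor
  · rintro ⟨o, ho, h⟩
    cases o with
    | none => exact ho
    | some b => simp at h
  · intro h
    exact ⟨none, h, by simp⟩

theorem lamV_le_one (V : Finset (Option B)) (b : B) :
    lamV V b ≤ if none ∈ V then 0 else 1 := by
  simp only [lamV]
  split_ifs <;> simp

end aux

section main

variable {I E B Λ : Type*} [Fintype E] [DecidableEq I] [Fintype B] [DecidableEq B] [CommRing Λ]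
  [IsDomain Λ]
variable (Q : QD I E B Λ)

/-- entries of sums over moved level sets stay at most one -/
theorem entries_le {lam : B → ℤ} (h1 : ∀ b, lam b ≤ 1) (V : Fin (len lam) → Finset (Option B))
    (hV : ∀ j, Q.orb (lv lam j) (V j)) (b : B) : (∑ j, lamV (V j)) b ≤ 1 := by
  classical
  have hlo : lo lam ≤ 0 := by
    have := Finset.inf'_le (s := (Finset.univ : Finset (Option B))) (ext lam)
      (Finset.mem_univ none)
    simpa [lo, ext] using this
  have hhi : hi lam ≤ 1 := by
    apply Finset.sup'_le
    intro o _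
    cases o with
    | none => simp [ext]
    | some b => simpa [ext] using h1 b
  have hnone : ∀ j, none ∈ V j ↔ lo lam + 1 + (j : ℤ) ≤ 0 := by
    intro j
    obtain ⟨σ, _, hσ⟩ := hV j
    rw [← hσ, none_mem_vact, lv, Finset.mem_filter]
    simp [ext]
  rw [Finset.sum_apply]
  calc ∑ j, lamV (V j) b ≤ ∑ j : Fin (len lam), if none ∈ V j then (0:ℤ) else 1 :=
        Finset.sum_le_sum fun j _ => lamV_le_one (V j) b
    _ = ((Finset.univ.filter fun j : Fin (len lam) => none ∉ V j).card : ℤ) := by
        rw [Finset.card_filter]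
        push_cast
        refine Finset.sum_congr rfl fun j _ => ?_
        by_cases h : none ∈ V j <;> simp [h]
    _ ≤ 1 := by
        have : (Finset.univ.filter fun j : Fin (len lam) => none ∉ V j).card ≤ 1 := by
          rw [Finset.card_le_one]
          intro a ha c hc
          simp only [Finset.mem_filter, Finset.mem_univ, true_and, hnone, not_le] at ha hc
          have ha' := a.2
          have hc' := c.2
          unfold len at ha' hc'
          have h3 : (a : ℤ) < hi lam - lo lam := by omega
          have h4 : (c : ℤ) < hi lam - lo lam := by omega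
          apply Fin.ext
          omega
        exact_mod_cast this

theorem charge_eq {lam : B → ℤ} (V : Fin (len lam) → Finset (Option B))
    (hV : ∀ j, Q.orb (lv lam j) (V j)) (i : I) :
    Q.chg i (∑ j, lamV (V j)) = Q.chg i lam := by
  conv_rhs => rw [← sum_lv lam]
  rw [QD.chg_sum, QD.chg_sum]
  refine Finset.sum_congr rfl fun j _ => ?_
  obtain ⟨σ, hσ, h⟩ := hV j
  rw [← h, lamV_vact, QD.chg_lact Q i hσ]

/-- the correction term -/
theorem exists_corr [Algebra ℚ Λ] (hQ : Q.NonzeroLoops) {lam : B → ℤ} (hne : lam ≠ 0)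
    (h1 : ∀ b, lam b ≤ 1) (h2 : ∀ i, Q.chg i lam = 0) {a : SS B Λ} (ha : Q.InvL lam a)
    (n : ℕ) (i : I) :
    ∃ y ∈ Q.A, y ∈ Q.II ∧ y.coeff 0 = 0 ∧
      y.coeff lam = toK (a * Q.wps n i lam) * Q.e lam ∧
      (∀ mu, y.coeff mu ≠ 0 → (∀ b, mu b ≤ 1) ∧ (∀ i, Q.chg i mu = 0) ∧ nrm mu ≤ nrm lam ∧
        (nrm mu = nrm lam → ∃ σ ∈ Q.W, mu = lact σ lam)) := by
  obtain ⟨τ, hτ, hs, hτl⟩ := exists_MT Q hQ a ha
  set τ' : (Fin (len lam) → Finset (Option B)) → SS B Λ :=
    fun V => τ V * Q.wps n i (∑ j, lamV (V j)) with hτ'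
  have hD : τ' ∈ Q.Dec (len lam) := QD.Dec_mul_wps Q _ hτ n i
  have hS : Q.SuppOn (lv lam) τ' := by
    intro V hV j
    exact hs V (left_ne_zero_of_mul hV) j
  obtain ⟨hl, hn, hII⟩ := MT_lead Q hQ hD hS
  refine ⟨Q.MT (len lam) τ', MT_mem Q _ hD, hII hne, ?_, ?_, ?_⟩
  · rw [MT_coeff]
    refine Finset.sum_eq_zero fun V hV => ?_
    simp only [Finset.mem_filter, Finset.mem_univ, true_and] at hV
    simp [hτ', hV, QD.wps_zero]
  · rw [hl]
    simp only [hτ', hτl, sum_lv]
  · intro mu hmu
    refine ⟨?_, ?_, (hn mu hmu).1, (hn mu hmu).2⟩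
    all_goals
      rw [MT_coeff] at hmu
      obtain ⟨V, hV, hV0⟩ := Finset.exists_ne_zero_of_sum_ne_zero hmu
      simp only [Finset.mem_filter, Finset.mem_univ, true_and] at hV
      have hτV : τ' V ≠ 0 := by
        intro h
        rw [h] at hV0
        simp at hV0
      have horb := hS V hτV
      subst hV
    · exact entries_le Q h1 V horb
    · intro i
      rw [charge_eq Q V horb, h2]

theorem partII [Algebra ℚ Λ] (hQ : Q.NonzeroLoops) {z : AA B Λ} (hz : z ∈ Q.A)
    (h1 : ∀ lam, z.coeff lam ≠ 0 → ∀ b, lam b ≤ 1)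
    (h2 : ∀ lam, z.coeff lam ≠ 0 → ∀ i, Q.chg i lam = 0)
    (h0 : z.coeff 0 = 0) : z ∈ Q.II := by
  classical
  -- outer induction on the bound of the norms, inner induction on the number of exponents of
  -- maximal norm
  have key : ∀ N : ℕ, ∀ m : ℕ, ∀ z : AA B Λ, z ∈ Q.A →
      (∀ lam, z.coeff lam ≠ 0 → ∀ b, lam b ≤ 1) →
      (∀ lam, z.coeff lam ≠ 0 → ∀ i, Q.chg i lam = 0) →
      z.coeff 0 = 0 → (∀ lam, z.coeff lam ≠ 0 → nrm lam ≤ N) →
      (z.coeff.support.filter fun lam => nrm lam = N).card = m → z ∈ Q.II := by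
    intro N
    induction N with
    | zero =>
      intro m z hz h1 h2 h0 hN _
      have : z = 0 := by
        ext lam
        by_contra hne
        have hlam : z.coeff lam ≠ 0 := by simpa using hne
        have hn := hN lam hlam
        have : lam = 0 := by
          funext b
          have hle : lam b ^ 2 ≤ nrm lam :=
            Finset.single_le_sum (f := fun b => lam b ^ 2) (fun b _ => sq_nonneg (lam b))
              (Finset.mem_univ b)
          have h3 : lam b ^ 2 ≤ 0 := le_trans hle (by simpa using hn)
          exact pow_eq_zero_iff (two_ne_zero) |>.1 (le_antisymm h3 (sq_nonneg _))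
        rw [this] at hlam
        exact hlam h0
      rw [this]
      exact Submodule.zero_mem _
    | succ N ihN =>
      intro m
      induction m using Nat.strong_induction_on with
      | _ m ihm =>
        intro z hz h1 h2 h0 hN hm
        by_cases hex : ∃ lam, z.coeff lam ≠ 0 ∧ nrm lam = ((N + 1 : ℕ) : ℤ)
        · obtain ⟨lam, hlam, hnl⟩ := hex
          have hmax : ∀ mu, z.coeff mu ≠ 0 → nrm mu ≤ nrm lam := by
            intro mu hmu
            rw [hnl]
            exact hN mu hmu
          have hne : lam ≠ 0 := by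
            rintro rfl
            exact hlam h0
          obtain ⟨h, hh, hinv⟩ := LC Q hQ hz hlam hmax
          obtain ⟨cl, hcl⟩ := exists_cl Q (h1 lam hlam) (h2 lam hlam)
          have hpsi := psi_eq_zero Q hQ hz h1 h2 h0 hlam hmax hh hcl
          obtain ⟨s, a, ha, hsum⟩ := ker_cl Q (h1 lam hlam) (h2 lam hlam) hcl hinv hpsi
          have hY : ∀ p : ℕ × I, ∃ y : AA B Λ, p ∈ s → y ∈ Q.A ∧ y ∈ Q.II ∧ y.coeff 0 = 0 ∧
              y.coeff lam = toK (a p * Q.wps p.1 p.2 lam) * Q.e lam ∧
              (∀ mu, y.coeff mu ≠ 0 → (∀ b, mu b ≤ 1) ∧ (∀ i, Q.chg i mu = 0) ∧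
                nrm mu ≤ nrm lam ∧ (nrm mu = nrm lam → ∃ σ ∈ Q.W, mu = lact σ lam)) := by
            intro p
            by_cases hp : p ∈ s
            · obtain ⟨y, hy, h⟩ := exists_corr Q hQ hne (h1 lam hlam) (h2 lam hlam) (ha p hp)
                p.1 p.2
              exact ⟨y, fun _ => ⟨hy, h⟩⟩
            · exact ⟨0, fun h => absurd h hp⟩
          choose y hy using hY
          set Y : AA B Λ := ∑ p ∈ s, y p with hYdef
          have hYA : Y ∈ Q.A := Subalgebra.sum_mem _ fun p hp => (hy p hp).1
          have hYII : Y ∈ Q.II := Submodule.sum_mem _ fun p hp => (hy p hp).2.1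
          have hYc : ∀ mu, Y.coeff mu = ∑ p ∈ s, (y p).coeff mu := by
            intro mu
            rw [hYdef, AddMonoidAlgebra.coeff_sum, Finsupp.finsetSum_apply]
          have hY0 : Y.coeff 0 = 0 := by
            rw [hYc]
            exact Finset.sum_eq_zero fun p hp => (hy p hp).2.2.1
          have hYl : Y.coeff lam = z.coeff lam := by
            rw [hYc, Finset.sum_congr rfl fun p hp => (hy p hp).2.2.2.1, ← Finset.sum_mul, hh,
              hsum]
            congr 1
            exact (map_sum (algebraMap (SS B Λ) (KK B Λ)) _ _).symm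
          have hYs : ∀ mu, Y.coeff mu ≠ 0 → (∀ b, mu b ≤ 1) ∧ (∀ i, Q.chg i mu = 0) ∧
                nrm mu ≤ nrm lam ∧ (nrm mu = nrm lam → ∃ σ ∈ Q.W, mu = lact σ lam) := by
            intro mu hmu
            rw [hYc] at hmu
            obtain ⟨p, hp, hp0⟩ := Finset.exists_ne_zero_of_sum_ne_zero hmu
            exact (hy p hp).2.2.2.2 mu hp0
          have hzs : ∀ mu, (z - Y).coeff mu ≠ 0 → z.coeff mu ≠ 0 ∨ Y.coeff mu ≠ 0 := by
            intro mu hmu
            by_contra hcon
            push Not at hcon
            apply hmu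
            simp [hcon.1, hcon.2]
          have hzA : z - Y ∈ Q.A := Subalgebra.sub_mem _ hz hYA
          -- elements of maximal norm of z - Y
          have hsub : ((z - Y).coeff.support.filter fun mu => nrm mu = ((N + 1 : ℕ) : ℤ)) ⊆
              (z.coeff.support.filter fun mu => nrm mu = ((N + 1 : ℕ) : ℤ)).erase lam := by
            intro mu hmu
            simp only [Finset.mem_filter, Finsupp.mem_support_iff] at hmu
            obtain ⟨hmu, hmun⟩ := hmu
            have hYmu : Y.coeff mu = 0 := by
              by_contra hYmu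
              obtain ⟨σ, hσ, rfl⟩ := (hYs mu hYmu).2.2.2 (by rw [hmun, hnl])
              apply hmu
              rw [A_inv Q hzA hσ]
              simp [hYl]
            rw [Finset.mem_erase, Finset.mem_filter, Finsupp.mem_support_iff]
            refine ⟨?_, ?_, hmun⟩
            · rintro rfl
              rw [hYmu] at hYl
              exact hlam hYl.symm
            · intro hz0
              apply hmu
              simp [hz0, hYmu]
          have hlt : ((z - Y).coeff.support.filter fun mu => nrm mu = ((N + 1 : ℕ) : ℤ)).card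
              < m := by
            rw [← hm]
            refine lt_of_le_of_lt (Finset.card_le_card hsub) ?_
            apply Finset.card_erase_lt_of_mem
            simp [hlam, hnl]
          have hfin : z - Y ∈ Q.II := by
            refine ihm _ hlt (z - Y) hzA ?_ ?_ ?_ ?_ rfl
            · intro mu hmu
              rcases hzs mu hmu with h | h
              · exact h1 mu h
              · exact (hYs mu h).1
            · intro mu hmu
              rcases hzs mu hmu with h | h
              · exact h2 mu h
              · exact (hYs mu h).2.1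
            · simp [h0, hY0]
            · intro mu hmu
              rcases hzs mu hmu with h | h
              · exact hN mu h
              · rw [← hnl]
                exact (hYs mu h).2.2.1
          have : z = (z - Y) + Y := by abel
          rw [this]
          exact Submodule.add_mem _ hfin hYII
        · push Not at hex
          refine ihN _ z hz h1 h2 h0 ?_ rfl
          intro mu hmu
          have h3 := hN mu hmu
          have h4 := hex mu hmu
          have : nrm mu < ((N + 1 : ℕ) : ℤ) := lt_of_le_of_ne h3 h4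
          push_cast at this
          omega
  -- bound
  have hbd : ∀ lam, z.coeff lam ≠ 0 → nrm lam ≤ ((∑ mu ∈ z.coeff.support, (nrm mu).toNat : ℕ) : ℤ) := by
    intro lam hlam
    have h3 : (nrm lam).toNat ≤ ∑ mu ∈ z.coeff.support, (nrm mu).toNat :=
      Finset.single_le_sum (f := fun mu => (nrm mu).toNat) (fun _ _ => Nat.zero_le _)
        (by simpa using hlam)
    have h4 : nrm lam ≤ ((nrm lam).toNat : ℤ) := Int.self_le_toNat _
    exact le_trans h4 (by exact_mod_cast h3)
  exact key _ _ z hz h1 h2 h0 hbd rfl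

end main

end Vale.Agent.P291
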