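import Vale.Agent.P291.B1Blk
import Vale.Agent.P291.B2Blk
import Vale.Agent.P291.IIdBlk

/-!
# P291 block B3: `J_D ⊆ J_C`
-/

set_option linter.unusedSectionVars false

open MvPolynomial

namespace Vale.Agent.P291

variable {I E B Λ : Type*} [Fintype E] [DecidableEq I] [Fintype B] [DecidableEq B] [CommRing Λ]
  [IsDomain Λ]
variable (Q : QD I E B Λ)

theorem cst_add (f g : SS B Λ) : QD.cst (f + g) = QD.cst f + QD.cst g := by
  simp [QD.cst, AddMonoidAlgebra.single_add]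

theorem cst_mul (f g : SS B Λ) : QD.cst (f * g) = QD.cst f * QD.cst g := by
  simp [QD.cst, AddMonoidAlgebra.single_mul_single]

theorem cst_coeff_zero (f : SS B Λ) : (QD.cst f).coeff 0 = toK f := by
  simp [QD.cst]

theorem cst_coeff_ne (f : SS B Λ) {lam : B → ℤ} (h : lam ≠ 0) : (QD.cst f).coeff lam = 0 := by
  simp [QD.cst, Finsupp.single_eq_of_ne h]

theorem partB [Algebra ℚ Λ] (hQ : Q.NonzeroLoops) {f : SS B Λ} (hf : f ∈ Q.JD) : f ∈ Q.JC := by
  obtain ⟨s, a, hs, hfa⟩ := JD_span Q hf.2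
  choose y hyA hyI hy1 hy0 using fun g : s => kap_lift Q g.1 (hs g.1 g.2) (a g.1)
  set n : ℕ := Q.Wf.card with hn
  have hn0 : n ≠ 0 := by
    rw [hn]
    apply Finset.card_ne_zero_of_mem (a := (1 : Equiv.Perm B))
    simp [QD.Wf]
  set Y : AA B Λ := ∑ g ∈ s.attach, y g with hY
  have hYA : Y ∈ Q.A := Subalgebra.sum_mem _ fun g _ => hyA g
  have hYI : Y ∈ Q.II := Submodule.sum_mem _ fun g _ => hyI g
  have hcoeff : ∀ lam, Y.coeff lam = ∑ g ∈ s.attach, (y g).coeff lam := by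
    intro lam
    rw [hY, AddMonoidAlgebra.coeff_sum, Finsupp.finsetSum_apply]
  have hY0 : Y.coeff 0 = toK ((n : SS B Λ) * f) := by
    rw [hcoeff]
    simp only [hy0]
    rw [Finset.sum_comm]
    have h1 : ∀ σ ∈ Q.Wf, ∑ g ∈ s.attach, act σ (toK (a g.1) * Q.kap g.1) = toK f := by
      intro σ hσ
      rw [← map_sum, Finset.sum_attach s (fun g => toK (a g) * Q.kap g), ← hfa, act_toK,
        hf.1 σ ((mem_Wf Q).1 hσ)]
    rw [Finset.sum_congr rfl h1]
    simp [hn, toK]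
  set z : AA B Λ := Y - QD.cst ((n : SS B Λ) * f) with hz
  have hcA : QD.cst ((n : SS B Λ) * f) ∈ Q.A := by
    apply cst_mem
    exact Subalgebra.mul_mem _ (Subalgebra.natCast_mem _ n) hf.1
  have hzA : z ∈ Q.A := Subalgebra.sub_mem _ hYA hcA
  have hz0 : z.coeff 0 = 0 := by
    rw [hz, AddMonoidAlgebra.coeff_sub, Finsupp.sub_apply, hY0, cst_coeff_zero, sub_self]
  have hzc : ∀ lam, z.coeff lam ≠ 0 → (∀ b, lam b ≤ 1) ∧ ∀ i, Q.chg i lam = 0 := by
    intro lam hlam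
    by_cases h0 : lam = 0
    · subst h0; exact absurd hz0 hlam
    · rw [hz, AddMonoidAlgebra.coeff_sub, Finsupp.sub_apply, cst_coeff_ne _ h0, sub_zero,
        hcoeff] at hlam
      obtain ⟨g, _, hg⟩ := Finset.exists_ne_zero_of_sum_ne_zero hlam
      exact hy1 g lam hg
  have hzI : z ∈ Q.II := partII Q hQ hzA (fun lam h => (hzc lam h).1)
    (fun lam h => (hzc lam h).2) hz0
  have hcI : QD.cst ((n : SS B Λ) * f) ∈ Q.II := by
    have : QD.cst ((n : SS B Λ) * f) = Y + (-1 : Q.A) • z := by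
      rw [hz, Subalgebra.smul_def, smul_eq_mul]
      push_cast
      ring
    rw [this]
    exact Submodule.add_mem _ hYI (Submodule.smul_mem _ _ hzI)
  refine ⟨hf.1, ?_⟩
  have hinv : QD.cst f = (⟨algebraMap Λ (AA B Λ) (algebraMap ℚ Λ (1 / n)),
      Subalgebra.algebraMap_mem _ _⟩ : Q.A) • QD.cst ((n : SS B Λ) * f) := by
    rw [Subalgebra.smul_def, smul_eq_mul]
    show _ = algebraMap Λ (AA B Λ) _ * _
    rw [algebraMap_AA]
    show _ = QD.cst _ * _
    rw [← cst_mul, ← mul_assoc]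
    congr 1
    have : (C (algebraMap ℚ Λ (1 / (n : ℚ))) : SS B Λ) * (n : SS B Λ) = 1 := by
      rw [← map_natCast (C : Λ →+* SS B Λ) n, ← map_mul, ← map_natCast (algebraMap ℚ Λ) n,
        ← map_mul]
      have : (1 / (n : ℚ)) * (n : ℚ) = 1 := by
        field_simp
      rw [this, map_one, map_one]
    rw [this, one_mul]
  rw [hinv]
  exact Submodule.smul_mem _ _ hcI

end Vale.Agent.P291
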