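import Vale.Agent.P291.Core2

/-!
# P291, block C1: denominators of elements of `A`
-/

open MvPolynomial

set_option linter.unusedSectionVars false

namespace Vale.Agent.P291

namespace C1

variable {I E B Λ : Type*} [Fintype E] [DecidableEq I] [Fintype B] [DecidableEq B] [CommRing Λ]
  [IsDomain Λ]
variable (Q : QD I E B Λ)

/-- `c` is `rho lam` times an element of `S[1/D]` -/
def Good (lam : B → ℤ) (c : KK B Λ) : Prop :=
  ∃ N : ℕ, ∃ s : SS B Λ, c * toK (Q.D ^ N) = toK (Q.rho lam * s)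

theorem Good.zero (lam : B → ℤ) : Good Q lam 0 := ⟨0, 0, by simp⟩

variable {Q}

theorem Good.add {lam : B → ℤ} {c c' : KK B Λ} (h : Good Q lam c) (h' : Good Q lam c') :
    Good Q lam (c + c') := by
  obtain ⟨N, s, hs⟩ := h
  obtain ⟨N', s', hs'⟩ := h'
  refine ⟨N + N', s * Q.D ^ N' + s' * Q.D ^ N, ?_⟩
  have e1 : toK (Q.D ^ (N + N')) = toK (Q.D ^ N) * toK (Q.D ^ N') := by
    rw [pow_add]; simp [toK]
  have e2 : toK (Q.rho lam * (s * Q.D ^ N' + s' * Q.D ^ N))
      = toK (Q.rho lam * s) * toK (Q.D ^ N') + toK (Q.rho lam * s') * toK (Q.D ^ N) := by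
    simp only [toK, map_mul, map_add]; ring
  rw [e1, e2, ← hs, ← hs']; ring

theorem Good.sum {lam : B → ℤ} {ι : Type*} (t : Finset ι) (c : ι → KK B Λ)
    (h : ∀ i ∈ t, Good Q lam (c i)) : Good Q lam (∑ i ∈ t, c i) := by
  classical
  induction t using Finset.induction_on with
  | empty => simpa using Good.zero Q lam
  | insert a t ha ih =>
    rw [Finset.sum_insert ha]
    exact (h a (Finset.mem_insert_self _ _)).add
      (ih fun i hi => h i (Finset.mem_insert_of_mem hi))

theorem rho_dvd (a b : B → ℤ) : Q.rho (a + b) ∣ Q.rho a * Q.rho b := by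
  unfold QD.rho
  rw [← Finset.prod_mul_distrib]
  refine Finset.prod_dvd_prod_of_dvd _ _ fun p _ => ?_
  rw [← pow_add]
  refine pow_dvd_pow _ ?_
  have : ext (a + b) p.2.2 = ext a p.2.2 + ext b p.2.2 := by
    cases h : p.2.2 <;> simp [ext]
  rw [this, Pi.add_apply]
  omega

theorem Good.mul {a b : B → ℤ} {c c' : KK B Λ} (h : Good Q a c) (h' : Good Q b c') :
    Good Q (a + b) (c * c') := by
  obtain ⟨N, s, hs⟩ := h
  obtain ⟨N', s', hs'⟩ := h'
  obtain ⟨q, hq⟩ := rho_dvd (Q := Q) a b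
  refine ⟨N + N', q * (s * s'), ?_⟩
  have e1 : toK (Q.D ^ (N + N')) = toK (Q.D ^ N) * toK (Q.D ^ N') := by
    rw [pow_add]; simp [toK]
  have e2 : Q.rho (a + b) * (q * (s * s')) = (Q.rho a * s) * (Q.rho b * s') := by
    rw [← mul_assoc, ← hq]; ring
  rw [e1, e2]
  have e3 : toK ((Q.rho a * s) * (Q.rho b * s')) = toK (Q.rho a * s) * toK (Q.rho b * s') := by
    simp [toK]
  rw [e3, ← hs, ← hs']; ring

theorem X_sub_ne_zero {r s : B} (h : r ≠ s) : (X r - X s : SS B Λ) ≠ 0 := by
  intro h0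
  have := sub_eq_zero.1 h0
  exact h (X_injective this)

theorem den_dvd (lam : B → ℤ) : ∃ N : ℕ, Q.den lam ∣ Q.D ^ N := by
  classical
  refine ⟨∑ p ∈ Q.Prs, (lam p.1 - lam p.2).toNat, ?_⟩
  unfold QD.den
  rw [← Finset.prod_pow_eq_pow_sum]
  refine Finset.prod_dvd_prod_of_dvd _ _ fun p hp => ?_
  by_cases h : p.1 = p.2
  · rw [h]; simp
  · refine pow_dvd_pow_of_dvd ?_ _
    unfold QD.D
    exact Finset.dvd_prod_of_mem (fun p : B × B => (X p.1 - X p.2 : SS B Λ))
      (Finset.mem_filter.2 ⟨hp, h⟩)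

theorem den_ne_zero (lam : B → ℤ) : Q.den lam ≠ 0 := by
  unfold QD.den
  refine Finset.prod_ne_zero_iff.2 fun p _ => ?_
  by_cases h : p.1 = p.2
  · rw [h]; simp
  · exact pow_ne_zero _ (X_sub_ne_zero h)

theorem toK_inj {f g : SS B Λ} (h : toK f = toK g) : f = g :=
  IsFractionRing.injective (SS B Λ) (KK B Λ) h

theorem toK_ne_zero {f : SS B Λ} (h : f ≠ 0) : toK f ≠ 0 := by
  intro h0
  exact h (toK_inj (by simpa [toK] using h0))

theorem D_ne_zero : Q.D ≠ 0 := by
  unfold QD.D
  exact Finset.prod_ne_zero_iff.2 fun p hp => X_sub_ne_zero (Finset.mem_filter.1 hp).2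

theorem Good.e (f : SS B Λ) (lam : B → ℤ) : Good Q lam (toK f * Q.e lam) := by
  obtain ⟨N, q, hq⟩ := den_dvd (Q := Q) lam
  refine ⟨N, f * q, ?_⟩
  have hd : toK (Q.den lam) ≠ 0 := toK_ne_zero (den_ne_zero lam)
  rw [hq]
  unfold QD.e
  simp only [toK, map_mul] at hd ⊢
  field_simp

/-- the automorphism `x_r ↦ x_r - x_s` -/
noncomputable def shear {B Λ : Type*} [CommRing Λ] [DecidableEq B] {r s : B} (h : r ≠ s) :
    SS B Λ ≃ₐ[Λ] SS B Λ :=
  AlgEquiv.ofAlgHom (aeval fun b => if b = r then X r - X s else X b)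
    (aeval fun b => if b = r then X r + X s else X b)
    (by
      ext b
      by_cases hb : b = r
      · subst hb; simp [h.symm]
      · simp [hb])
    (by
      ext b
      by_cases hb : b = r
      · subst hb; simp [h.symm]
      · simp [hb])

theorem prime_X_sub_X {r s : B} (h : r ≠ s) : Prime (X r - X s : SS B Λ) := by
  have h1 : (X r - X s : SS B Λ) = shear (Λ := Λ) h (X r) := by
    simp [shear]
  rw [h1]
  exact (MulEquiv.prime_iff (shear (Λ := Λ) h).toMulEquiv).2 (X_prime (i := r))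

theorem poly_of_reg_list (l : List (SS B Λ)) : ∀ (f : KK B Λ) (g : SS B Λ),
    (∀ δ ∈ l, Prime δ ∧ RegAt δ f) → f * toK l.prod = toK g → ∃ p : SS B Λ, f = toK p := by
  induction l with
  | nil =>
    intro f g _ h
    exact ⟨g, by simpa [toK] using h⟩
  | cons δ l ih =>
    intro f g hl h
    obtain ⟨hδ, p, q, hq, hpq⟩ := hl δ List.mem_cons_self
    have h1 : g * q = δ * (l.prod * p) := by
      apply toK_inj
      have e1 : toK (g * q) = toK g * toK q := by simp [toK]
      have e2 : toK (δ * (l.prod * p)) = toK (δ * l.prod) * toK p := by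
        simp only [toK, map_mul]; ring
      rw [e1, e2, ← h, ← hpq, List.prod_cons]; ring
    have h2 : δ ∣ g := by
      rcases hδ.dvd_or_dvd ⟨_, h1⟩ with h2 | h2
      · exact h2
      · exact absurd h2 hq
    obtain ⟨g', rfl⟩ := h2
    refine ih f g' (fun ε hε => hl ε (List.mem_cons_of_mem _ hε)) ?_
    have h3 : toK δ ≠ 0 := toK_ne_zero hδ.ne_zero
    rw [List.prod_cons] at h
    have e1 : toK (δ * l.prod) = toK δ * toK l.prod := by simp [toK]
    have e2 : toK (δ * g') = toK δ * toK g' := by simp [toK]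
    rw [e1, e2] at h
    apply mul_left_cancel₀ h3
    rw [← h]; ring

end C1

variable {I E B Λ : Type*} [Fintype E] [DecidableEq I] [Fintype B] [DecidableEq B] [CommRing Λ]
  [IsDomain Λ]
variable (Q : QD I E B Λ)

open C1 in
/-- (C1) -/
theorem A_coeff_dvd {z : AA B Λ} (hz : z ∈ Q.A) (lam : B → ℤ) :
    ∃ N : ℕ, ∃ s : SS B Λ, z.coeff lam * toK (Q.D ^ N) = toK (Q.rho lam * s) := by
  classical
  change Good Q lam (z.coeff lam)
  revert lam
  unfold QD.A at hz
  induction hz using Algebra.adjoin_induction with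
  | mem z hz =>
    intro lam
    obtain ⟨F, -, rfl⟩ := hz
    unfold QD.M
    rw [AddMonoidAlgebra.coeff_sum, Finsupp.finsetSum_apply]
    refine Good.sum _ _ fun V _ => ?_
    rw [AddMonoidAlgebra.coeff_single, Finsupp.single_apply]
    split_ifs with h
    · subst h; exact Good.e _ _
    · exact Good.zero Q lam
  | algebraMap r =>
    intro lam
    rw [AddMonoidAlgebra.coe_algebraMap]
    simp only [Function.comp_apply, AddMonoidAlgebra.coeff_single]
    rw [Finsupp.single_apply]
    split_ifs with h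
    · subst h
      refine ⟨0, C r, ?_⟩
      have : Q.rho 0 = 1 := by
        unfold QD.rho
        refine Finset.prod_eq_one fun p _ => ?_
        have : ext (0 : B → ℤ) p.2.2 = 0 := by cases h : p.2.2 <;> simp [ext]
        rw [this]; simp
      rw [this]
      simp only [pow_zero, toK, map_one, mul_one, one_mul]
      rfl
    · exact Good.zero Q lam
  | add x y _ _ hx hy =>
    intro lam
    rw [AddMonoidAlgebra.coeff_add, Finsupp.add_apply]
    exact (hx lam).add (hy lam)
  | mul x y _ _ hx hy =>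
    intro lam
    rw [AddMonoidAlgebra.coeff_mul]
    unfold Finsupp.sum
    refine Good.sum _ _ fun a _ => Good.sum _ _ fun b _ => ?_
    dsimp only
    split_ifs with h
    · subst h; exact (hx a).mul (hy b)
    · exact Good.zero Q lam

open C1 in
/-- regular at all roots and a power of `D` kills the denominator: polynomial -/
theorem poly_of_reg {f : KK B Λ} (N : ℕ) (g : SS B Λ) (h : f * toK (Q.D ^ N) = toK g)
    (hreg : ∀ r s : B, r ≠ s → Q.vx r = Q.vx s → RegAt (X r - X s) f) :
    ∃ p : SS B Λ, f = toK p := by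
  classical
  let T : Finset (B × B) := Q.Prs.filter (fun p => p.1 ≠ p.2)
  let l : List (SS B Λ) := (List.replicate N (T.toList.map fun p => (X p.1 - X p.2 : SS B Λ))).flatten
  have hprod : l.prod = Q.D ^ N := by
    simp only [l, List.prod_flatten, List.map_replicate, List.prod_replicate]
    congr 1
    unfold QD.D
    rw [Finset.prod_map_toList]
  refine poly_of_reg_list l f g ?_ (by rw [hprod]; exact h)
  intro δ hδ
  simp only [l, List.mem_flatten, List.mem_replicate] at hδ
  obtain ⟨l', ⟨-, rfl⟩, hδ⟩ := hδ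
  rw [List.mem_map] at hδ
  obtain ⟨p, hp, rfl⟩ := hδ
  have hp' := Finset.mem_filter.1 (Finset.mem_toList.1 hp)
  refine ⟨prime_X_sub_X hp'.2, hreg _ _ hp'.2 ?_⟩
  simpa [QD.Prs] using hp'.1

end Vale.Agent.P291
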