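import Vale.Agent.P291.Core2

/-!
# P291 block Q: equivariance
-/

set_option linter.unusedSectionVars false

open MvPolynomial

namespace Vale.Agent.P291

variable {I E B Λ : Type*} [Fintype E] [DecidableEq I] [Fintype B] [DecidableEq B] [CommRing Λ]
  [IsDomain Λ]
variable (Q : QD I E B Λ)

theorem act_toK (σ : Equiv.Perm B) (f : SS B Λ) : act σ (toK f) = toK (rename σ f) := by
  unfold act toK
  rw [IsFractionRing.ringEquivOfRingEquiv_algebraMap]
  rfl

theorem X_sub_X_ne_zero {r s : B} (h : r ≠ s) : (X r - X s : SS B Λ) ≠ 0 := by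
  intro h0
  have : (X r : SS B Λ) = X s := sub_eq_zero.1 h0
  exact h (X_injective this)

theorem den_ne_zero (lam : B → ℤ) : Q.den lam ≠ 0 := by
  unfold QD.den
  rw [Finset.prod_ne_zero_iff]
  intro p _
  by_cases h : p.1 = p.2
  · simp [h]
  · exact pow_ne_zero _ (X_sub_X_ne_zero h)

theorem xi_ne_zero {p : E × B × Option B} (h : some p.2.1 ≠ p.2.2) : Q.xi p ≠ 0 := by
  intro h0
  have h1 := congrArg (MvPolynomial.coeff (Finsupp.single p.2.1 1)) h0
  have hne : (0 : B →₀ ℕ) ≠ Finsupp.single p.2.1 1 := by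
    intro h2
    have := DFunLike.congr_fun h2 p.2.1
    simp at this
  unfold QD.xi xo at h1
  rcases hp : p.2.2 with _ | s
  · rw [hp] at h1
    simp [MvPolynomial.coeff_X, MvPolynomial.coeff_C, hne] at h1
  · rw [hp] at h1 h
    have hs : s ≠ p.2.1 := fun e => h (by rw [e])
    simp [MvPolynomial.coeff_X, MvPolynomial.coeff_C, Finsupp.single_left_inj, hs, hne] at h1

theorem rho_ne_zero (lam : B → ℤ) : Q.rho lam ≠ 0 := by
  unfold QD.rho
  rw [Finset.prod_ne_zero_iff]
  intro p _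
  by_cases h : some p.2.1 = p.2.2
  · simp [← h, ext]
  · exact pow_ne_zero _ (xi_ne_zero Q h)

theorem toK_ne_zero {f : SS B Λ} (h : f ≠ 0) : toK f ≠ 0 := by
  unfold toK
  simpa using h

theorem e_ne_zero (lam : B → ℤ) : Q.e lam ≠ 0 :=
  div_ne_zero (toK_ne_zero (rho_ne_zero Q lam)) (toK_ne_zero (den_ne_zero Q lam))

theorem ext_zero (o : Option B) : ext (0 : B → ℤ) o = 0 := by
  cases o <;> rfl

theorem e_zero : Q.e 0 = 1 := by
  simp [QD.e, QD.rho, QD.den, ext_zero]

theorem rho_zero : Q.rho 0 = 1 := by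
  simp [QD.rho, ext_zero]

theorem mem_W {σ : Equiv.Perm B} : σ ∈ Q.W ↔ ∀ b, Q.vx (σ b) = Q.vx b := Iff.rfl

theorem mem_Wf {σ : Equiv.Perm B} : σ ∈ Q.Wf ↔ σ ∈ Q.W := by
  simp [QD.Wf, mem_W]

theorem rename_xo (σ : Equiv.Perm B) (o : Option B) :
    rename σ (xo Λ o) = xo Λ (o.map σ) := by
  cases o <;> simp [xo]

theorem ext_lact (σ : Equiv.Perm B) (lam : B → ℤ) (o : Option B) :
    ext (lact σ lam) (o.map σ) = ext lam o := by
  cases o <;> simp [ext, lact]

theorem lact_apply (σ : Equiv.Perm B) (lam : B → ℤ) (b : B) : lact σ lam (σ b) = lam b := by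
  simp [lact]

/-- action on the index set of weights -/
def wtEquiv (σ : Equiv.Perm B) : E × B × Option B ≃ E × B × Option B :=
  Equiv.prodCongr (Equiv.refl E) (Equiv.prodCongr σ (Equiv.optionCongr σ))

theorem vo_map {σ : Equiv.Perm B} (hσ : σ ∈ Q.W) (o : Option B) :
    Q.vo (o.map σ) = Q.vo o := by
  cases o
  · rfl
  · simp [QD.vo, (mem_W Q).1 hσ]

theorem wtEquiv_mem {σ : Equiv.Perm B} (hσ : σ ∈ Q.W) (p : E × B × Option B) :
    wtEquiv σ p ∈ Q.Wt ↔ p ∈ Q.Wt := by
  have h1 : Q.vo ((Equiv.optionCongr σ) p.2.2) = Q.vo p.2.2 := vo_map Q hσ p.2.2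
  simp only [QD.Wt, Finset.mem_filter, Finset.mem_univ, true_and, wtEquiv, Equiv.prodCongr_apply,
    Prod.map_fst, Prod.map_snd, Equiv.refl_apply, h1, (mem_W Q).1 hσ]

theorem rename_xi (σ : Equiv.Perm B) (p : E × B × Option B) :
    rename σ (Q.xi p) = Q.xi (wtEquiv σ p) := by
  simp only [QD.xi, map_add, map_sub, rename_xo, rename_X, rename_C, wtEquiv]
  rfl

theorem rename_rho {σ : Equiv.Perm B} (hσ : σ ∈ Q.W) (lam : B → ℤ) :
    rename σ (Q.rho lam) = Q.rho (lact σ lam) := by
  unfold QD.rho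
  rw [map_prod]
  refine Finset.prod_equiv (wtEquiv σ) (fun p => (wtEquiv_mem Q hσ p).symm) ?_
  intro p _
  rw [map_pow, rename_xi]
  congr 2
  have h1 := ext_lact σ lam p.2.2
  have h2 := lact_apply σ lam p.2.1
  show _ = (lact σ lam (σ p.2.1)) - ext (lact σ lam) (p.2.2.map σ)
  rw [h1, h2]

theorem rename_den {σ : Equiv.Perm B} (hσ : σ ∈ Q.W) (lam : B → ℤ) :
    rename σ (Q.den lam) = Q.den (lact σ lam) := by
  unfold QD.den
  rw [map_prod]
  refine Finset.prod_equiv (Equiv.prodCongr σ σ) ?_ ?_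
  · intro p
    simp [QD.Prs, (mem_W Q).1 hσ]
  · intro p _
    simp [lact_apply]

theorem e_act (σ : Equiv.Perm B) (hσ : σ ∈ Q.W) (lam : B → ℤ) :
    act σ (Q.e lam) = Q.e (lact σ lam) := by
  unfold QD.e
  rw [map_div₀, act_toK, act_toK, rename_rho Q hσ, rename_den Q hσ]

theorem mem_vact_some (σ : Equiv.Perm B) (V : Finset (Option B)) (b : B) :
    some b ∈ vact σ V ↔ some (σ⁻¹ b) ∈ V := by
  unfold vact
  rw [Finset.mem_map_equiv]
  rfl

theorem mem_vact_none (σ : Equiv.Perm B) (V : Finset (Option B)) :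
    none ∈ vact σ V ↔ none ∈ V := by
  unfold vact
  rw [Finset.mem_map_equiv]
  rfl

theorem lamV_vact (σ : Equiv.Perm B) (V : Finset (Option B)) :
    lamV (vact σ V) = lact σ (lamV V) := by
  funext b
  simp only [lamV, lact, mem_vact_some, mem_vact_none]

/-- `lact` as an additive map -/
def lactHom (σ : Equiv.Perm B) : (B → ℤ) →+ (B → ℤ) where
  toFun := lact σ
  map_zero' := rfl
  map_add' := fun _ _ => rfl

theorem lact_injective (σ : Equiv.Perm B) : Function.Injective (lact σ) := by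
  intro a b h
  funext c
  have := congrFun h (σ c)
  simpa [lact] using this

/-- the action of a permutation on the big algebra as a ring homomorphism -/
noncomputable def gactHom (σ : Equiv.Perm B) : AA B Λ →+* AA B Λ :=
  (AddMonoidAlgebra.mapDomainRingHom (KK B Λ) (lactHom σ)).comp
    (AddMonoidAlgebra.mapRingHom (B → ℤ) (act σ).toRingHom)

theorem gactHom_single (σ : Equiv.Perm B) (lam : B → ℤ) (c : KK B Λ) :
    gactHom σ (AddMonoidAlgebra.single lam c) =
      AddMonoidAlgebra.single (lact σ lam) (act σ c) := by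
  simp [gactHom]
  rfl

theorem gactHom_coeff (σ : Equiv.Perm B) (z : AA B Λ) (lam : B → ℤ) :
    (gactHom σ z).coeff (lact σ lam) = act σ (z.coeff lam) := by
  induction z using AddMonoidAlgebra.induction_linear with
  | zero => simp
  | add a b ha hb => 
    rw [map_add]
    simp only [AddMonoidAlgebra.coeff_add, Finsupp.add_apply, ha, hb, map_add]
  | single m c =>
    rw [gactHom_single]
    simp only [AddMonoidAlgebra.coeff_single]
    by_cases h : m = lam
    · subst h; simp
    · have h' : lact σ m ≠ lact σ lam := fun e => h (lact_injective σ e)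
      rw [Finsupp.single_eq_of_ne (Ne.symm h), Finsupp.single_eq_of_ne (Ne.symm h'), map_zero]

theorem vact_bijective (σ : Equiv.Perm B) : Function.Bijective (vact σ) := by
  constructor
  · intro a b h
    exact Finset.map_injective _ h
  · intro V
    refine ⟨vact σ⁻¹ V, ?_⟩
    ext o
    cases o
    · simp [mem_vact_none]
    · simp [mem_vact_some]

theorem gactHom_M {σ : Equiv.Perm B} (hσ : σ ∈ Q.W) {F : Finset (Option B) → SS B Λ}
    (hF : F ∈ Q.Eqv) : gactHom σ (Q.M F) = Q.M F := by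
  unfold QD.M
  rw [map_sum]
  refine Fintype.sum_bijective (vact σ) (vact_bijective σ) _ _ ?_
  intro V
  have h1 : F (vact σ V) = rename σ (F V) := hF σ hσ V
  rw [gactHom_single, lamV_vact, map_mul, act_toK, e_act Q σ hσ, h1]

theorem lact_zero (σ : Equiv.Perm B) : lact σ (0 : B → ℤ) = 0 := rfl

theorem algebraMap_AA (r : Λ) :
    algebraMap Λ (AA B Λ) r = AddMonoidAlgebra.single 0 (toK (C r)) := by
  rw [AddMonoidAlgebra.coe_algebraMap]
  simp only [Function.comp_apply]
  congr 1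

theorem gactHom_A {σ : Equiv.Perm B} (hσ : σ ∈ Q.W) {z : AA B Λ} (hz : z ∈ Q.A) :
    gactHom σ z = z := by
  unfold QD.A at hz
  induction hz using Algebra.adjoin_induction with
  | mem x hx =>
    obtain ⟨F, hF, rfl⟩ := hx
    exact gactHom_M Q hσ hF
  | algebraMap r =>
    rw [algebraMap_AA, gactHom_single, act_toK]
    simp [lact_zero]
  | add x y _ _ hx hy => rw [map_add, hx, hy]
  | mul x y _ _ hx hy => rw [map_mul, hx, hy]

/-- invariance of elements of `A` -/
theorem A_inv {z : AA B Λ} (hz : z ∈ Q.A) {σ : Equiv.Perm B} (hσ : σ ∈ Q.W) (lam : B → ℤ) :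
    z.coeff (lact σ lam) = act σ (z.coeff lam) := by
  rw [← gactHom_coeff, gactHom_A Q hσ hz]

end Vale.Agent.P291
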