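import Vale.Agent.P291.H283.Prime
import Vale.Agent.P291.QBlk

/-!
# P291, block C2: regularity of the elements of `A` along strings
-/

open MvPolynomial

set_option linter.unusedSectionVars false

namespace Vale.Agent.P291

namespace C2

variable {I E B Λ : Type*} [Fintype E] [DecidableEq I] [Fintype B] [DecidableEq B] [CommRing Λ]
  [IsDomain Λ]

/-- moves the value at `s` to `r` -/
def pr (r s : B) (hrs : r ≠ s) : (B → ℤ) →+ (B → ℤ) where
  toFun lam := fun b => if b = s then 0 else if b = r then lam r + lam s else lam b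
  map_zero' := by funext b; by_cases h : b = s <;> by_cases h' : b = r <;> simp [h, h']
  map_add' := fun x y => by
    funext b
    by_cases h : b = s
    · simp [h]
    · by_cases h' : b = r
      · simp only [h', hrs, if_false, if_true, Pi.add_apply]; ring
      · simp [h, h']

theorem pr_apply (r s : B) (hrs : r ≠ s) (lam : B → ℤ) (b : B) :
    pr r s hrs lam b = if b = s then 0 else if b = r then lam r + lam s else lam b := rfl

theorem pr_eq_iff (r s : B) (hrs : r ≠ s) (lam mu : B → ℤ) :
    pr r s hrs lam = pr r s hrs mu ↔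
      (∀ b, b ≠ r → b ≠ s → lam b = mu b) ∧ lam r + lam s = mu r + mu s := by
  constructor
  · intro h
    refine ⟨fun b hb hb' => ?_, ?_⟩
    · have := congrFun h b
      simpa [pr_apply, hb, hb'] using this
    · have := congrFun h r
      simpa [pr_apply, hrs] using this
  · rintro ⟨h1, h2⟩
    funext b
    by_cases h : b = s
    · simp [pr_apply, h]
    · by_cases h' : b = r
      · simp [pr_apply, h', hrs, h2]
      · simp [pr_apply, h, h', h1 b h' h]

/-- the weight `δ^k binom(lam_s, k)` -/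
noncomputable def wt (Λ : Type*) [CommRing Λ] (r s : B) (k : ℕ) (lam : B → ℤ) : KK B Λ :=
  toK ((X r - X s) ^ k) * ((Ring.choose (lam s) k : ℤ) : KK B Λ)

theorem wt_add (r s : B) (k : ℕ) (lam mu : B → ℤ) :
    wt Λ r s k (lam + mu) = ∑ ij ∈ Finset.HasAntidiagonal.antidiagonal k, wt Λ r s ij.1 lam * wt Λ r s ij.2 mu := by
  unfold wt
  rw [Pi.add_apply, Ring.add_choose_eq k (Commute.all _ _), Int.cast_sum, Finset.mul_sum]
  refine Finset.sum_congr rfl fun ij hij => ?_
  rw [← Finset.HasAntidiagonal.mem_antidiagonal.mp hij, pow_add, Int.cast_mul]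
  simp only [toK, map_mul]
  ring

/-- the `k`-th coefficient of the homomorphism `u_s ↦ u_r (1 + δ τ)` -/
noncomputable def Phi (r s : B) (hrs : r ≠ s) (k : ℕ) : AA B Λ →+ AA B Λ :=
  (Finsupp.liftAddHom fun lam : B → ℤ =>
    (AddMonoidAlgebra.singleAddHom (R := KK B Λ) (pr r s hrs lam)).comp
      (AddMonoidHom.mulLeft (wt Λ r s k lam))).comp
    (AddMonoidAlgebra.coeffAddEquiv (R := KK B Λ) (M := B → ℤ)).toAddMonoidHom

theorem Phi_single (r s : B) (hrs : r ≠ s) (k : ℕ) (lam : B → ℤ) (c : KK B Λ) :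
    Phi r s hrs k (AddMonoidAlgebra.single lam c) =
      AddMonoidAlgebra.single (pr r s hrs lam) (wt Λ r s k lam * c) := by
  simp [Phi]

theorem Phi_apply (r s : B) (hrs : r ≠ s) (k : ℕ) (z : AA B Λ) :
    Phi r s hrs k z = z.coeff.sum fun lam c =>
      AddMonoidAlgebra.single (pr r s hrs lam) (wt Λ r s k lam * c) := by
  simp [Phi, Finsupp.sum]

theorem Phi_mul (r s : B) (hrs : r ≠ s) (k : ℕ) (z w : AA B Λ) :
    Phi r s hrs k (z * w) =
      ∑ ij ∈ Finset.HasAntidiagonal.antidiagonal k, Phi r s hrs ij.1 z * Phi r s hrs ij.2 w := by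
  induction z using AddMonoidAlgebra.induction_linear with
  | zero => simp
  | add x y hx hy =>
    simp only [add_mul, map_add, hx, hy, Finset.sum_add_distrib]
  | single lam a =>
    induction w using AddMonoidAlgebra.induction_linear with
    | zero => simp
    | add x y hx hy =>
      simp only [mul_add, map_add, hx, hy, Finset.sum_add_distrib]
    | single mu b =>
      simp only [AddMonoidAlgebra.single_mul_single, Phi_single, map_add]
      rw [wt_add, Finset.sum_mul, ← AddMonoidAlgebra.coeff_inj]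
      simp only [AddMonoidAlgebra.coeff_sum, AddMonoidAlgebra.coeff_single]
      rw [← Finsupp.singleAddHom_apply, map_sum]
      refine Finset.sum_congr rfl fun ij _ => ?_
      rw [Finsupp.singleAddHom_apply]
      congr 1
      ring

theorem Phi_coeff (r s : B) (hrs : r ≠ s) (k : ℕ) (z : AA B Λ) (mu : B → ℤ) :
    (Phi r s hrs k z).coeff (pr r s hrs mu) = toK ((X r - X s) ^ k) *
      ∑ lam ∈ z.coeff.support with (∀ b, b ≠ r → b ≠ s → lam b = mu b) ∧
        lam r + lam s = mu r + mu s, (Ring.choose (lam s) k : ℤ) • z.coeff lam := by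
  rw [Phi_apply, Finsupp.sum, AddMonoidAlgebra.coeff_sum, Finsupp.finsetSum_apply,
    Finset.mul_sum, Finset.sum_filter]
  refine Finset.sum_congr rfl fun lam _ => ?_
  rw [AddMonoidAlgebra.coeff_single, Finsupp.single_apply]
  simp only [pr_eq_iff]
  split_ifs
  · rw [wt, zsmul_eq_mul]; ring
  · rfl

/-- elements whose images under all `Phi k` have regular coefficients -/
def Good (r s : B) (hrs : r ≠ s) (z : AA B Λ) : Prop :=
  ∀ k nu, RegAt (X r - X s) ((Phi r s hrs k z).coeff nu)

theorem Good.add {r s : B} {hrs : r ≠ s} {z w : AA B Λ} (hz : Good r s hrs z)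
    (hw : Good r s hrs w) : Good r s hrs (z + w) := fun k nu => by
  rw [map_add, AddMonoidAlgebra.coeff_add, Finsupp.add_apply]
  exact RegAt.add' (delta_prime hrs) (hz k nu) (hw k nu)

theorem Good.mul {r s : B} {hrs : r ≠ s} {z w : AA B Λ} (hz : Good r s hrs z)
    (hw : Good r s hrs w) : Good r s hrs (z * w) := fun k nu => by
  rw [Phi_mul, AddMonoidAlgebra.coeff_sum, Finsupp.finsetSum_apply]
  refine RegAt.sum' (delta_prime hrs) _ _ fun ij _ => ?_
  rw [AddMonoidAlgebra.coeff_mul, Finsupp.sum]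
  refine RegAt.sum' (delta_prime hrs) _ _ fun lam _ => ?_
  rw [Finsupp.sum]
  refine RegAt.sum' (delta_prime hrs) _ _ fun mu _ => ?_
  split_ifs
  · exact RegAt.mul' (delta_prime hrs) (hz _ _) (hw _ _)
  · exact RegAt.zero' (delta_prime hrs)

theorem wt_reg (r s : B) (hrs : r ≠ s) (k : ℕ) (lam : B → ℤ) :
    RegAt (X r - X s) (wt Λ r s k lam) := by
  have : ((Ring.choose (lam s) k : ℤ) : KK B Λ) = toK (((Ring.choose (lam s) k : ℤ) : SS B Λ)) := by
    simp [toK]
  rw [wt, this]
  exact RegAt.mul' (delta_prime hrs) (RegAt.toK' (delta_prime hrs) _)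
    (RegAt.toK' (delta_prime hrs) _)

theorem Good.single_zero (r s : B) (hrs : r ≠ s) (f : SS B Λ) :
    Good r s hrs (AddMonoidAlgebra.single 0 (toK f) : AA B Λ) := fun k nu => by
  rw [Phi_single, AddMonoidAlgebra.coeff_single, Finsupp.single_apply]
  split_ifs
  · exact RegAt.mul' (delta_prime hrs) (wt_reg r s hrs k _) (RegAt.toK' (delta_prime hrs) _)
  · exact RegAt.zero' (delta_prime hrs)

theorem rh_swap (r s : B) (f : SS B Λ) : rh r s (rename (Equiv.swap r s) f) = rh r s f := by
  rw [rh, rename_rename]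
  congr 2
  funext b
  by_cases h : b = r
  · subst h
    by_cases h' : s = b
    · subst h'; simp
    · simp [Function.update_of_ne h']
  · by_cases h' : b = s
    · subst h'; simp [Function.update_of_ne h]
    · simp [Equiv.swap_apply_of_ne_of_ne h h', Function.update_of_ne h]

/-- symmetrisation kills a simple pole -/
theorem reg_sym (r s : B) (hrs : r ≠ s) (y : KK B Λ) (hy : RegAt (X r - X s) (toK (X r - X s) * y)) :
    RegAt (X r - X s) (y + act (Equiv.swap r s) y) := by
  obtain ⟨p, q, hq, h⟩ := hy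
  have hσδ : rename (Equiv.swap r s) (X r - X s : SS B Λ) = -(X r - X s) := by
    simp
  have h2 := congrArg (act (Equiv.swap r s)) h
  rw [map_mul, map_mul, act_toK, act_toK, act_toK, hσδ] at h2
  have hN : (X r - X s : SS B Λ) ∣
      p * rename (Equiv.swap r s) q - q * rename (Equiv.swap r s) p := by
    rw [dvd_iff_rh, map_sub, map_mul, map_mul, rh_swap, rh_swap]; ring
  obtain ⟨N, hN⟩ := hN
  refine ⟨N, q * rename (Equiv.swap r s) q, ?_, ?_⟩
  · intro hd
    rcases (delta_prime hrs).dvd_or_dvd hd with h' | h'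
    · exact hq h'
    · rw [dvd_iff_rh, rh_swap, ← dvd_iff_rh] at h'
      exact hq h'
  · have hδ : (toK (X r - X s) : KK B Λ) ≠ 0 := by
      simpa [toK, sub_eq_zero] using (delta_ne_zero (Λ := Λ) hrs)
    apply mul_left_cancel₀ hδ
    have h3 := congrArg (toK (B := B) (Λ := Λ)) hN
    simp only [toK, map_mul, map_sub, map_neg] at *
    linear_combination h3 + (algebraMap (SS B Λ) (KK B Λ)) (rename (Equiv.swap r s) q) * h - (algebraMap (SS B Λ) (KK B Λ) q) * h2

variable (Q : QD I E B Λ)

/-- the exact power of `x_r - x_s` in the denominator of `e lam` -/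
theorem den_factor {r s : B} (hrs : r ≠ s) (hv : Q.vx r = Q.vx s) (lam : B → ℤ) :
    ∃ q : SS B Λ, ¬ (X r - X s : SS B Λ) ∣ q ∧
      Q.den lam = (X r - X s) ^ (lam r - lam s).natAbs * q := by
  have hδ := delta_prime (Λ := Λ) hrs
  have h1 : (r, s) ∈ Q.Prs := by simp [QD.Prs, hv]
  have h2 : (s, r) ∈ Q.Prs.erase (r, s) := by
    simp [QD.Prs, hv, Ne.symm hrs]
  have hfac : Q.den lam = (X r - X s : SS B Λ) ^ (lam r - lam s).toNat *
      ((X s - X r : SS B Λ) ^ (lam s - lam r).toNat *
        ∏ p ∈ (Q.Prs.erase (r, s)).erase (s, r),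
          (X p.1 - X p.2 : SS B Λ) ^ (lam p.1 - lam p.2).toNat) := by
    rw [QD.den, ← Finset.mul_prod_erase _ _ h1, ← Finset.mul_prod_erase _ _ h2]
  set P : SS B Λ := ∏ p ∈ (Q.Prs.erase (r, s)).erase (s, r),
      (X p.1 - X p.2 : SS B Λ) ^ (lam p.1 - lam p.2).toNat with hP
  have hrest : ¬ (X r - X s : SS B Λ) ∣ P := by
    intro hd
    rw [hP] at hd
    obtain ⟨p, hp, hd⟩ := (hδ.dvd_finsetProd_iff _).mp hd
    simp only [Finset.mem_erase, ne_eq] at hp
    by_cases hp' : p.1 = p.2
    · rw [hp', sub_self, sub_self] at hd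
      simp only [Int.toNat_zero, pow_zero] at hd
      exact hδ.not_dvd_one hd
    · refine not_delta_dvd (Λ := Λ) hp' ?_ (hδ.dvd_of_dvd_pow hd)
      rintro (⟨ha, hb⟩ | ⟨ha, hb⟩)
      · exact hp.2.1 (Prod.ext ha hb)
      · exact hp.1 (Prod.ext ha hb)
  rcases le_total (lam s) (lam r) with hle | hle
  · refine ⟨_, hrest, ?_⟩
    have e1 : (lam r - lam s).toNat = (lam r - lam s).natAbs := by omega
    have e2 : (lam s - lam r).toNat = 0 := by omega
    rw [hfac, e1, e2, pow_zero, one_mul]
  · refine ⟨(-1) ^ (lam r - lam s).natAbs * P, ?_, ?_⟩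
    rotate_left
    · have e1 : (lam r - lam s).toNat = 0 := by omega
      have e2 : (lam s - lam r).toNat = (lam r - lam s).natAbs := by omega
      rw [hfac, e1, e2, pow_zero, one_mul]
      have : (X s - X r : SS B Λ) = (X r - X s) * (-1) := by ring
      rw [this, mul_pow, mul_assoc]
    · intro hd
      rcases hδ.dvd_or_dvd hd with h' | h'
      · have := hδ.dvd_of_dvd_pow h'
        rw [dvd_neg] at this
        exact hδ.not_dvd_one this
      · exact hrest h'

/-- `δ^n e(lam)` is regular for `n ≥ |lam_r - lam_s|` -/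
theorem e_reg {r s : B} (hrs : r ≠ s) (hv : Q.vx r = Q.vx s) (lam : B → ℤ) (n : ℕ)
    (hn : (lam r - lam s).natAbs ≤ n) :
    RegAt (X r - X s) (toK ((X r - X s) ^ n) * Q.e lam) := by
  have hδ := delta_prime (Λ := Λ) hrs
  obtain ⟨q, hq, h⟩ := den_factor Q hrs hv lam
  have hδ0 : (toK (X r - X s) : KK B Λ) ≠ 0 := by
    simpa [toK, sub_eq_zero] using (delta_ne_zero (Λ := Λ) hrs)
  have key : (toK ((X r - X s) ^ n) * Q.e lam : KK B Λ) =
      toK ((X r - X s) ^ (n - (lam r - lam s).natAbs) * Q.rho lam) * (toK q)⁻¹ := by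
    obtain ⟨m, rfl⟩ := Nat.exists_eq_add_of_le hn
    rw [QD.e, h, Nat.add_sub_cancel_left]
    simp only [toK, map_mul, map_pow, pow_add] at *
    have hz := pow_ne_zero (lam r - lam s).natAbs hδ0
    have hq0 : (algebraMap (SS B Λ) (KK B Λ)) q ≠ 0 := by
      have : q ≠ 0 := fun h => hq (h ▸ dvd_zero _)
      simpa using this
    field_simp
  rw [key]
  exact RegAt.mul' hδ (RegAt.toK' hδ _) (RegAt.inv' hq)

theorem lact_swap (r s : B) (lam : B → ℤ) (b : B) :
    lact (Equiv.swap r s) lam b = lam (Equiv.swap r s b) := by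
  simp [lact]

theorem pr_lact_swap {r s : B} (hrs : r ≠ s) (lam : B → ℤ) :
    pr r s hrs (lact (Equiv.swap r s) lam) = pr r s hrs lam := by
  rw [pr_eq_iff]
  refine ⟨fun b hb hb' => ?_, ?_⟩
  · rw [lact_swap, Equiv.swap_apply_of_ne_of_ne hb hb']
  · rw [lact_swap, lact_swap, Equiv.swap_apply_left, Equiv.swap_apply_right]; ring

theorem swap_mem_W {r s : B} (hv : Q.vx r = Q.vx s) : Equiv.swap r s ∈ Q.W := by
  intro b
  by_cases h : b = r
  · subst h; rw [Equiv.swap_apply_left, hv]
  · by_cases h' : b = s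
    · subst h'; rw [Equiv.swap_apply_right, hv]
    · rw [Equiv.swap_apply_of_ne_of_ne h h']

theorem mem_vact_swap (r s : B) (V : Finset (Option B)) (o : Option B) :
    o ∈ vact (Equiv.swap r s) V ↔ Equiv.optionCongr (Equiv.swap r s) o ∈ V := by
  rw [vact, Finset.mem_map_equiv]
  have : (Equiv.optionCongr (Equiv.swap r s)).symm = Equiv.optionCongr (Equiv.swap r s) := by
    rw [← Equiv.optionCongr_symm, Equiv.symm_swap]
  rw [this]

theorem vact_swap_vact_swap (r s : B) (V : Finset (Option B)) :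
    vact (Equiv.swap r s) (vact (Equiv.swap r s) V) = V := by
  ext o
  rw [mem_vact_swap, mem_vact_swap]
  have : Equiv.optionCongr (Equiv.swap r s) (Equiv.optionCongr (Equiv.swap r s) o) = o := by
    cases o <;> simp
  rw [this]

theorem some_mem_vact_left (r s : B) (V : Finset (Option B)) :
    some r ∈ vact (Equiv.swap r s) V ↔ some s ∈ V := by
  rw [mem_vact_swap]; simp

theorem some_mem_vact_right (r s : B) (V : Finset (Option B)) :
    some s ∈ vact (Equiv.swap r s) V ↔ some r ∈ V := by
  rw [mem_vact_swap]; simp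

theorem split_sum {M : Type*} [AddCommMonoid M] (r s : B) (T : Finset (Option B) → M) :
    ∑ V, T V = ∑ V with (some r ∈ V ↔ some s ∈ V), T V +
      ∑ V with (some r ∈ V ∧ some s ∉ V), (T V + T (vact (Equiv.swap r s) V)) := by
  rw [Finset.sum_add_distrib, ← Finset.sum_filter_add_sum_filter_not Finset.univ
    (fun V : Finset (Option B) => (some r ∈ V ↔ some s ∈ V))]
  congr 1
  rw [← Finset.sum_filter_add_sum_filter_not (Finset.univ.filter
    (fun V : Finset (Option B) => ¬ (some r ∈ V ↔ some s ∈ V)))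
    (fun V : Finset (Option B) => some r ∈ V), Finset.filter_filter, Finset.filter_filter]
  have e1 : ∀ V : Finset (Option B), (¬ (some r ∈ V ↔ some s ∈ V) ∧ some r ∈ V) ↔
      (some r ∈ V ∧ some s ∉ V) := fun V => by
    by_cases h1 : some r ∈ V <;> by_cases h2 : some s ∈ V <;> simp [h1, h2]
  have e2 : ∀ V : Finset (Option B), (¬ (some r ∈ V ↔ some s ∈ V) ∧ ¬ some r ∈ V) ↔
      (some s ∈ V ∧ some r ∉ V) := fun V => by
    by_cases h1 : some r ∈ V <;> by_cases h2 : some s ∈ V <;> simp [h1, h2]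
  rw [Finset.filter_congr (fun V _ => e1 V), Finset.filter_congr (fun V _ => e2 V)]
  congr 1
  refine Finset.sum_nbij' (vact (Equiv.swap r s)) (vact (Equiv.swap r s)) ?_ ?_ ?_ ?_ ?_
  · intro V hV
    have hV := (Finset.mem_filter.mp hV).2
    refine Finset.mem_filter.mpr ⟨Finset.mem_univ _, ?_⟩
    rw [some_mem_vact_left, some_mem_vact_right]
    exact hV
  · intro V hV
    have hV := (Finset.mem_filter.mp hV).2
    refine Finset.mem_filter.mpr ⟨Finset.mem_univ _, ?_⟩
    rw [some_mem_vact_left, some_mem_vact_right]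
    exact hV
  · intro V _; exact vact_swap_vact_swap r s V
  · intro V _; exact vact_swap_vact_swap r s V
  · intro V _; rw [vact_swap_vact_swap]

/-- the generators are good -/
theorem Good.M {r s : B} (hrs : r ≠ s) (hv : Q.vx r = Q.vx s) {F : Finset (Option B) → SS B Λ}
    (hF : F ∈ Q.Eqv) : Good r s hrs (Q.M F) := fun k nu => by
  have hδ := delta_prime (Λ := Λ) hrs
  have hσ := swap_mem_W Q hv
  rw [QD.M, map_sum, AddMonoidAlgebra.coeff_sum, Finsupp.finsetSum_apply]
  set T : Finset (Option B) → KK B Λ := fun V =>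
    (Phi r s hrs k (AddMonoidAlgebra.single (lamV V) (toK (F V) * Q.e (lamV V)))).coeff nu with hT
  have hTV : ∀ V, T V = if pr r s hrs (lamV V) = nu then
      wt Λ r s k (lamV V) * (toK (F V) * Q.e (lamV V)) else 0 := fun V => by
    simp only [hT]
    rw [Phi_single, AddMonoidAlgebra.coeff_single, Finsupp.single_apply]
  have hlam : ∀ V : Finset (Option B), ∀ b : B,
      lamV V b = (if some b ∈ V then 1 else 0) - (if none ∈ V then 1 else 0) := fun V b => rfl
  -- neither
  have hN : ∀ V : Finset (Option B), (some r ∈ V ↔ some s ∈ V) → RegAt (X r - X s) (T V) := by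
    intro V hV
    rw [hTV]
    split_ifs
    · have := e_reg Q hrs hv (lamV V) 0 (by simp [hlam, hV])
      rw [pow_zero] at this
      have h1 : (toK (1 : SS B Λ) : KK B Λ) = 1 := by simp [toK]
      rw [h1, one_mul] at this
      exact RegAt.mul' hδ (wt_reg r s hrs k _) (RegAt.mul' hδ (RegAt.toK' hδ _) this)
    · exact RegAt.zero' hδ
  -- pairs
  have hP : ∀ V : Finset (Option B), some r ∈ V → some s ∉ V →
      RegAt (X r - X s) (T V + T (vact (Equiv.swap r s) V)) := by
    intro V h1 h2
    have hl : lamV (vact (Equiv.swap r s) V) = lact (Equiv.swap r s) (lamV V) :=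
      lamV_vact _ _
    rw [hTV, hTV, hl, pr_lact_swap]
    split_ifs with hnu
    · have hr : lamV V r = 1 - (if none ∈ V then 1 else 0) := by rw [hlam, if_pos h1]
      have hs : lamV V s = 0 - (if none ∈ V then 1 else 0) := by rw [hlam, if_neg h2]
      have hd : (lamV V r - lamV V s).natAbs ≤ 1 := by rw [hr, hs]; simp
      have hd' : (lact (Equiv.swap r s) (lamV V) r - lact (Equiv.swap r s) (lamV V) s).natAbs ≤ 1 := by
        rw [lact_swap, lact_swap, Equiv.swap_apply_left, Equiv.swap_apply_right, hr, hs]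
        split_ifs <;> simp
      have r1 := e_reg Q hrs hv (lamV V) 1 hd
      have r2 := e_reg Q hrs hv (lact (Equiv.swap r s) (lamV V)) 1 hd'
      rw [pow_one] at r1 r2
      cases k with
      | zero =>
        have w1 : ∀ lam : B → ℤ, wt Λ r s 0 lam = 1 := fun lam => by simp [wt, toK]
        rw [w1, w1, one_mul, one_mul]
        have : toK (F (vact (Equiv.swap r s) V)) * Q.e (lact (Equiv.swap r s) (lamV V)) =
            act (Equiv.swap r s) (toK (F V) * Q.e (lamV V)) := by
          rw [map_mul, act_toK, e_act Q _ hσ, hF _ hσ]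
        rw [this]
        refine reg_sym r s hrs _ ?_
        have := RegAt.mul' hδ (RegAt.toK' hδ (F V)) r1
        convert this using 1
        ring
      | succ k =>
        have w1 : ∀ lam : B → ℤ, wt Λ r s (k + 1) lam =
            toK (((Ring.choose (lam s) (k + 1) : ℤ) : SS B Λ) * (X r - X s) ^ k) * toK (X r - X s) :=
          fun lam => by
            simp only [wt, toK, map_mul, map_intCast, pow_succ]; ring
        rw [w1, w1]
        refine RegAt.add' hδ ?_ ?_
        · have := RegAt.mul' hδ (RegAt.toK' hδ (((Ring.choose (lamV V s) (k + 1) : ℤ) : SS B Λ) *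
            (X r - X s) ^ k)) (RegAt.mul' hδ (RegAt.toK' hδ (F V)) r1)
          convert this using 1
          ring
        · have := RegAt.mul' hδ (RegAt.toK' hδ (((Ring.choose
            (lact (Equiv.swap r s) (lamV V) s) (k + 1) : ℤ) : SS B Λ) * (X r - X s) ^ k))
            (RegAt.mul' hδ (RegAt.toK' hδ (F (vact (Equiv.swap r s) V))) r2)
          convert this using 1
          ring
    · simpa using RegAt.zero' hδ
  have hsplit := split_sum r s T
  change RegAt (X r - X s) (∑ V, T V)
  rw [hsplit]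
  refine RegAt.add' hδ (RegAt.sum' hδ _ _ fun V hV => ?_) (RegAt.sum' hδ _ _ fun V hV => ?_)
  · exact hN V (Finset.mem_filter.mp hV).2
  · exact hP V (Finset.mem_filter.mp hV).2.1 (Finset.mem_filter.mp hV).2.2

theorem Good.of_mem {r s : B} (hrs : r ≠ s) (hv : Q.vx r = Q.vx s) {z : AA B Λ} (hz : z ∈ Q.A) :
    Good r s hrs z := by
  induction hz using Algebra.adjoin_induction with
  | mem x hx =>
    obtain ⟨F, hF, rfl⟩ := hx
    exact Good.M Q hrs hv hF
  | algebraMap a =>
    have : (algebraMap Λ (AA B Λ)) a = AddMonoidAlgebra.single 0 (toK (C a)) := by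
      rw [AddMonoidAlgebra.coe_algebraMap]
      simp only [Function.comp_apply, toK]
      congr 1
    rw [this]
    exact Good.single_zero r s hrs _
  | add x y _ _ hx hy => exact hx.add hy
  | mul x y _ _ hx hy => exact hx.mul hy

end C2

variable {I E B Λ : Type*} [Fintype E] [DecidableEq I] [Fintype B] [DecidableEq B] [CommRing Λ]
  [IsDomain Λ]
variable (Q : QD I E B Λ)

/-- (C2) -/
theorem A_reg {z : AA B Λ} (hz : z ∈ Q.A) {r s : B} (hrs : r ≠ s) (hv : Q.vx r = Q.vx s)
    (mu : B → ℤ) (k : ℕ) :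
    RegAt (X r - X s) (toK ((X r - X s) ^ k) *
      ∑ lam ∈ z.coeff.support with (∀ b, b ≠ r → b ≠ s → lam b = mu b) ∧
        lam r + lam s = mu r + mu s, (Ring.choose (lam s) k : ℤ) • z.coeff lam) := by
  rw [← C2.Phi_coeff r s hrs k z mu]
  exact C2.Good.of_mem Q hrs hv hz k _

end Vale.Agent.P291
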