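import Mathlib

/-!
# P291: frozen definitions

Uniform format: `I` = vertices of the quiver, `E` = arrows and framing lines,
`B` = the Chern roots (boxes) of all the `GL(V_i)`, `vx b` the vertex of a box `b`
(so `v_i` is the number of boxes at `i`).  An element `a : E` with `tgt a = some j` is an arrow
`src a ⟶ j`, an element with `tgt a = none` is a line of the framing space `W_{src a}`.
So `N = ⨁_a Hom(V_{src a}, V_{tgt a})` with `V_none = ℂ`.  The flavour torus acts on the summand
`a` with weight `t a ∈ Λ = H_F`.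
-/

open MvPolynomial

namespace Vale.Agent.P291

/-- Quiver, dimension vector (through the boxes) and flavour weights. -/
structure QD (I E B Λ : Type*) where
  /-- source of an arrow or framing line -/
  src : E → I
  /-- target, `none` for a framing line -/
  tgt : E → Option I
  /-- vertex of a box -/
  vx : B → I
  /-- flavour weight of an arrow or framing line -/
  t : E → Λ

/-- Polynomials in the Chern roots. -/
abbrev SS (B Λ : Type*) [CommRing Λ] := MvPolynomial B Λ

/-- Rational functions in the Chern roots. -/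
abbrev KK (B Λ : Type*) [CommRing Λ] := FractionRing (MvPolynomial B Λ)

/-- Laurent polynomials in the shift variables `u_b` over rational functions. -/
abbrev AA (B Λ : Type*) [CommRing Λ] := AddMonoidAlgebra (KK B Λ) (B → ℤ)

/-- inclusion of polynomials in rational functions -/
noncomputable abbrev toK {B Λ : Type*} [CommRing Λ] (f : SS B Λ) : KK B Λ :=
  algebraMap (SS B Λ) (KK B Λ) f

/-- A cocharacter `lam : B → ℤ` extended by `0` to the framing box `none`. -/
def ext {B : Type*} (lam : B → ℤ) : Option B → ℤ := fun o => o.elim 0 lam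

/-- Chern roots, the framing box has Chern root `0`. -/
noncomputable def xo {B : Type*} (Λ : Type*) [CommRing Λ] : Option B → SS B Λ :=
  fun o => o.elim 0 X

/-- `|lam|^2` -/
def nrm {B : Type*} [Fintype B] (lam : B → ℤ) : ℤ := ∑ b, lam b ^ 2

/-- The cocharacter of a subset of `B ∪ {none}`: `1_V` if `none ∉ V`, and `1_V - 1 = -1_{V^c}`
if `none ∈ V`. -/
def lamV {B : Type*} [DecidableEq B] (V : Finset (Option B)) : B → ℤ :=
  fun b => (if some b ∈ V then 1 else 0) - (if none ∈ V then 1 else 0)

namespace QD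

variable {I E B Λ : Type*} [Fintype E] [DecidableEq I] [Fintype B] [DecidableEq B] [CommRing Λ] [IsDomain Λ]
variable (Q : QD I E B Λ)

/-- vertex of an extended box -/
def vo : Option B → Option I := Option.map Q.vx

/-- The weights of the maximal torus of `G` on `N`: triples (arrow `a`, box `r` at the source,
extended box `s` at the target). -/
def Wt : Finset (E × B × Option B) :=
  Finset.univ.filter fun p => Q.vx p.2.1 = Q.src p.1 ∧ Q.vo p.2.2 = Q.tgt p.1

/-- The weight `x_s - x_r + t_a`. -/
noncomputable def xi (p : E × B × Option B) : SS B Λ := xo Λ p.2.2 - X p.2.1 + C (Q.t p.1)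

/-- `∏_ξ ξ^{max(0, -⟨ξ,lam⟩)}` -/
noncomputable def rho (lam : B → ℤ) : SS B Λ :=
  ∏ p ∈ Q.Wt, Q.xi p ^ (lam p.2.1 - ext lam p.2.2).toNat

/-- ordered pairs of boxes at the same vertex -/
def Prs : Finset (B × B) := Finset.univ.filter fun p => Q.vx p.1 = Q.vx p.2

/-- product of the roots `x_r - x_s` with multiplicity `max(0, lam_r - lam_s)` -/
noncomputable def den (lam : B → ℤ) : SS B Λ :=
  ∏ p ∈ Q.Prs, (X p.1 - X p.2 : SS B Λ) ^ (lam p.1 - lam p.2).toNat

/-- `e(lam) = ∏_ξ ξ^{max(0,-⟨ξ,lam⟩)} / ∏_{lam_r > lam_s} (x_r - x_s)^{lam_r - lam_s}` -/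
noncomputable def e (lam : B → ℤ) : KK B Λ := toK (Q.rho lam) / toK (Q.den lam)

/-- The Weyl group of `G`. -/
def W : Subgroup (Equiv.Perm B) where
  carrier := {σ | ∀ b, Q.vx (σ b) = Q.vx b}
  mul_mem' := fun {a b} ha hb c => by simp [Equiv.Perm.mul_apply, ha (b c), hb c]
  one_mem' := fun b => rfl
  inv_mem' := fun {a} ha b => by
    have := ha (a⁻¹ b)
    simpa using this.symm

end QD

section action

variable {B Λ : Type*} [Fintype B] [DecidableEq B] [CommRing Λ] [IsDomain Λ]

/-- action of a permutation of the boxes on rational functions -/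
noncomputable def act (σ : Equiv.Perm B) : KK B Λ ≃+* KK B Λ :=
  IsFractionRing.ringEquivOfRingEquiv (A := SS B Λ) (B := SS B Λ) (K := KK B Λ) (L := KK B Λ)
    (renameEquiv Λ σ).toRingEquiv

/-- action on cocharacters -/
def lact (σ : Equiv.Perm B) (lam : B → ℤ) : B → ℤ := fun b => lam (σ⁻¹ b)

/-- action on subsets of `B ∪ {none}` -/
def vact (σ : Equiv.Perm B) (V : Finset (Option B)) : Finset (Option B) :=
  V.map (Equiv.optionCongr σ).toEmbedding

/-- action on the big algebra -/
noncomputable def gact (σ : Equiv.Perm B) (z : AA B Λ) : AA B Λ :=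
  z.coeff.sum fun lam c => AddMonoidAlgebra.single (lact σ lam) (act σ c)

end action

namespace QD

variable {I E B Λ : Type*} [Fintype E] [DecidableEq I] [Fintype B] [DecidableEq B] [CommRing Λ] [IsDomain Λ]
variable (Q : QD I E B Λ)

/-- invariant polynomials: `R = H_{G × F}(pt)` -/
def R : Subalgebra Λ (SS B Λ) where
  carrier := {f | ∀ σ ∈ Q.W, rename σ f = f}
  mul_mem' := fun {a b} ha hb σ hσ => by rw [map_mul, ha σ hσ, hb σ hσ]
  add_mem' := fun {a b} ha hb σ hσ => by rw [map_add, ha σ hσ, hb σ hσ]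
  algebraMap_mem' := fun r σ hσ => by simp [MvPolynomial.algebraMap_eq]

/-- equivariant dressings: `F(σV) = σ F(V)` -/
def Eqv : Subalgebra Λ (Finset (Option B) → SS B Λ) where
  carrier := {F | ∀ σ ∈ Q.W, ∀ V, F (vact σ V) = rename σ (F V)}
  mul_mem' := fun {a b} ha hb σ hσ V => by
    simp only [Pi.mul_apply, map_mul, ha σ hσ, hb σ hσ]
  add_mem' := fun {a b} ha hb σ hσ V => by
    simp only [Pi.add_apply, map_add, ha σ hσ, hb σ hσ]
  algebraMap_mem' := fun r σ hσ V => by
    simp [Pi.algebraMap_apply, MvPolynomial.algebraMap_eq]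

/-- The operator `M[F] = ∑_V F(V) e(lam V) u^{lam V}`. -/
noncomputable def M (F : Finset (Option B) → SS B Λ) : AA B Λ :=
  ∑ V : Finset (Option B), AddMonoidAlgebra.single (lamV V) (toK (F V) * Q.e (lamV V))

/-- The (abelianised) Coulomb branch algebra. -/
noncomputable def A : Subalgebra Λ (AA B Λ) :=
  Algebra.adjoin Λ {z | ∃ F ∈ Q.Eqv, z = Q.M F}

/-- The generators of nonzero charge. -/
def Chg : Set (AA B Λ) :=
  {z | ∃ F ∈ Q.Eqv, F ∅ = 0 ∧ F Finset.univ = 0 ∧ z = Q.M F}

/-- The `A`-span of the generators of nonzero charge, as a subset of the big algebra. -/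
noncomputable def II : Submodule Q.A (AA B Λ) := Submodule.span Q.A Q.Chg

/-- inclusion of polynomials in the big algebra -/
noncomputable def cst (f : SS B Λ) : AA B Λ := AddMonoidAlgebra.single 0 (toK f)

/-- `D = ∏ (x_r - x_s)` over ordered pairs of distinct boxes at the same vertex. -/
noncomputable def D : SS B Λ :=
  ∏ p ∈ Q.Prs.filter (fun p => p.1 ≠ p.2), (X p.1 - X p.2 : SS B Λ)

/-- product of all weights that cross the cut `U | U^c ∪ {none}` -/
noncomputable def cut (U : Finset B) : SS B Λ :=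
  ∏ p ∈ Q.Wt.filter (fun p => ¬ (p.2.1 ∈ U ↔ ∃ b ∈ U, p.2.2 = some b)), Q.xi p

/-- the ideal generated by the cut products -/
noncomputable def IT : Ideal (SS B Λ) := Ideal.span {f | ∃ U : Finset B, U.Nonempty ∧ f = Q.cut U}

/-- `J_D = {f ∈ R : D f ∈ I_T}` -/
def JD : Set (SS B Λ) := {f | f ∈ Q.R ∧ Q.D * f ∈ Q.IT}

/-- `J_C = R ∩ II` -/
def JC : Set (SS B Λ) := {f | f ∈ Q.R ∧ cst f ∈ Q.II}

/-- hypothesis (H): the flavour weights of loops are nonzero -/
def NonzeroLoops : Prop := ∀ a, Q.tgt a = some (Q.src a) → Q.t a ≠ 0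

end QD

end Vale.Agent.P291
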