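import Vale.Agent.P291.Core

/-!
# P291: auxiliary definitions used in the proof (frozen)
-/

open MvPolynomial

namespace Vale.Agent.P291

/-- smallest value of the extended cocharacter -/
def lo {B : Type*} [Fintype B] (lam : B → ℤ) : ℤ :=
  (Finset.univ : Finset (Option B)).inf' ⟨none, Finset.mem_univ _⟩ (ext lam)

/-- largest value of the extended cocharacter -/
def hi {B : Type*} [Fintype B] (lam : B → ℤ) : ℤ :=
  (Finset.univ : Finset (Option B)).sup' ⟨none, Finset.mem_univ _⟩ (ext lam)

/-- number of proper level sets -/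
def len {B : Type*} [Fintype B] (lam : B → ℤ) : ℕ := (hi lam - lo lam).toNat

/-- level sets of the extended cocharacter: decreasing in `j` -/
def lv {B : Type*} [Fintype B] [DecidableEq B] (lam : B → ℤ) (j : Fin (len lam)) :
    Finset (Option B) :=
  Finset.univ.filter fun o => lo lam + 1 + (j : ℤ) ≤ ext lam o

namespace QD

variable {I E B Λ : Type*} [Fintype E] [DecidableEq I] [Fintype B] [DecidableEq B] [CommRing Λ]
  [IsDomain Λ]
variable (Q : QD I E B Λ)

/-- sum over tuples of subsets of `B ∪ {none}` -/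
noncomputable def MT (k : ℕ) (τ : (Fin k → Finset (Option B)) → SS B Λ) : AA B Λ :=
  ∑ V : Fin k → Finset (Option B),
    AddMonoidAlgebra.single (∑ j, lamV (V j)) (toK (τ V) * ∏ j, Q.e (lamV (V j)))

/-- span of the decomposable equivariant dressings of tuples -/
noncomputable def Dec (k : ℕ) : Submodule Λ ((Fin k → Finset (Option B)) → SS B Λ) :=
  Submodule.span Λ {τ | ∃ r ∈ Q.R, ∃ F : Fin k → Finset (Option B) → SS B Λ,
    (∀ j, F j ∈ Q.Eqv) ∧ τ = fun V => r * ∏ j, F j (V j)}

/-- same orbit -/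
def orb (V V' : Finset (Option B)) : Prop := ∃ σ ∈ Q.W, vact σ V = V'

/-- `τ` is supported on tuples in the orbits of `V` -/
def SuppOn {k : ℕ} (V : Fin k → Finset (Option B))
    (τ : (Fin k → Finset (Option B)) → SS B Λ) : Prop :=
  ∀ V', τ V' ≠ 0 → ∀ j, Q.orb (V j) (V' j)

/-- charge at a vertex -/
def chg (i : I) (lam : B → ℤ) : ℤ := ∑ b ∈ Finset.univ.filter (fun b => Q.vx b = i), lam b

/-- `h` is invariant under the stabiliser of `lam` -/
def InvL (lam : B → ℤ) (h : SS B Λ) : Prop := ∀ σ ∈ Q.W, lact σ lam = lam → rename σ h = h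

/-- the Weyl group as a finset -/
def Wf : Finset (Equiv.Perm B) := Finset.univ.filter fun σ => ∀ b, Q.vx (σ b) = Q.vx b

/-- number of boxes (and the framing box) per vertex -/
def dm (V : Finset (Option B)) (i : Option I) : ℕ := (V.filter fun o => Q.vo o = i).card

/-- equivariant dressings supported on subsets with dimension vector `d` -/
def EqvD (d : Option I → ℕ) : Set (Finset (Option B) → SS B Λ) :=
  {F | F ∈ Q.Eqv ∧ ∀ V, F V ≠ 0 → Q.dm V = d}

/-- span of the products of two generators with given dimension vectors -/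
noncomputable def PP (d d' : Option I → ℕ) : Submodule Λ (AA B Λ) :=
  Submodule.span Λ {z | ∃ F ∈ Q.EqvD d, ∃ G ∈ Q.EqvD d', z = Q.M F * Q.M G}

/-- span of the products of `k` generators with given dimension vectors -/
noncomputable def PT {k : ℕ} (d : Fin k → Option I → ℕ) : Submodule Λ (AA B Λ) :=
  Submodule.span Λ {z | ∃ F : Fin k → Finset (Option B) → SS B Λ,
    (∀ j, F j ∈ Q.EqvD (d j)) ∧ z = ∏ j, Q.M (F j)}

/-- weighted power sum `∑_{vx b = i} lam_b x_b^n` -/
noncomputable def wps (n : ℕ) (i : I) (lam : B → ℤ) : SS B Λ :=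
  ∑ b ∈ Finset.univ.filter (fun b => Q.vx b = i), C ((lam b : ℤ) : Λ) * X b ^ n

/-- `cl` is a cluster map for `lam` (entries at most one, charge zero): boxes with `lam ≤ 0` are
fixed, a box with `lam = 1` goes to a box with `lam < 0` at the same vertex, and a box `b`
with `lam b < 0` receives exactly `|lam b|` of them. -/
def IsCl (lam : B → ℤ) (cl : B → B) : Prop :=
  (∀ b, lam b ≤ 0 → cl b = b) ∧ (∀ b, lam b = 1 → lam (cl b) < 0) ∧
  (∀ b, Q.vx (cl b) = Q.vx b) ∧
  (∀ b, lam b < 0 → ((Finset.univ.filter fun c => lam c = 1 ∧ cl c = b).card : ℤ) = - lam b)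

/-- For a colouring `g : B → ℕ` (colour `0` = the framed block): product of all weights
joining different colours. -/
noncomputable def numG (g : B → ℕ) : SS B Λ :=
  ∏ p ∈ Q.Wt.filter (fun p => g p.2.1 ≠ p.2.2.elim 0 g), Q.xi p

/-- product of `(x_r - x_s)` over ordered pairs at the same vertex with different colours -/
noncomputable def denG (g : B → ℕ) : SS B Λ :=
  ∏ p ∈ Q.Prs.filter (fun p => g p.1 ≠ g p.2), (X p.1 - X p.2 : SS B Λ)

/-- `kap g = numG g / denG g` -/
noncomputable def kap (g : B → ℕ) : KK B Λ := toK (Q.numG g) / toK (Q.denG g)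

end QD

/-- `f` is regular at the prime `δ` -/
def RegAt {B Λ : Type*} [CommRing Λ] (δ : SS B Λ) (f : KK B Λ) : Prop :=
  ∃ p q : SS B Λ, ¬ δ ∣ q ∧ f * toK q = toK p

end Vale.Agent.P291
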