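import Vale.Agent.P291.QBlk
import Vale.Agent.P291.C1Blk
import Vale.Agent.P291.C2Blk

/-!
# P291, block LC: leading coefficients
-/

open MvPolynomial

namespace Vale.Agent.P291

namespace LCBlk

section prime

variable {B Λ : Type*} [DecidableEq B] [CommRing Λ] [IsDomain Λ]

/-- the substitution `x_r ↦ x_s` -/
noncomputable def sub (r s : B) : SS B Λ →ₐ[Λ] SS B Λ :=
  MvPolynomial.rename (fun b => if b = r then s else b)

omit [IsDomain Λ] in
lemma dvd_sub (r s : B) (f : SS B Λ) : (X r - X s : SS B Λ) ∣ f - sub r s f := by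
  induction f using MvPolynomial.induction_on with
  | C a => simp [sub]
  | add p q hp hq =>
    rw [map_add, add_sub_add_comm]
    exact dvd_add hp hq
  | mul_X p b hp =>
    rw [map_mul]
    have h1 : (X r - X s : SS B Λ) ∣ X b - sub r s (X b) := by
      unfold sub
      rw [rename_X]
      split_ifs with h
      · subst h; exact dvd_rfl
      · simp
    have : p * X b - sub r s p * sub r s (X b)
        = (p - sub r s p) * X b + sub r s p * (X b - sub r s (X b)) := by ring
    rw [this]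
    exact dvd_add (Dvd.dvd.mul_right hp _) (Dvd.dvd.mul_left h1 _)

omit [IsDomain Λ] in
lemma sub_delta (r s : B) : sub r s (X r - X s : SS B Λ) = 0 := by
  unfold sub
  rw [map_sub, rename_X, rename_X, if_pos rfl]
  split_ifs with h <;> simp

omit [IsDomain Λ] in
lemma dvd_iff (r s : B) (f : SS B Λ) : (X r - X s : SS B Λ) ∣ f ↔ sub r s f = 0 := by
  constructor
  · rintro ⟨g, rfl⟩
    rw [map_mul, sub_delta, zero_mul]
  · intro h
    have := dvd_sub r s f
    rwa [h, sub_zero] at this

lemma not_dvd_mul (r s : B) {f g : SS B Λ} (hf : ¬ (X r - X s : SS B Λ) ∣ f)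
    (hg : ¬ (X r - X s : SS B Λ) ∣ g) : ¬ (X r - X s : SS B Λ) ∣ f * g := by
  rw [dvd_iff] at *
  rw [map_mul]
  exact mul_ne_zero hf hg

lemma not_dvd_one (r s : B) : ¬ (X r - X s : SS B Λ) ∣ 1 := by
  rw [dvd_iff, map_one]
  exact one_ne_zero

end prime

section reg

variable {B Λ : Type*} [DecidableEq B] [CommRing Λ] [IsDomain Λ]

lemma RegAt.poly (r s : B) (p : SS B Λ) : RegAt (X r - X s) (toK p : KK B Λ) :=
  ⟨p, 1, not_dvd_one r s, by simp [toK]⟩

lemma RegAt.mul {r s : B} {f g : KK B Λ} (hf : RegAt (X r - X s) f) (hg : RegAt (X r - X s) g) :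
    RegAt (X r - X s) (f * g) := by
  obtain ⟨p, q, hq, h⟩ := hf
  obtain ⟨p', q', hq', h'⟩ := hg
  refine ⟨p * p', q * q', not_dvd_mul r s hq hq', ?_⟩
  simp only [toK, map_mul] at *
  rw [← h, ← h']; ring

lemma RegAt.add {r s : B} {f g : KK B Λ} (hf : RegAt (X r - X s) f) (hg : RegAt (X r - X s) g) :
    RegAt (X r - X s) (f + g) := by
  obtain ⟨p, q, hq, h⟩ := hf
  obtain ⟨p', q', hq', h'⟩ := hg
  refine ⟨p * q' + p' * q, q * q', not_dvd_mul r s hq hq', ?_⟩
  simp only [toK, map_mul, map_add] at *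
  rw [← h, ← h']; ring

lemma RegAt.zero (r s : B) : RegAt (X r - X s) (0 : KK B Λ) := by
  have := RegAt.poly r s (0 : SS B Λ)
  simpa [toK] using this

lemma RegAt.sum {r s : B} {ι : Type*} (t : Finset ι) {f : ι → KK B Λ}
    (hf : ∀ i ∈ t, RegAt (X r - X s) (f i)) : RegAt (X r - X s) (∑ i ∈ t, f i) := by
  classical
  induction t using Finset.induction_on with
  | empty => simpa using RegAt.zero r s
  | insert a t ha ih =>
    rw [Finset.sum_insert ha]
    exact RegAt.add (hf a (Finset.mem_insert_self a t))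
      (ih fun i hi => hf i (Finset.mem_insert_of_mem hi))

omit [DecidableEq B] [IsDomain Λ] in
lemma RegAt.swap {r s : B} {f : KK B Λ} (hf : RegAt (X s - X r) f) : RegAt (X r - X s) f := by
  obtain ⟨p, q, hq, h⟩ := hf
  refine ⟨p, q, ?_, h⟩
  intro hd
  apply hq
  rw [← neg_sub (X r : SS B Λ) (X s)]
  exact (neg_dvd).mpr hd

end reg

section main

variable {I E B Λ : Type*} [Fintype E] [DecidableEq I] [Fintype B] [DecidableEq B] [CommRing Λ]
  [IsDomain Λ]
variable (Q : QD I E B Λ)

omit [Fintype E] [DecidableEq I] [Fintype B] in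
/-- under (H) no weight dies under `x_r ↦ x_s` -/
lemma sub_xi_ne_zero (hQ : Q.NonzeroLoops) {r s : B} (hv : Q.vx r = Q.vx s)
    (p : E × B × Option B) (hp : Q.vx p.2.1 = Q.src p.1 ∧ Q.vo p.2.2 = Q.tgt p.1) :
    sub r s (Q.xi p) ≠ 0 := by
  obtain ⟨a, c, o⟩ := p
  simp only at hp
  cases o with
  | none =>
    simp only [QD.xi, xo, Option.elim_none, zero_sub, map_add, map_neg, sub, rename_X, rename_C]
    intro h
    have h1 := congrArg (MvPolynomial.eval (fun _ => Q.t a + 1)) h
    simp at h1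
  | some d =>
    simp only [QD.xi, xo, Option.elim_some, map_add, map_sub, sub, rename_X, rename_C]
    by_cases hcd : (if d = r then s else d) = (if c = r then s else c)
    · rw [hcd, sub_self, zero_add]
      have hvd : Q.vx (if d = r then s else d) = Q.vx d := by
        split_ifs with h
        · rw [h, hv]
        · rfl
      have hvc : Q.vx (if c = r then s else c) = Q.vx c := by
        split_ifs with h
        · rw [h, hv]
        · rfl
      have h2 : Q.tgt a = some (Q.src a) := by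
        rw [← hp.2, ← hp.1, ← hvc, ← hcd, hvd]
        rfl
      intro h
      exact hQ a h2 (by simpa using h)
    · intro h
      have h1 := congrArg (MvPolynomial.eval
        (fun b => if b = (if d = r then s else d) then 1 - Q.t a else 0)) h
      simp only [map_add, map_sub, eval_X, eval_C, if_pos, map_zero] at h1
      rw [if_neg (Ne.symm hcd)] at h1
      simp at h1

lemma sub_rho_ne_zero (hQ : Q.NonzeroLoops) {r s : B} (hv : Q.vx r = Q.vx s) (lam : B → ℤ) :
    sub r s (Q.rho lam) ≠ 0 := by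
  unfold QD.rho
  rw [map_prod]
  refine Finset.prod_ne_zero_iff.mpr fun p hp => ?_
  rw [map_pow]
  exact pow_ne_zero _ (sub_xi_ne_zero Q hQ hv p (by simpa [QD.Wt] using hp))

lemma rho_ne_zero (hQ : Q.NonzeroLoops) (lam : B → ℤ) : Q.rho lam ≠ 0 := by
  unfold QD.rho
  refine Finset.prod_ne_zero_iff.mpr fun p hp => pow_ne_zero _ ?_
  have := sub_xi_ne_zero Q hQ (r := p.2.1) (s := p.2.1) rfl p (by simpa [QD.Wt] using hp)
  intro h
  rw [h, map_zero] at this
  exact this rfl

omit [Fintype E] [IsDomain Λ] in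
lemma den_factor {r s : B} (hv : Q.vx r = Q.vx s) (lam : B → ℤ) :
    ∃ o : SS B Λ, Q.den lam = (X r - X s) ^ (lam r - lam s).toNat * o := by
  unfold QD.den
  have hmem : (r, s) ∈ Q.Prs := by simp [QD.Prs, hv]
  exact ⟨_, (Finset.mul_prod_erase Q.Prs
    (fun p => (X p.1 - X p.2 : SS B Λ) ^ (lam p.1 - lam p.2).toNat) hmem).symm⟩

/-- the binomial identity behind Lagrange interpolation at the end of a string -/
lemma binom_id (a c : ℤ) (L : ℕ) :
    ∑ k ∈ Finset.range (L + 1), Ring.choose c k * Ring.choose (-a - 1) (L - k)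
      = Ring.choose (c - a - 1) L := by
  have := Ring.add_choose_eq (R := ℤ) L (Commute.all c (-a - 1))
  rw [show c - a - 1 = c + (-a - 1) by ring, this]
  rw [Finset.Nat.sum_antidiagonal_eq_sum_range_succ
    (fun i j => Ring.choose c i * Ring.choose (-a - 1) j)]

lemma choose_neg_one (L : ℕ) : Ring.choose (-1 : ℤ) L = (-1) ^ L := by
  rw [Ring.choose_neg]
  have : (1 : ℤ) + L - 1 = ((L : ℕ) : ℤ) := by ring
  rw [this, Ring.choose_natCast]
  simp [Int.negOnePow_def, Units.smul_def]

/-- in the string through `lam`, only `lam` survives -/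
lemma string_choose {lam mu : B → ℤ} {r s : B} (hrs : r ≠ s) (hle : lam s ≤ lam r)
    (h1 : ∀ b, b ≠ r → b ≠ s → mu b = lam b) (h2 : mu r + mu s = lam r + lam s)
    (hn : nrm mu ≤ nrm lam) (hne : mu ≠ lam) :
    Ring.choose (mu s - lam s - 1) (lam r - lam s).toNat = 0 := by
  have hsum : ∀ nu : B → ℤ, nrm nu = nu r ^ 2 + nu s ^ 2 +
      ∑ b ∈ (Finset.univ.erase r).erase s, nu b ^ 2 := by
    intro nu
    unfold nrm
    rw [← Finset.add_sum_erase Finset.univ _ (Finset.mem_univ r),
      ← Finset.add_sum_erase (Finset.univ.erase r) _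
        (Finset.mem_erase.mpr ⟨hrs.symm, Finset.mem_univ s⟩)]
    ring
  have hrest : ∑ b ∈ (Finset.univ.erase r).erase s, mu b ^ 2
      = ∑ b ∈ (Finset.univ.erase r).erase s, lam b ^ 2 := by
    refine Finset.sum_congr rfl fun b hb => ?_
    simp only [Finset.mem_erase] at hb
    rw [h1 b hb.2.1 hb.1]
  rw [hsum mu, hsum lam, hrest] at hn
  have hs : mu s ≠ lam s := by
    intro h
    apply hne
    funext b
    by_cases hb : b = r
    · subst hb; linarith
    · by_cases hb' : b = s
      · subst hb'; exact h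
      · exact h1 b hb hb'
  have hr : mu r = lam r - (mu s - lam s) := by linarith
  obtain ⟨u, hu⟩ : ∃ u, u = mu s - lam s := ⟨_, rfl⟩
  obtain ⟨L, hL⟩ : ∃ L, L = lam r - lam s := ⟨_, rfl⟩
  have h3 : u * (u - L) ≤ 0 := by
    subst hu hL
    rw [hr] at hn
    nlinarith
  have hu0 : u ≠ 0 := by
    intro h
    apply hs
    linarith
  have hL0 : 0 ≤ L := by linarith
  have hupos : 0 < u := by
    rcases lt_or_gt_of_ne hu0 with h | h
    · exfalso
      have : 0 < u * (u - L) := mul_pos_of_neg_of_neg h (by linarith)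
      linarith
    · exact h
  have huL : u ≤ L := by
    by_contra h
    push Not at h
    have : 0 < u * (u - L) := mul_pos hupos (by linarith)
    linarith
  rw [← hu, ← hL]
  obtain ⟨n, hn'⟩ : ∃ n : ℕ, (n : ℤ) = u - 1 := ⟨(u - 1).toNat, Int.toNat_of_nonneg (by omega)⟩
  rw [← hn', Ring.choose_natCast]
  rw [Nat.choose_eq_zero_of_lt (by omega)]
  simp

/-- the coefficient at the end of a string, times `δ^L`, is regular at `δ` -/
lemma string_reg {z : AA B Λ} (hz : z ∈ Q.A) {lam : B → ℤ}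
    (hmax : ∀ mu, z.coeff mu ≠ 0 → nrm mu ≤ nrm lam) {r s : B} (hrs : r ≠ s)
    (hv : Q.vx r = Q.vx s) (hle : lam s ≤ lam r) :
    RegAt (X r - X s) (toK ((X r - X s) ^ (lam r - lam s).toNat) * z.coeff lam) := by
  set L := (lam r - lam s).toNat with hL
  set T := z.coeff.support.filter (fun mu => (∀ b, b ≠ r → b ≠ s → mu b = lam b) ∧
        mu r + mu s = lam r + lam s) with hT
  have h1 : ∑ mu ∈ T, ((Ring.choose (mu s - lam s - 1) L : ℤ) : KK B Λ) * z.coeff mu
      = (-1) ^ L * z.coeff lam := by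
    by_cases hl : lam ∈ T
    · rw [Finset.sum_eq_single lam]
      · rw [show lam s - lam s - 1 = -1 by ring, choose_neg_one]
        push_cast
        rfl
      · intro mu hmu hne
        rw [hT, Finset.mem_filter, Finsupp.mem_support_iff] at hmu
        rw [string_choose hrs hle hmu.2.1 hmu.2.2 (hmax mu hmu.1) hne, Int.cast_zero, zero_mul]
      · intro h; exact absurd hl h
    · have hl0 : z.coeff lam = 0 := by
        by_contra h
        exact hl (by rw [hT, Finset.mem_filter, Finsupp.mem_support_iff]; exact ⟨h, by simp⟩)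
      rw [hl0, mul_zero]
      refine Finset.sum_eq_zero fun mu hmu => ?_
      have hne : mu ≠ lam := by rintro rfl; exact hl hmu
      rw [hT, Finset.mem_filter, Finsupp.mem_support_iff] at hmu
      rw [string_choose hrs hle hmu.2.1 hmu.2.2 (hmax mu hmu.1) hne, Int.cast_zero, zero_mul]
  have h2 : toK ((X r - X s) ^ L) * z.coeff lam = ∑ k ∈ Finset.range (L + 1),
      toK (C (((-1) ^ L * Ring.choose (-lam s - 1) (L - k) : ℤ) : Λ) * (X r - X s) ^ (L - k)) *
      (toK ((X r - X s) ^ k) * ∑ mu ∈ T, ((Ring.choose (mu s) k : ℤ) : KK B Λ) * z.coeff mu) := by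
    have h3 : z.coeff lam = (-1) ^ L * ∑ mu ∈ T,
        ((Ring.choose (mu s - lam s - 1) L : ℤ) : KK B Λ) * z.coeff mu := by
      rw [h1, ← mul_assoc, ← mul_pow]
      simp
    conv_lhs => rw [h3]
    simp_rw [← binom_id, Int.cast_sum, Finset.sum_mul]
    rw [Finset.sum_comm, Finset.mul_sum, Finset.mul_sum]
    refine Finset.sum_congr rfl fun k hk => ?_
    have hk' : k ≤ L := Nat.lt_succ_iff.mp (Finset.mem_range.mp hk)
    rw [Finset.mul_sum, Finset.mul_sum, Finset.mul_sum, Finset.mul_sum]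
    refine Finset.sum_congr rfl fun mu _ => ?_
    have h4 : ((X r - X s : SS B Λ)) ^ L = (X r - X s) ^ (L - k) * (X r - X s) ^ k := by
      rw [← pow_add, Nat.sub_add_cancel hk']
    rw [h4]
    simp only [toK, map_mul, map_intCast, Int.cast_mul, Int.cast_pow, Int.cast_neg, Int.cast_one,
      map_pow, map_neg, map_one]
    ring
  rw [h2]
  refine RegAt.sum _ fun k _ => RegAt.mul (RegAt.poly r s _) ?_
  have h5 := A_reg Q hz hrs hv lam k
  simp only [zsmul_eq_mul] at h5
  exact h5

omit [Fintype E] in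
lemma den_ne_zero (lam : B → ℤ) : Q.den lam ≠ 0 := by
  unfold QD.den
  refine Finset.prod_ne_zero_iff.mpr fun p _ => ?_
  by_cases h : p.1 = p.2
  · rw [h]; simp
  · refine pow_ne_zero _ (sub_ne_zero.mpr ?_)
    intro h'
    exact h (X_injective h')

/-- the leading coefficient divided by `e(lam)` is regular at every root -/
lemma lead_reg (hQ : Q.NonzeroLoops) {z : AA B Λ} (hz : z ∈ Q.A) {lam : B → ℤ}
    (hmax : ∀ mu, z.coeff mu ≠ 0 → nrm mu ≤ nrm lam) {r s : B} (hrs : r ≠ s)
    (hv : Q.vx r = Q.vx s) (hle : lam s ≤ lam r) {f : KK B Λ}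
    (hf : f * toK (Q.rho lam) = z.coeff lam * toK (Q.den lam)) :
    RegAt (X r - X s) f := by
  obtain ⟨o, ho⟩ := den_factor Q hv lam
  obtain ⟨p, q, hq, h⟩ := RegAt.mul (string_reg Q hz hmax hrs hv hle) (RegAt.poly r s o)
  refine ⟨p, Q.rho lam * q, not_dvd_mul r s ?_ hq, ?_⟩
  · rw [dvd_iff]
    exact sub_rho_ne_zero Q hQ hv lam
  · rw [← h]
    have : f * toK (Q.rho lam * q) = (f * toK (Q.rho lam)) * toK q := by
      simp only [toK, map_mul]; ring
    rw [this, hf, ho]
    simp only [toK, map_mul]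
    ring

end main

end LCBlk

variable {I E B Λ : Type*} [Fintype E] [DecidableEq I] [Fintype B] [DecidableEq B] [CommRing Λ]
  [IsDomain Λ]
variable (Q : QD I E B Λ)

theorem LC (hQ : Q.NonzeroLoops) {z : AA B Λ} (hz : z ∈ Q.A) {lam : B → ℤ}
    (_hlam : z.coeff lam ≠ 0) (hmax : ∀ mu, z.coeff mu ≠ 0 → nrm mu ≤ nrm lam) :
    ∃ h : SS B Λ, z.coeff lam = toK h * Q.e lam ∧ Q.InvL lam h := by
  classical
  have hrho : toK (Q.rho lam) ≠ 0 := by
    intro h
    apply LCBlk.rho_ne_zero Q hQ lam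
    apply IsFractionRing.injective (SS B Λ) (KK B Λ)
    rw [map_zero]; exact h
  have hden : toK (Q.den lam) ≠ 0 := by
    intro h
    apply LCBlk.den_ne_zero Q lam
    apply IsFractionRing.injective (SS B Λ) (KK B Λ)
    rw [map_zero]; exact h
  obtain ⟨f, hf⟩ : ∃ f, f = z.coeff lam * toK (Q.den lam) / toK (Q.rho lam) := ⟨_, rfl⟩
  have hf' : f * toK (Q.rho lam) = z.coeff lam * toK (Q.den lam) := by
    rw [hf, div_mul_cancel₀ _ hrho]
  obtain ⟨N, s, hs⟩ := A_coeff_dvd Q hz lam
  have h1 : f * toK (Q.D ^ N) = toK (Q.den lam * s) := by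
    have : (f * toK (Q.D ^ N)) * toK (Q.rho lam) = toK (Q.den lam * s) * toK (Q.rho lam) := by
      have e1 : (f * toK (Q.D ^ N)) * toK (Q.rho lam)
          = (f * toK (Q.rho lam)) * toK (Q.D ^ N) := by ring
      rw [e1, hf']
      have e2 : z.coeff lam * toK (Q.den lam) * toK (Q.D ^ N)
          = toK (Q.den lam) * (z.coeff lam * toK (Q.D ^ N)) := by ring
      rw [e2, hs]
      simp only [toK, map_mul]; ring
    exact mul_right_cancel₀ hrho this
  have hreg : ∀ r s : B, r ≠ s → Q.vx r = Q.vx s → RegAt (X r - X s) f := by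
    intro r s hrs hv
    rcases le_total (lam s) (lam r) with hle | hle
    · exact LCBlk.lead_reg Q hQ hz hmax hrs hv hle hf'
    · exact LCBlk.RegAt.swap (LCBlk.lead_reg Q hQ hz hmax hrs.symm hv.symm hle hf')
  obtain ⟨p, hp⟩ := poly_of_reg Q N _ h1 hreg
  have hzl : z.coeff lam = toK p * Q.e lam := by
    rw [hp] at hf'
    unfold QD.e
    rw [← mul_div_assoc, eq_div_iff hden, hf']
  refine ⟨p, hzl, ?_⟩
  intro σ hσ hfix
  have h2 := A_inv Q hz hσ lam
  rw [hfix, hzl, map_mul, act_toK, e_act Q σ hσ, hfix] at h2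
  have he : Q.e lam ≠ 0 := by
    unfold QD.e
    exact div_ne_zero hrho hden
  exact (IsFractionRing.injective (SS B Λ) (KK B Λ) (mul_right_cancel₀ he h2)).symm

end Vale.Agent.P291
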