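import Vale.Agent.P291.QBlk
import Vale.Agent.P291.XBlk
import Vale.Agent.P291.LCBlk
import Vale.Agent.P291.H125.SpLift

/-!
# Block Sp2: `J_C` lifts along a surjective specialisation of the flavour parameters
-/

open MvPolynomial

set_option linter.unusedSectionVars false

namespace Vale.Agent.P291

variable {I E B Λ : Type*} [Fintype E] [DecidableEq I] [Fintype B] [DecidableEq B] [CommRing Λ]
  [IsDomain Λ]
variable (Q : QD I E B Λ)
variable {Λ' : Type*} [CommRing Λ'] [IsDomain Λ']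

namespace H125

theorem II_le_A (Q : QD I E B Λ) {z : AA B Λ} (hz : z ∈ Q.II) : z ∈ Q.A := by
  refine Submodule.span_induction (p := fun x _ => x ∈ Q.A) ?_ ?_ ?_ ?_ hz
  · rintro x ⟨F, hF, _, _, rfl⟩
    exact Algebra.subset_adjoin ⟨F, hF, rfl⟩
  · exact Q.A.zero_mem
  · intro x y _ _ hx hy
    exact Q.A.add_mem hx hy
  · rintro c x _ hx
    exact Q.A.mul_mem c.2 hx

theorem nrm_nonneg (lam : B → ℤ) : 0 ≤ nrm lam := Finset.sum_nonneg fun _ _ => sq_nonneg _

theorem nrm_eq_zero (lam : B → ℤ) : (nrm lam).toNat = 0 ↔ lam = 0 := by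
  constructor
  · intro h
    have h1 : nrm lam = 0 := le_antisymm (Int.toNat_eq_zero.1 h) (nrm_nonneg lam)
    funext b
    have h2 := (Finset.sum_eq_zero_iff_of_nonneg (fun b _ => sq_nonneg (lam b))).1 h1 b
      (Finset.mem_univ b)
    exact pow_eq_zero_iff (two_ne_zero) |>.1 h2
  · rintro rfl
    simp [nrm]

/-- stabiliser of a cocharacter in the Weyl group -/
def Stab (Q : QD I E B Λ) (lam : B → ℤ) : Subgroup (Equiv.Perm B) where
  carrier := {σ | σ ∈ Q.W ∧ ∀ b, lam (σ b) = lam b}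
  mul_mem' := fun {a b} ha hb =>
    ⟨Q.W.mul_mem ha.1 hb.1, fun c => by rw [Equiv.Perm.mul_apply, ha.2, hb.2]⟩
  one_mem' := ⟨Q.W.one_mem, fun _ => rfl⟩
  inv_mem' := fun {a} ha => ⟨Q.W.inv_mem ha.1, fun b => by
    have := ha.2 (a⁻¹ b)
    simpa using this.symm⟩

theorem mem_Stab (Q : QD I E B Λ) (lam : B → ℤ) (σ : Equiv.Perm B) :
    σ ∈ Stab Q lam ↔ σ ∈ Q.W ∧ lact σ lam = lam := by
  constructor
  · intro h
    refine ⟨h.1, ?_⟩
    funext b
    have := h.2 (σ⁻¹ b)
    show lam (σ⁻¹ b) = lam b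
    simpa using this.symm
  · intro h
    refine ⟨h.1, fun b => ?_⟩
    have := congrFun h.2 (σ b)
    have h2 : lam (σ⁻¹ (σ b)) = lam (σ b) := this
    simpa using h2.symm

theorem cst_mul_coeff (c : SS B Λ) (z : AA B Λ) (mu : B → ℤ) :
    (QD.cst c * z).coeff mu = toK c * z.coeff mu := by
  unfold QD.cst
  rw [AddMonoidAlgebra.coeff_single_zero_mul]

theorem toK_sum {ι : Type*} (s : Finset ι) (g : ι → SS B Λ) :
    toK (∑ i ∈ s, g i) = ∑ i ∈ s, toK (g i) := map_sum _ _ _

theorem toK_mul (f g : SS B Λ) : toK (f * g) = toK f * toK g := map_mul _ _ _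

end H125

open H125 in
/-- lifting -/
theorem JC_lift [Algebra ℚ Λ] [Algebra ℚ Λ'] (Q' : QD I E B Λ') (hQ' : Q'.NonzeroLoops)
    (φ : Λ' →+* Λ) (hφ : Function.Surjective φ)
    (h : Q.src = Q'.src ∧ Q.tgt = Q'.tgt ∧ Q.vx = Q'.vx ∧ ∀ a, Q.t a = φ (Q'.t a))
    {f : SS B Λ} (hf : f ∈ Q.JC) : ∃ f' ∈ Q'.JC, MvPolynomial.map φ f' = f := by
  classical
  have hR : Rel Q Q' φ := h
  obtain ⟨z0, hz0, hz0'⟩ := II_sub_lift hR hφ hf.2
  obtain ⟨z, ⟨hz, hz'⟩, hzs⟩ := descend (K := KK B Λ') (fun lam : B → ℤ => (nrm lam).toNat)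
    nrm_eq_zero (fun z => z ∈ Q'.II ∧ (z, QD.cst f) ∈ SpA Q' φ) (by
      rintro z ⟨hz, hz'⟩ lam hlam hne hmax
      have hlam' : z.coeff lam ≠ 0 := Finsupp.mem_support_iff.1 hlam
      have hmax' : ∀ mu, z.coeff mu ≠ 0 → nrm mu ≤ nrm lam := by
        intro mu hmu
        have := hmax mu (Finsupp.mem_support_iff.2 hmu)
        have h1 := nrm_nonneg mu
        have h2 := nrm_nonneg lam
        omega
      obtain ⟨p, hp1, hp2⟩ := LC Q' hQ' (II_le_A Q' hz) hlam' hmax'
      -- the specialisation of `p` vanishes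
      have hp0 : MvPolynomial.map φ p = 0 := by
        have h1 := mem_GrA.1 hz' lam
        have h2 : (QD.cst f : AA B Λ).coeff lam = 0 := by
          unfold QD.cst
          rw [AddMonoidAlgebra.coeff_single, Finsupp.single_eq_of_ne hne]
        simp only at h1
        rw [h2, hp1] at h1
        have h3 := (Sp Q' φ).mul_mem (toK_mem Q' φ p) (hR.e_mem lam)
        rw [Prod.mk_mul_mk] at h3
        have h4 := (Sp Q' φ).sub_mem h3 h1
        rw [Prod.mk_sub_mk, sub_self, sub_zero] at h4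
        have h5 := Sp_fun hR h4
        have h6 := (mul_eq_zero.1 h5).resolve_right (e_ne_zero Q lam)
        by_contra h7
        exact toK_ne_zero h7 h6
      obtain ⟨a, q, ha, hq, hpq⟩ := ker_avg φ (Stab Q' lam) p
        (fun w hw => hp2 w ((mem_Stab Q' lam w).1 hw).1 ((mem_Stab Q' lam w).1 hw).2) hp0
      have hex : ∀ m, ∃ τ ∈ Q'.Dec (len lam), Q'.SuppOn (lv lam) τ ∧ τ (lv lam) = q m :=
        fun m => exists_MT Q' hQ' (q m)
          (fun σ hσ hσ' => hq m σ ((mem_Stab Q' lam σ).2 ⟨hσ, hσ'⟩))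
      choose τ hτ1 hτ2 hτ3 using hex
      let y : AA B Λ' := ∑ m ∈ p.support, QD.cst (C (a m)) * Q'.MT (len lam) (τ m)
      have hyII : y ∈ Q'.II := by
        apply Submodule.sum_mem
        intro m _
        have hmem : (QD.cst (C (a m)) : AA B Λ') ∈ Q'.A := by
          rw [← algebraMap_eq_cst]; exact Q'.A.algebraMap_mem _
        exact Submodule.smul_mem Q'.II (⟨_, hmem⟩ : Q'.A)
          ((MT_lead Q' hQ' (hτ1 m) (hτ2 m)).2.2 hne)
      have hyc : ∀ mu, y.coeff mu = ∑ m ∈ p.support,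
          toK (C (a m)) * (Q'.MT (len lam) (τ m)).coeff mu := by
        intro mu
        rw [AddMonoidAlgebra.coeff_sum, Finsupp.finsetSum_apply]
        exact Finset.sum_congr rfl (fun m _ => cst_mul_coeff _ _ _)
      have hylam : y.coeff lam = z.coeff lam := by
        rw [hyc, hp1]
        conv_rhs => rw [hpq]
        rw [toK_sum, Finset.sum_mul]
        refine Finset.sum_congr rfl (fun m _ => ?_)
        rw [(MT_lead Q' hQ' (hτ1 m) (hτ2 m)).1, hτ3 m, toK_mul, mul_assoc]
      have hyS : (y, (0 : AA B Λ)) ∈ SpA Q' φ := by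
        have h1 : ∀ m, (QD.cst (C (a m)) * Q'.MT (len lam) (τ m), (0 : AA B Λ)) ∈ SpA Q' φ := by
          intro m
          obtain ⟨w, _, hw⟩ := II_sub_map hR ((MT_lead Q' hQ' (hτ1 m) (hτ2 m)).2.2 hne)
          have h2 := SpA_mul (cst_mem_SpA Q' φ (C (a m))) hw
          rw [map_C, ha m, C_0] at h2
          have h3 : (QD.cst (0 : SS B Λ) : AA B Λ) = 0 := by
            unfold QD.cst toK
            rw [map_zero, AddMonoidAlgebra.single_zero]
          rw [h3, zero_mul] at h2
          exact h2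
        have h2 : (∑ m ∈ p.support, (QD.cst (C (a m)) * Q'.MT (len lam) (τ m), (0 : AA B Λ))) ∈
            SpA Q' φ := Subring.sum_mem _ (fun m _ => h1 m)
        have h3 : (∑ m ∈ p.support, (QD.cst (C (a m)) * Q'.MT (len lam) (τ m), (0 : AA B Λ))) =
            (y, (0 : AA B Λ)) := by
          apply Prod.ext
          · rw [Prod.fst_sum]
          · rw [Prod.snd_sum]; simp
        rw [h3] at h2; exact h2
      have hzy : (z - y).coeff lam = 0 := by
        rw [AddMonoidAlgebra.coeff_sub, Finsupp.sub_apply, hylam, sub_self]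
      have hzyII : z - y ∈ Q'.II :=
        Submodule.sub_mem (R := Q'.A) (M := AA B Λ') Q'.II hz hyII
      refine ⟨z - y, ⟨hzyII, ?_⟩, hzy, ?_⟩
      · have := SpA_sub hz' hyS
        rwa [sub_zero] at this
      · intro mu hmu hzmu
        by_contra hne'
        have h1 : y.coeff mu ≠ 0 := by
          intro h2
          apply hne'
          rw [AddMonoidAlgebra.coeff_sub, Finsupp.sub_apply, hzmu, h2, sub_zero]
        rw [hyc] at h1
        obtain ⟨m, _, hm⟩ := Finset.exists_ne_zero_of_sum_ne_zero h1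
        have hm' : (Q'.MT (len lam) (τ m)).coeff mu ≠ 0 := right_ne_zero_of_mul hm
        obtain ⟨h3, h4⟩ := (MT_lead Q' hQ' (hτ1 m) (hτ2 m)).2.1 mu hm'
        have h5 : nrm mu = nrm lam := by
          have := nrm_nonneg mu
          have := nrm_nonneg lam
          omega
        obtain ⟨σ, hσ, rfl⟩ := h4 h5
        have h6 := A_inv Q' (II_le_A Q' hzyII) hσ lam
        rw [hzy, map_zero] at h6
        exact hne' h6) z0 ⟨hz0, hz0'⟩
  by_cases h0 : z.coeff 0 = 0
  · have hz00 : z = 0 := by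
      ext lam
      by_cases hl : lam = 0
      · rw [hl, h0]; rfl
      · rw [hzs lam hl]; rfl
    subst hz00
    have h1 := SpA_fun hR hz'
    refine ⟨0, ⟨Q'.R.zero_mem, ?_⟩, ?_⟩
    · have : (QD.cst (0 : SS B Λ') : AA B Λ') = 0 := by
        unfold QD.cst toK
        rw [map_zero, AddMonoidAlgebra.single_zero]
      rw [this]; exact Submodule.zero_mem _
    · rw [map_zero]
      by_contra h2
      unfold QD.cst at h1
      rw [AddMonoidAlgebra.single_eq_zero] at h1
      exact toK_ne_zero (Ne.symm h2) h1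
  · have hmax : ∀ mu, z.coeff mu ≠ 0 → nrm mu ≤ nrm (0 : B → ℤ) := by
      intro mu hmu
      by_cases hl : mu = 0
      · rw [hl]
      · exact absurd (hzs mu hl) hmu
    obtain ⟨p, hp1, hp2⟩ := LC Q' hQ' (II_le_A Q' hz) h0 hmax
    rw [e_zero, mul_one] at hp1
    have hzp : z = QD.cst p := by
      ext lam
      unfold QD.cst
      rw [AddMonoidAlgebra.coeff_single]
      by_cases hl : lam = 0
      · rw [hl, Finsupp.single_eq_same, hp1]
      · rw [hzs lam hl, Finsupp.single_eq_of_ne hl]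
    refine ⟨p, ⟨?_, ?_⟩, ?_⟩
    · intro σ hσ
      exact hp2 σ hσ rfl
    · rw [← hzp]; exact hz
    · rw [hzp] at hz'
      have h1 := SpA_uniq hR (cst_mem_SpA Q' φ p) hz'
      unfold QD.cst at h1
      rw [AddMonoidAlgebra.single_right_inj] at h1
      exact toK_injective h1

end Vale.Agent.P291
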