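import Vale.Agent.P291.FBlk

/-!
# P291, block I1: straightening of products of two generators
-/

set_option linter.unusedSectionVars false
set_option linter.unusedVariables false

open MvPolynomial

namespace Vale.Agent.P291

namespace I1

variable {I E B Λ : Type*} [Fintype E] [DecidableEq I] [Fintype B] [DecidableEq B] [CommRing Λ]
  [IsDomain Λ]
variable (Q : QD I E B Λ)

/-! ### subsets -/

omit [Fintype B] in
theorem lamV_union_inter (V V' : Finset (Option B)) :
    lamV (V ∪ V') + lamV (V ∩ V') = lamV V + lamV V' := by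
  funext b
  simp only [Pi.add_apply, lamV, Finset.mem_union, Finset.mem_inter]
  by_cases h1 : some b ∈ V <;> by_cases h2 : some b ∈ V' <;>
    by_cases h3 : (none : Option B) ∈ V <;> by_cases h4 : (none : Option B) ∈ V' <;>
    simp [h1, h2, h3, h4]

theorem dm_union_inter (V V' : Finset (Option B)) :
    Q.dm (V ∪ V') + Q.dm (V ∩ V') = Q.dm V + Q.dm V' := by
  funext i
  simp only [Pi.add_apply, QD.dm]
  rw [Finset.filter_union, Finset.filter_inter_distrib]
  exact Finset.card_union_add_card_inter _ _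

theorem dm_vact {σ : Equiv.Perm B} (hσ : σ ∈ Q.W) (V : Finset (Option B)) :
    Q.dm (vact σ V) = Q.dm V := by
  funext i
  simp only [QD.dm, vact]
  rw [Finset.filter_map, Finset.card_map]
  congr 1
  apply Finset.filter_congr
  intro o _
  cases o with
  | none => simp [QD.vo]
  | some b =>
    have := hσ b
    simp [QD.vo, this]

theorem dm_orb {V V' : Finset (Option B)} (h : Q.orb V V') : Q.dm V' = Q.dm V := by
  obtain ⟨σ, hσ, rfl⟩ := h
  exact dm_vact Q hσ V

theorem dm_mono {V V' : Finset (Option B)} (h : V ⊆ V') : Q.dm V ≤ Q.dm V' := fun _ =>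
  Finset.card_le_card (Finset.filter_subset_filter _ h)

theorem eq_of_dm {V V' : Finset (Option B)} (h : V ⊆ V') (hd : Q.dm V = Q.dm V') : V = V' := by
  refine Finset.Subset.antisymm h fun o ho => ?_
  have h1 : V.filter (fun o' => Q.vo o' = Q.vo o) = V'.filter (fun o' => Q.vo o' = Q.vo o) :=
    Finset.eq_of_subset_of_card_le (Finset.filter_subset_filter _ h) (congrFun hd (Q.vo o)).ge
  have h2 : o ∈ V'.filter (fun o' => Q.vo o' = Q.vo o) := Finset.mem_filter.2 ⟨ho, rfl⟩
  rw [← h1] at h2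
  exact (Finset.mem_filter.1 h2).1

theorem ext_lamV_add (V V' : Finset (Option B)) (o : Option B) :
    ext (lamV V + lamV V') o = ((if o ∈ V then 1 else 0) + (if o ∈ V' then 1 else 0)) -
      ((if none ∈ V then 1 else 0) + (if none ∈ V' then 1 else 0)) := by
  cases o with
  | none => simp [ext]
  | some b => simp only [ext, lamV, Option.elim, Pi.add_apply]; ring

theorem lo_eq {lam : B → ℤ} {m : ℤ} (h : ∀ o, m ≤ ext lam o) (h' : ∃ o, ext lam o = m) :
    lo lam = m := by
  obtain ⟨o, ho⟩ := h'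
  refine le_antisymm ?_ ?_
  · rw [← ho]; exact Finset.inf'_le _ (Finset.mem_univ o)
  · exact Finset.le_inf' _ _ fun o _ => h o

theorem hi_eq {lam : B → ℤ} {m : ℤ} (h : ∀ o, ext lam o ≤ m) (h' : ∃ o, ext lam o = m) :
    hi lam = m := by
  obtain ⟨o, ho⟩ := h'
  refine le_antisymm ?_ ?_
  · exact Finset.sup'_le _ _ fun o _ => h o
  · rw [← ho]; exact Finset.le_sup' (f := ext lam) (Finset.mem_univ o)

theorem len_zero' {lam : B → ℤ} (h : lam = 0) : len lam = 0 := by
  subst h
  have h1 : ∀ o, ext (0 : B → ℤ) o = 0 := by intro o; cases o <;> rfl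
  rw [len, lo_eq (m := 0) (fun o => (h1 o).ge) ⟨none, h1 _⟩,
    hi_eq (m := 0) (fun o => (h1 o).le) ⟨none, h1 _⟩]
  rfl

/-- the four possible shapes of a sum of two nested cocharacters -/
theorem lv_cases {V1 V2 : Finset (Option B)} (hV : V2 ⊆ V1) {lam : B → ℤ}
    (hlam : lam = lamV V1 + lamV V2) :
    (len lam = 2 ∧ (∀ j : Fin (len lam), (j : ℕ) = 0 → lv lam j = V1) ∧
      (∀ j : Fin (len lam), (j : ℕ) = 1 → lv lam j = V2)) ∨
    (V2 = ∅ ∧ len lam = 1 ∧ ∀ j : Fin (len lam), lv lam j = V1) ∨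
    (V1 = Finset.univ ∧ len lam = 1 ∧ ∀ j : Fin (len lam), lv lam j = V2) ∨
    ((V1 = ∅ ∨ V1 = Finset.univ) ∧ (V2 = ∅ ∨ V2 = Finset.univ) ∧ lam = 0) := by
  subst hlam
  set q : ℤ := (if none ∈ V1 then 1 else 0) + (if none ∈ V2 then 1 else 0) with hq
  have hext : ∀ o, ext (lamV V1 + lamV V2) o =
      ((if o ∈ V1 then 1 else 0) + (if o ∈ V2 then 1 else 0)) - q := ext_lamV_add V1 V2
  by_cases hA : V2 ≠ ∅ ∧ V1 ≠ Finset.univ
  · left
    obtain ⟨o2, ho2⟩ := Finset.nonempty_iff_ne_empty.2 hA.1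
    obtain ⟨o0, ho0⟩ : ∃ o, o ∉ V1 := by
      by_contra hcon
      push Not at hcon
      exact hA.2 (Finset.eq_univ_iff_forall.2 hcon)
    have hlo : lo (lamV V1 + lamV V2) = -q := by
      refine lo_eq (fun o => ?_) ⟨o0, ?_⟩
      · rw [hext]; split_ifs <;> linarith
      · rw [hext, if_neg ho0, if_neg (fun h => ho0 (hV h))]; ring
    have hhi : hi (lamV V1 + lamV V2) = 2 - q := by
      refine hi_eq (fun o => ?_) ⟨o2, ?_⟩
      · rw [hext]; split_ifs <;> linarith
      · rw [hext, if_pos (hV ho2), if_pos ho2]; ring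
    have hlen : len (lamV V1 + lamV V2) = 2 := by
      rw [len, hlo, hhi]
      have : 2 - q - -q = 2 := by ring
      rw [this]; rfl
    refine ⟨hlen, fun j hj => ?_, fun j hj => ?_⟩
    · ext o
      rw [lv, Finset.mem_filter, hlo, hext, hj]
      by_cases h1 : o ∈ V1
      · by_cases h2 : o ∈ V2 <;> simp [h1, h2]
      · have h2 : o ∉ V2 := fun h => h1 (hV h)
        simp [h1, h2]
    · ext o
      rw [lv, Finset.mem_filter, hlo, hext, hj]
      by_cases h2 : o ∈ V2
      · have h1 := hV h2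
        simp [h1, h2]
      · by_cases h1 : o ∈ V1 <;> simp [h1, h2]
  · right
    rw [not_and_or, not_not, not_not] at hA
    rcases hA with h2 | h1
    · by_cases h1 : V1 = ∅
      · right; right
        refine ⟨Or.inl h1, Or.inl h2, ?_⟩
        subst h1 h2
        funext b; simp [lamV]
      · by_cases h1' : V1 = Finset.univ
        · right; right
          refine ⟨Or.inr h1', Or.inl h2, ?_⟩
          rw [h1', h2]
          funext b; simp [lamV]
        · left
          obtain ⟨o1, ho1⟩ := Finset.nonempty_iff_ne_empty.2 h1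
          obtain ⟨o0, ho0⟩ : ∃ o, o ∉ V1 := by
            by_contra hcon
            push Not at hcon
            exact h1' (Finset.eq_univ_iff_forall.2 hcon)
          have h2' : ∀ o, o ∉ V2 := by rw [h2]; intro o; simp
          have hlo : lo (lamV V1 + lamV V2) = -q := by
            refine lo_eq (fun o => ?_) ⟨o0, ?_⟩
            · rw [hext, if_neg (h2' o)]; split_ifs <;> linarith
            · rw [hext, if_neg ho0, if_neg (h2' _)]; ring
          have hhi : hi (lamV V1 + lamV V2) = 1 - q := by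
            refine hi_eq (fun o => ?_) ⟨o1, ?_⟩
            · rw [hext, if_neg (h2' o)]; split_ifs <;> linarith
            · rw [hext, if_pos ho1, if_neg (h2' _)]; ring
          have hlen : len (lamV V1 + lamV V2) = 1 := by
            rw [len, hlo, hhi]
            have : 1 - q - -q = 1 := by ring
            rw [this]; rfl
          refine ⟨h2, hlen, fun j => ?_⟩
          have hj : (j : ℕ) = 0 := by have := j.2; omega
          ext o
          rw [lv, Finset.mem_filter, hlo, hext, hj, if_neg (h2' o)]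
          by_cases h1 : o ∈ V1 <;> simp [h1]
    · by_cases h2 : V2 = ∅
      · right; right
        refine ⟨Or.inr h1, Or.inl h2, ?_⟩
        rw [h1, h2]
        funext b; simp [lamV]
      · by_cases h2' : V2 = Finset.univ
        · right; right
          refine ⟨Or.inr h1, Or.inr h2', ?_⟩
          rw [h1, h2']
          funext b; simp [lamV]
        · right; left
          obtain ⟨o2, ho2⟩ := Finset.nonempty_iff_ne_empty.2 h2
          obtain ⟨o0, ho0⟩ : ∃ o, o ∉ V2 := by
            by_contra hcon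
            push Not at hcon
            exact h2' (Finset.eq_univ_iff_forall.2 hcon)
          have h1' : ∀ o, o ∈ V1 := by rw [h1]; intro o; simp
          have hlo : lo (lamV V1 + lamV V2) = 1 - q := by
            refine lo_eq (fun o => ?_) ⟨o0, ?_⟩
            · rw [hext, if_pos (h1' o)]; split_ifs <;> linarith
            · rw [hext, if_neg ho0, if_pos (h1' _)]; ring
          have hhi : hi (lamV V1 + lamV V2) = 2 - q := by
            refine hi_eq (fun o => ?_) ⟨o2, ?_⟩
            · rw [hext, if_pos (h1' o)]; split_ifs <;> linarith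
            · rw [hext, if_pos ho2, if_pos (h1' _)]; ring
          have hlen : len (lamV V1 + lamV V2) = 1 := by
            rw [len, hlo, hhi]
            have : 2 - q - (1 - q) = 1 := by ring
            rw [this]; rfl
          refine ⟨h1, hlen, fun j => ?_⟩
          have hj : (j : ℕ) = 0 := by have := j.2; omega
          ext o
          rw [lv, Finset.mem_filter, hlo, hext, hj, if_pos (h1' o)]
          by_cases h2 : o ∈ V2
          · simp [h2]
          · simp [h2]

/-! ### dressings with given dimension vector -/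

open Classical in
/-- indicator of the subsets with dimension vector `d` -/
noncomputable def chi (d : Option I → ℕ) : Finset (Option B) → SS B Λ :=
  fun V => if Q.dm V = d then 1 else 0

theorem chi_mem (d : Option I → ℕ) : chi Q d ∈ Q.Eqv := by
  intro σ hσ V
  by_cases h : Q.dm V = d
  · have h' : Q.dm (vact σ V) = d := by rw [dm_vact Q hσ, h]
    simp [chi, h, h']
  · have h' : ¬ Q.dm (vact σ V) = d := by rw [dm_vact Q hσ]; exact h
    simp [chi, h, h']

theorem chi_mul_mem (d : Option I → ℕ) {F : Finset (Option B) → SS B Λ} (hF : F ∈ Q.Eqv) :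
    chi Q d * F ∈ Q.EqvD d := by
  refine ⟨mul_mem (chi_mem Q d) hF, fun V hV => ?_⟩
  by_contra h
  exact hV (by simp [chi, h])

theorem cR_mem {r : SS B Λ} (hr : r ∈ Q.R) : (fun _ : Finset (Option B) => r) ∈ Q.Eqv :=
  fun σ hσ _ => (hr σ hσ).symm

theorem MT_zero (k : ℕ) : Q.MT k (0 : (Fin k → Finset (Option B)) → SS B Λ) = 0 := by
  simp [QD.MT]

theorem MT_add (k : ℕ) (τ τ' : (Fin k → Finset (Option B)) → SS B Λ) :
    Q.MT k (τ + τ') = Q.MT k τ + Q.MT k τ' := by
  simp only [QD.MT, Pi.add_apply, map_add, add_mul, AddMonoidAlgebra.single_add,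
    Finset.sum_add_distrib]

theorem MT_smul (k : ℕ) (c : Λ) (τ : (Fin k → Finset (Option B)) → SS B Λ) :
    Q.MT k (c • τ) = c • Q.MT k τ := by
  simp only [QD.MT, Pi.smul_apply, Finset.smul_sum, AddMonoidAlgebra.smul_single]
  refine Finset.sum_congr rfl fun V _ => ?_
  congr 1
  rw [toK, toK, Algebra.smul_def, Algebra.smul_def, map_mul, mul_assoc,
    ← IsScalarTower.algebraMap_apply]

/-- The sum over tuples of a decomposable dressing, cut down to given dimension vectors. -/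
theorem MT_chi_mem {k : ℕ} (hk : 0 < k) (d : Fin k → Option I → ℕ)
    {τ : (Fin k → Finset (Option B)) → SS B Λ} (hτ : τ ∈ Q.Dec k) :
    Q.MT k (fun V => (∏ j, chi Q (d j) (V j)) * τ V) ∈ Q.PT d := by
  induction hτ using Submodule.span_induction with
  | mem x hx =>
    obtain ⟨r, hr, F, hF, rfl⟩ := hx
    obtain ⟨k, rfl⟩ := Nat.exists_eq_succ_of_ne_zero hk.ne'
    let F' : Fin (k + 1) → Finset (Option B) → SS B Λ :=
      Fin.cons (fun V => r * F 0 V) (fun j => F j.succ)
    have hF' : ∀ j, F' j ∈ Q.Eqv := by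
      intro j
      refine Fin.cases ?_ (fun j => ?_) j
      · exact mul_mem (cR_mem Q hr) (hF 0)
      · exact hF j.succ
    have h1 : (fun V : Fin (k + 1) → Finset (Option B) =>
        (∏ j, chi Q (d j) (V j)) * (r * ∏ j, F j (V j))) =
        fun V => 1 * ∏ j, (chi Q (d j) * F' j) (V j) := by
      funext V
      simp only [Pi.mul_apply, Finset.prod_mul_distrib, one_mul]
      congr 1
      rw [Fin.prod_univ_succ, Fin.prod_univ_succ]
      simp only [F', Fin.cons_zero, Fin.cons_succ]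
      ring
    rw [h1, MT_pure]
    refine Submodule.subset_span ⟨fun j => chi Q (d j) * F' j, fun j => chi_mul_mem Q _ (hF' j), ?_⟩
    have h2 : (QD.cst 1 : AA B Λ) = 1 := by
      rw [QD.cst, toK, map_one, AddMonoidAlgebra.one_def]
    rw [h2, one_mul]
  | zero =>
    have : (fun V : Fin k → Finset (Option B) => (∏ j, chi Q (d j) (V j)) *
        (0 : (Fin k → Finset (Option B)) → SS B Λ) V) = 0 := by
      funext V; simp
    rw [this, MT_zero]; exact zero_mem _
  | add x y _ _ hx hy =>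
    have : (fun V : Fin k → Finset (Option B) => (∏ j, chi Q (d j) (V j)) * (x + y) V) =
        (fun V => (∏ j, chi Q (d j) (V j)) * x V) + fun V => (∏ j, chi Q (d j) (V j)) * y V := by
      funext V; simp [mul_add]
    rw [this, MT_add]; exact add_mem hx hy
  | smul c x _ hx =>
    have : (fun V : Fin k → Finset (Option B) => (∏ j, chi Q (d j) (V j)) * (c • x) V) =
        c • fun V => (∏ j, chi Q (d j) (V j)) * x V := by
      funext V; simp
    rw [this, MT_smul]; exact Submodule.smul_mem _ _ hx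

/-- sums over tuples with prescribed orbits are spans of products with prescribed dimensions -/
theorem MT_mem_PT {k : ℕ} (hk : 0 < k) (U : Fin k → Finset (Option B))
    {τ : (Fin k → Finset (Option B)) → SS B Λ} (hτ : τ ∈ Q.Dec k) (hs : Q.SuppOn U τ) :
    Q.MT k τ ∈ Q.PT (fun j => Q.dm (U j)) := by
  have h : τ = fun V => (∏ j, chi Q (Q.dm (U j)) (V j)) * τ V := by
    funext V
    by_cases h0 : τ V = 0
    · simp [h0]
    · have : ∏ j, chi Q (Q.dm (U j)) (V j) = (1 : SS B Λ) :=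
        Finset.prod_eq_one fun j _ => by
          rw [chi, if_pos (dm_orb Q (hs V h0 j))]
      rw [this, one_mul]
  rw [h]
  exact MT_chi_mem Q hk _ hτ

/-! ### trivial factors -/

theorem lamV_empty : lamV (∅ : Finset (Option B)) = 0 := by
  funext b; simp [lamV]

theorem lamV_univ : lamV (Finset.univ : Finset (Option B)) = 0 := by
  funext b; simp [lamV]

theorem M_chi_triv {V0 : Finset (Option B)} (hV0 : V0 = ∅ ∨ V0 = Finset.univ) :
    Q.M (chi Q (Q.dm V0)) = 1 := by
  have h1 : ∀ V, Q.dm V = Q.dm V0 → V = V0 := by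
    intro V hV
    rcases hV0 with rfl | rfl
    · exact (eq_of_dm Q (Finset.empty_subset V) hV.symm).symm
    · exact eq_of_dm Q (Finset.subset_univ V) hV
  have h2 : lamV V0 = 0 := by
    rcases hV0 with rfl | rfl
    · exact lamV_empty
    · exact lamV_univ
  rw [QD.M, Finset.sum_eq_single V0]
  · rw [chi, if_pos rfl, h2, e_zero, toK, map_one, mul_one, AddMonoidAlgebra.one_def]
  · intro V _ hV
    rw [chi, if_neg (fun h => hV (h1 V h)), toK, map_zero, zero_mul, AddMonoidAlgebra.single_zero]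
  · intro h; exact absurd (Finset.mem_univ _) h

theorem chi_memD (d : Option I → ℕ) : chi Q d ∈ (Q.EqvD d : Set (Finset (Option B) → SS B Λ)) := by
  have := chi_mul_mem Q d (F := 1) (one_mem Q.Eqv)
  rwa [mul_one] at this

theorem cst_mul_M (r : SS B Λ) (F : Finset (Option B) → SS B Λ) :
    QD.cst r * Q.M F = Q.M (fun V => r * F V) := by
  rw [QD.cst, QD.M, QD.M, Finset.mul_sum]
  refine Finset.sum_congr rfl fun V _ => ?_
  rw [AddMonoidAlgebra.single_mul_single, zero_add, toK, toK, toK, map_mul, mul_assoc]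

theorem cst_mem_PP {r : SS B Λ} (hr : r ∈ Q.R) {V1 V2 : Finset (Option B)}
    (h1 : V1 = ∅ ∨ V1 = Finset.univ) (h2 : V2 = ∅ ∨ V2 = Finset.univ) :
    QD.cst r ∈ Q.PP (Q.dm V1) (Q.dm V2) := by
  refine Submodule.subset_span ⟨fun V => r * chi Q (Q.dm V1) V, ?_, chi Q (Q.dm V2),
    chi_memD Q _, ?_⟩
  · have := chi_mul_mem Q (Q.dm V1) (cR_mem Q hr)
    have h : (fun V => r * chi Q (Q.dm V1) V) = chi Q (Q.dm V1) * fun _ => r := by
      funext V; rw [Pi.mul_apply, mul_comm]
    rw [h]; exact this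
  · rw [← cst_mul_M, M_chi_triv Q h1, M_chi_triv Q h2, mul_one, mul_one]

/-! ### the straightening -/

/-- sums of two nested cocharacters with total dimension vector `D`, the smaller one in `P` -/
def Om (D : Option I → ℕ) (P : Set (Option I → ℕ)) : Set (B → ℤ) :=
  {lam | ∃ V1 V2 : Finset (Option B), V2 ⊆ V1 ∧ lam = lamV V1 + lamV V2 ∧
    Q.dm V1 + Q.dm V2 = D ∧ Q.dm V2 ∈ P}

theorem mem_Om {D : Option I → ℕ} {P : Set (Option I → ℕ)} (hP : IsLowerSet P)
    {V V' : Finset (Option B)} (hD : Q.dm V + Q.dm V' = D) (hV : Q.dm V' ∈ P) :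
    lamV V + lamV V' ∈ Om Q D P :=
  ⟨V ∪ V', V ∩ V', fun _ h => Finset.mem_union_left _ (Finset.mem_inter.1 h).1,
    (lamV_union_inter V V').symm, by rw [dm_union_inter, hD],
    hP (dm_mono Q Finset.inter_subset_right) hV⟩

theorem sum_fin_two {k : ℕ} (hk : k = 2) {V1 V2 : Finset (Option B)}
    {U V : Fin k → Finset (Option B)} (h0 : ∀ j : Fin k, (j : ℕ) = 0 → U j = V1)
    (h1 : ∀ j : Fin k, (j : ℕ) = 1 → U j = V2) (h : ∀ j, Q.orb (U j) (V j)) :
    ∃ W1 W2 : Finset (Option B), ∑ j, lamV (V j) = lamV W1 + lamV W2 ∧ Q.dm W1 = Q.dm V1 ∧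
      Q.dm W2 = Q.dm V2 := by
  subst hk
  refine ⟨V 0, V 1, Fin.sum_univ_two _, ?_, ?_⟩
  · rw [dm_orb Q (h 0), h0 0 rfl]
  · rw [dm_orb Q (h 1), h1 1 rfl]

theorem sum_fin_one {k : ℕ} (hk : k = 1) {V1 : Finset (Option B)}
    {U V : Fin k → Finset (Option B)} (h0 : ∀ j : Fin k, U j = V1) (h : ∀ j, Q.orb (U j) (V j)) :
    ∃ W1 : Finset (Option B), ∑ j, lamV (V j) = lamV W1 ∧ Q.dm W1 = Q.dm V1 := by
  subst hk
  refine ⟨V 0, by simp, ?_⟩
  rw [dm_orb Q (h 0), h0 0]

theorem Om_closed {D : Option I → ℕ} {P : Set (Option I → ℕ)} (hP : IsLowerSet P)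
    (lam : B → ℤ) (hlam : lam ∈ Om Q D P) (V : Fin (len lam) → Finset (Option B))
    (hV : ∀ j, Q.orb (lv lam j) (V j)) : ∑ j, lamV (V j) ∈ Om Q D P := by
  obtain ⟨V1, V2, h12, hl, hD, hV2⟩ := hlam
  rcases lv_cases h12 hl with ⟨hlen, h0, h1⟩ | ⟨hV2', hlen, h0⟩ | ⟨hV1', hlen, h0⟩ | ⟨_, _, h0⟩
  · obtain ⟨W1, W2, hs, hW1, hW2⟩ := sum_fin_two Q hlen h0 h1 hV
    rw [hs]
    exact mem_Om Q hP (by rw [hW1, hW2, hD]) (by rwa [hW2])
  · obtain ⟨W1, hs, hW1⟩ := sum_fin_one Q hlen h0 hV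
    have : lamV W1 = lamV W1 + lamV V2 := by rw [hV2', lamV_empty, add_zero]
    rw [hs, this]
    exact mem_Om Q hP (by rw [hW1, hD]) hV2
  · obtain ⟨W2, hs, hW2⟩ := sum_fin_one Q hlen h0 hV
    have : lamV W2 = lamV V1 + lamV W2 := by rw [hV1', lamV_univ, zero_add]
    rw [hs, this]
    exact mem_Om Q hP (by rw [hW2, hD]) (by rwa [hW2])
  · have hl0 : len lam = 0 := len_zero' h0
    have : ∑ j, lamV (V j) = lam := by
      refine Eq.trans ?_ h0.symm
      refine Finset.sum_eq_zero fun j _ => ?_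
      have := j.2
      omega
    rw [this]
    exact ⟨V1, V2, h12, hl, hD, hV2⟩

theorem PT_fin_two {k : ℕ} (hk : k = 2) {V1 V2 : Finset (Option B)}
    {U : Fin k → Finset (Option B)} (h0 : ∀ j : Fin k, (j : ℕ) = 0 → U j = V1)
    (h1 : ∀ j : Fin k, (j : ℕ) = 1 → U j = V2) :
    Q.PT (fun j => Q.dm (U j)) ≤ (Q.PP (Q.dm V1) (Q.dm V2) : Submodule Λ (AA B Λ)) := by
  subst hk
  refine Submodule.span_le.2 ?_
  rintro z ⟨F, hF, rfl⟩
  refine Submodule.subset_span ⟨F 0, ?_, F 1, ?_, Fin.prod_univ_two _⟩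
  · simpa only [h0 0 rfl] using hF 0
  · simpa only [h1 1 rfl] using hF 1

theorem PT_fin_one_left {k : ℕ} (hk : k = 1) {V1 V2 : Finset (Option B)} (hV2 : V2 = ∅)
    {U : Fin k → Finset (Option B)} (h0 : ∀ j : Fin k, U j = V1) :
    Q.PT (fun j => Q.dm (U j)) ≤ (Q.PP (Q.dm V1) (Q.dm V2) : Submodule Λ (AA B Λ)) := by
  subst hk
  refine Submodule.span_le.2 ?_
  rintro z ⟨F, hF, rfl⟩
  refine Submodule.subset_span ⟨F 0, ?_, chi Q (Q.dm V2), chi_memD Q _, ?_⟩
  · simpa only [h0 0] using hF 0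
  · rw [M_chi_triv Q (Or.inl hV2), mul_one, Fin.prod_univ_one]

theorem PT_fin_one_right {k : ℕ} (hk : k = 1) {V1 V2 : Finset (Option B)}
    (hV1 : V1 = Finset.univ) {U : Fin k → Finset (Option B)} (h0 : ∀ j : Fin k, U j = V2) :
    Q.PT (fun j => Q.dm (U j)) ≤ (Q.PP (Q.dm V1) (Q.dm V2) : Submodule Λ (AA B Λ)) := by
  subst hk
  refine Submodule.span_le.2 ?_
  rintro z ⟨F, hF, rfl⟩
  refine Submodule.subset_span ⟨chi Q (Q.dm V1), chi_memD Q _, F 0, ?_, ?_⟩
  · simpa only [h0 0] using hF 0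
  · rw [M_chi_triv Q (Or.inr hV1), one_mul, Fin.prod_univ_one]

/-- Elements of `A` with support in `Om D P` are sums of products of two generators. -/
theorem straighten [Algebra ℚ Λ] (hQ : Q.NonzeroLoops) {D : Option I → ℕ}
    {P : Set (Option I → ℕ)} (hP : IsLowerSet P) {z : AA B Λ} (hz : z ∈ Q.A)
    (hz' : ∀ mu, z.coeff mu ≠ 0 → mu ∈ Om Q D P) :
    z ∈ ⨆ a : {a : Option I → ℕ // a ∈ P}, (Q.PP (D - a.1) a.1 : Submodule Λ (AA B Λ)) := by
  -- elements of `PP (dm V1) (dm V2)`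
  have hmem : ∀ V1 V2 : Finset (Option B), Q.dm V1 + Q.dm V2 = D → Q.dm V2 ∈ P →
      (Q.PP (Q.dm V1) (Q.dm V2) : Submodule Λ (AA B Λ)) ≤
        ⨆ a : {a : Option I → ℕ // a ∈ P}, (Q.PP (D - a.1) a.1 : Submodule Λ (AA B Λ)) := by
    intro V1 V2 hD hV
    have h1 : Q.dm V1 = D - Q.dm V2 := by rw [← hD]; funext i; simp
    rw [h1]
    exact le_iSup (fun a : {a : Option I → ℕ // a ∈ P} =>
      (Q.PP (D - a.1) a.1 : Submodule Λ (AA B Λ))) ⟨Q.dm V2, hV⟩
  -- a bound for the norm
  obtain ⟨N, hN⟩ : ∃ N : ℤ, ∀ mu, z.coeff mu ≠ 0 → nrm mu ≤ N := by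
    refine ⟨∑ mu ∈ z.coeff.support, nrm mu, fun mu hmu => ?_⟩
    exact Finset.single_le_sum (f := fun mu => nrm mu)
      (fun mu _ => Finset.sum_nonneg fun b _ => sq_nonneg _) (Finsupp.mem_support_iff.2 hmu)
  obtain ⟨r, hr, s, τ, hτ, -, hzs⟩ := F1 Q hQ (Om Q D P) (Om_closed Q hP) hz hz' N hN
  -- the support of the tuple sums
  have hsupp : ∀ lam ∈ s, ∀ mu, (Q.MT (len lam) (τ lam)).coeff mu ≠ 0 → mu ∈ Om Q D P := by
    intro lam hlam mu hmu
    obtain ⟨_, hOm, _, _, hs⟩ := hτ lam hlam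
    rw [MT_coeff] at hmu
    obtain ⟨V, hV, hV'⟩ := Finset.exists_ne_zero_of_sum_ne_zero hmu
    rw [← (Finset.mem_filter.1 hV).2]
    refine Om_closed Q hP lam hOm V fun j => hs V ?_ j
    intro h0
    exact hV' (by rw [h0, toK, map_zero, zero_mul])
  rw [hzs]
  refine add_mem ?_ (sum_mem fun lam hlam => ?_)
  · by_cases hr0 : r = 0
    · have : (QD.cst r : AA B Λ) = 0 := by
        rw [QD.cst, hr0, toK, map_zero, AddMonoidAlgebra.single_zero]
      rw [this]; exact zero_mem _
    · have h0 : (0 : B → ℤ) ∈ Om Q D P := by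
        by_contra hcon
        have h1 : z.coeff 0 = toK r := by
          rw [hzs, AddMonoidAlgebra.coeff_add, Finsupp.add_apply, AddMonoidAlgebra.coeff_sum,
            Finsupp.finsetSum_apply, QD.cst, AddMonoidAlgebra.coeff_single,
            Finsupp.single_eq_same]
          rw [Finset.sum_eq_zero, add_zero]
          intro lam hlam
          by_contra h2
          exact hcon (hsupp lam hlam 0 h2)
        refine hcon (hz' 0 ?_)
        rw [h1]
        intro h2
        exact hr0 ((IsFractionRing.injective (SS B Λ) (KK B Λ)) (by rw [map_zero]; exact h2))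
      obtain ⟨V1, V2, h12, hl, hD, hV2⟩ := h0
      have key : (V1 = ∅ ∨ V1 = Finset.univ) ∧ (V2 = ∅ ∨ V2 = Finset.univ) := by
        have hlen : len (0 : B → ℤ) = 0 := len_zero' rfl
        rcases lv_cases h12 hl with ⟨h, _⟩ | ⟨_, h, _⟩ | ⟨_, h, _⟩ | ⟨h1, h2, _⟩
        · omega
        · omega
        · omega
        · exact ⟨h1, h2⟩
      exact hmem V1 V2 hD hV2 (cst_mem_PP Q hr key.1 key.2)
  · obtain ⟨hne, ⟨V1, V2, h12, hl, hD, hV2⟩, _, hDec, hs⟩ := hτ lam hlam
    have hpos : 0 < len lam := len_pos hne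
    have h1 := MT_mem_PT Q hpos (lv lam) hDec hs
    refine hmem V1 V2 hD hV2 ?_
    rcases lv_cases h12 hl with ⟨hlen, h0, h1'⟩ | ⟨hV2', hlen, h0⟩ | ⟨hV1', hlen, h0⟩ | ⟨_, _, h0⟩
    · exact PT_fin_two Q hlen h0 h1' h1
    · exact PT_fin_one_left Q hlen hV2' h0 h1
    · exact PT_fin_one_right Q hlen hV1' h0 h1
    · exact absurd h0 hne

end I1

variable {I E B Λ : Type*} [Fintype E] [DecidableEq I] [Fintype B] [DecidableEq B] [CommRing Λ]
  [IsDomain Λ]
variable (Q : QD I E B Λ)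

/-- (I-1a) pair straightening -/
theorem pair_straighten [Algebra ℚ Λ] (hQ : Q.NonzeroLoops) (d d' : Option I → ℕ)
    {F G : Finset (Option B) → SS B Λ} (hF : F ∈ Q.EqvD d) (hG : G ∈ Q.EqvD d') :
    Q.M F * Q.M G ∈ ⨆ a : {a : Option I → ℕ // a ≤ d ⊓ d'}, Q.PP (d + d' - a.1) a.1 := by
  refine I1.straighten Q hQ (D := d + d') (P := {a | a ≤ d ⊓ d'})
    (fun a b hab ha => le_trans hab ha) ?_ ?_
  · exact mul_mem (Algebra.subset_adjoin ⟨F, hF.1, rfl⟩) (Algebra.subset_adjoin ⟨G, hG.1, rfl⟩)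
  · intro mu hmu
    rw [QD.M, QD.M, Finset.sum_mul_sum, AddMonoidAlgebra.coeff_sum, Finsupp.finsetSum_apply] at hmu
    obtain ⟨V, _, hV⟩ := Finset.exists_ne_zero_of_sum_ne_zero hmu
    rw [AddMonoidAlgebra.coeff_sum, Finsupp.finsetSum_apply] at hV
    obtain ⟨V', _, hV'⟩ := Finset.exists_ne_zero_of_sum_ne_zero hV
    rw [AddMonoidAlgebra.single_mul_single, AddMonoidAlgebra.coeff_single] at hV'
    have h1 : lamV V + lamV V' = mu := by
      by_contra h
      exact hV' (Finsupp.single_eq_of_ne (Ne.symm h))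
    have h2 : F V ≠ 0 := by
      intro h; apply hV'; simp [h, toK]
    have h3 : G V' ≠ 0 := by
      intro h; apply hV'; simp [h, toK]
    refine ⟨V ∪ V', V ∩ V', fun _ h => Finset.mem_union_left _ (Finset.mem_inter.1 h).1,
      by rw [I1.lamV_union_inter, h1], ?_, ?_⟩
    · rw [I1.dm_union_inter, hF.2 V h2, hG.2 V' h3]
    · refine (le_inf ?_ ?_ : Q.dm (V ∩ V') ≤ d ⊓ d')
      · rw [← hF.2 V h2]; exact I1.dm_mono Q Finset.inter_subset_left
      · rw [← hG.2 V' h3]; exact I1.dm_mono Q Finset.inter_subset_right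

/-- (I-1b) if the leading coefficient vanishes, only lower pairs occur -/
theorem pair_kernel [Algebra ℚ Λ] (hQ : Q.NonzeroLoops) (d d' : Option I → ℕ) (hd : d' ≤ d)
    {τ : (Fin 2 → Finset (Option B)) → SS B Λ} (hτ : τ ∈ Q.Dec 2)
    (hs : ∀ V, τ V ≠ 0 → Q.dm (V 0) = d ∧ Q.dm (V 1) = d')
    (h0 : ∀ V, V 1 ⊆ V 0 → τ V = 0) :
    Q.MT 2 τ ∈ ⨆ a : {a : Option I → ℕ // a ≤ d' ∧ a ≠ d'}, Q.PP (d + d' - a.1) a.1 := by
  refine I1.straighten Q hQ (D := d + d') (P := {a | a ≤ d' ∧ a ≠ d'})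
    (fun a b hab ha => ⟨le_trans hab ha.1, fun h => ha.2 (le_antisymm ha.1 (h ▸ hab))⟩) ?_ ?_
  · exact MT_mem Q 2 hτ
  · intro mu hmu
    rw [MT_coeff] at hmu
    obtain ⟨V, hV, hV'⟩ := Finset.exists_ne_zero_of_sum_ne_zero hmu
    have h1 : lamV (V 0) + lamV (V 1) = mu := by
      rw [← (Finset.mem_filter.1 hV).2, Fin.sum_univ_two]
    have h2 : τ V ≠ 0 := by
      intro h; exact hV' (by rw [h, toK, map_zero, zero_mul])
    obtain ⟨hd0, hd1⟩ := hs V h2
    refine ⟨V 0 ∪ V 1, V 0 ∩ V 1, fun _ h => Finset.mem_union_left _ (Finset.mem_inter.1 h).1,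
      by rw [I1.lamV_union_inter, h1], ?_, ?_, ?_⟩
    · rw [I1.dm_union_inter, hd0, hd1]
    · rw [← hd1]; exact I1.dm_mono Q Finset.inter_subset_right
    · intro h
      have h3 : V 0 ∩ V 1 = V 1 :=
        I1.eq_of_dm Q Finset.inter_subset_right (by rw [h, hd1])
      refine h2 (h0 V ?_)
      rw [← h3]; exact Finset.inter_subset_left

end Vale.Agent.P291
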