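import Vale.Agent.P291.B1Blk

/-!
# P291, block H3: `I_T` and `J_D` are saturated with respect to the coefficients
-/

open MvPolynomial

namespace Vale.Agent.P291

namespace H3

section

variable {k : Type*} [CommRing k] {V ι κ : Type*} [Fintype ι] [Fintype κ]
variable (Q : H809.Data k V ι κ)

theorem shift_C (U : Finset V) (c : k) :
    H809.shift k U (C c) = Polynomial.C (C c) := by
  simp [H809.shift, MvPolynomial.algebraMap_eq, Polynomial.algebraMap_apply]

theorem proj_C_mul (U : Finset V) (c : k) (g : MvPolynomial V k) :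
    Q.proj U (C c * g) = C c * Q.proj U g := by
  unfold H809.Data.proj
  rw [Q.q_mul_of_inv (shift_C U c)]
  ring

theorem projList_C_mul (L : List (Finset V)) (c : k) (g : MvPolynomial V k) :
    Q.projList L (C c * g) = C c * Q.projList L g := by
  induction L with
  | nil => rfl
  | cons U L ih =>
    rw [H809.Data.projList_cons, H809.Data.projList_cons, ih, proj_C_mul]
    ring

theorem projList_cut (L : List (Finset V)) (hL : ∀ U ∈ L, U.Nonempty) (g : MvPolynomial V k) :
    Q.projList L g - g ∈ Q.cutIdeal := by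
  induction L with
  | nil =>
    have : Q.projList [] g = g := rfl
    rw [this, sub_self]
    exact Ideal.zero_mem _
  | cons U L ih =>
    have ih' := ih (fun U' h => hL U' (List.mem_cons_of_mem _ h))
    have hU := hL U List.mem_cons_self
    rw [H809.Data.projList_cons]
    obtain ⟨s, hs, hY⟩ := Q.Ys_eq U
    have h1 : Q.proj U (Q.projList L g) ∈ Q.cutIdeal := by
      unfold H809.Data.proj
      rw [hY]
      have e : s * Q.Y (H809.cutRel U) * Q.q U (Q.projList L g) =
        (s * Q.q U (Q.projList L g)) * Q.Y (H809.cutRel U) := by ring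
      rw [e]
      exact Ideal.mul_mem_left _ _ (Ideal.subset_span ⟨U, hU, rfl⟩)
    have e : Q.projList L g - Q.proj U (Q.projList L g) - g =
      (Q.projList L g - g) - Q.proj U (Q.projList L g) := by ring
    rw [e]
    exact Ideal.sub_mem _ ih' h1

theorem cutIdeal_sat [IsDomain k] [Finite V] {c : k} (hc : c ≠ 0) {g : MvPolynomial V k}
    (hg : C c * g ∈ Q.cutIdeal) : g ∈ Q.cutIdeal := by
  have := Fintype.ofFinite V
  classical
  let L : List (Finset V) := (Finset.univ.filter (fun U : Finset V => U.Nonempty)).toList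
  have hL : ∀ U ∈ L, U.Nonempty := by
    intro U hU
    simpa [L] using hU
  have hkill : Q.projList L (C c * g) = 0 := by
    refine Submodule.closure_induction (p := fun x _ => Q.projList L x = 0) ?_ ?_ ?_ hg
    · exact map_zero _
    · intro x y _ _ hx hy
      rw [map_add, hx, hy, add_zero]
    · rintro r x ⟨U, hU, rfl⟩
      rw [smul_eq_mul, mul_comm]
      exact Q.projList_kills L (by simp [L, hU]) r
  rw [projList_C_mul] at hkill
  have h0 : Q.projList L g = 0 := by
    rcases mul_eq_zero.1 hkill with h | h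
    · exact absurd (C_eq_zero.1 h) hc
    · exact h
  have h := projList_cut Q L hL g
  rw [h0, zero_sub] at h
  simpa using (Ideal.neg_mem_iff _).1 h

end

end H3

variable {I E B Λ : Type*} [Fintype E] [DecidableEq I] [Fintype B] [DecidableEq B] [CommRing Λ]
  [IsDomain Λ]
variable (Q : QD I E B Λ)

open B1 in
theorem IT_eq_cutIdeal : Q.IT = (dat Q).cutIdeal := by
  apply le_antisymm
  · unfold QD.IT
    rw [Ideal.span_le]
    rintro z ⟨U, hU, rfl⟩
    obtain ⟨s, hs, hY⟩ := Y_eq Q (H809.cutRel U)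
    have h2 : Q.cut U = s * (dat Q).Y (H809.cutRel U) := by
      rw [cut_eq, hY, ← mul_assoc, hs, one_mul]
    rw [h2]
    exact Ideal.mul_mem_left _ _ (Ideal.subset_span ⟨U, hU, rfl⟩)
  · unfold H809.Data.cutIdeal
    rw [Ideal.span_le]
    rintro z ⟨U, hU, rfl⟩
    obtain ⟨s, hs, hY⟩ := Y_eq Q (H809.cutRel U)
    rw [hY, ← cut_eq]
    exact Ideal.mul_mem_left _ _ (Ideal.subset_span ⟨U, hU, rfl⟩)

/-- (H3a) the idempotent of `H809/Proj.lean` is `Λ`-linear -/
theorem IT_sat {c : Λ} (hc : c ≠ 0) {f : SS B Λ} (hf : C c * f ∈ Q.IT) : f ∈ Q.IT := by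
  rw [IT_eq_cutIdeal] at hf ⊢
  exact H3.cutIdeal_sat _ hc hf

theorem JD_sat {c : Λ} (hc : c ≠ 0) {f : SS B Λ} (hf : C c * f ∈ Q.JD) : f ∈ Q.JD := by
  obtain ⟨h1, h2⟩ := hf
  have hC : (C c : SS B Λ) ≠ 0 := fun h => hc (C_eq_zero.1 h)
  refine ⟨fun σ hσ => ?_, ?_⟩
  · have h3 := h1 σ hσ
    rw [map_mul, rename_C] at h3
    exact mul_left_cancel₀ hC h3
  · apply IT_sat Q hc
    have e : C c * (Q.D * f) = Q.D * (C c * f) := by ring
    rw [e]
    exact h2

end Vale.Agent.P291
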