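import Vale.Agent.P291.HCore

/-!
# P291, row N2f: transport to subtypes and relabelling of boxes
-/

set_option linter.unusedSectionVars false
set_option linter.unusedVariables false

open MvPolynomial

namespace Vale.Agent.P291

namespace N2f

variable {I E B Λ : Type*} [Fintype E] [DecidableEq I] [Fintype B] [DecidableEq B] [CommRing Λ]
  [IsDomain Λ]

section emb

variable {B' : Type*} (j : B' ↪ B)

theorem emb_toK (f : SS B' Λ) : emb j (toK f) = toK (rename j f) := by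
  unfold emb toK
  simp only [IsFractionRing.map, IsLocalization.map_eq]
  rfl

omit [Fintype B] [DecidableEq B] in
theorem smul_eq (c : Λ) (f : KK B Λ) : c • f = toK (C c) * f := by
  rw [Algebra.smul_def, IsScalarTower.algebraMap_apply Λ (SS B Λ) (KK B Λ)]
  rfl

theorem emb_smul (c : Λ) (f : KK B' Λ) : emb j (c • f) = c • emb j f := by
  rw [smul_eq, smul_eq, map_mul, emb_toK, rename_C]

/-- `emb` as a linear map -/
noncomputable def embL : KK B' Λ →ₗ[Λ] KK B Λ where
  toFun := emb j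
  map_add' := map_add _
  map_smul' := fun c f => emb_smul j c f

theorem embL_apply (f : KK B' Λ) : embL j f = emb j f := rfl

theorem emb_act [Fintype B'] [DecidableEq B'] (σ' : Equiv.Perm B') (σ : Equiv.Perm B)
    (h : ∀ b, σ (j b) = j (σ' b)) (f : KK B' Λ) : emb j (act σ' f) = act σ (emb j f) := by
  obtain ⟨p, q, hq, rfl⟩ := IsFractionRing.div_surjective (A := SS B' Λ) f
  have h1 : ∀ p : SS B' Λ, emb j (act σ' (toK p)) = act σ (emb j (toK p)) := by
    intro p
    rw [act_toK, emb_toK, emb_toK, act_toK, rename_rename, rename_rename]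
    congr 3
    funext b
    exact (h b).symm
  simp only [map_div₀]
  exact congrArg₂ _ (h1 p) (h1 q)

end emb

section sub

variable (Q : QD I E B Λ) {E' : Type*} [Fintype E'] (ι : E' ↪ E) {B' : Type*} [Fintype B']
  [DecidableEq B'] (j : B' ↪ B) (Q' : QD I E' B' Λ)

/-- `Q'` is the restriction of `Q` along `ι` and `j` -/
structure IsSub : Prop where
  src : ∀ a, Q'.src a = Q.src (ι a)
  tgt : ∀ a, Q'.tgt a = Q.tgt (ι a)
  vx : ∀ b, Q'.vx b = Q.vx (j b)
  t : ∀ a, Q'.t a = Q.t (ι a)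

/-- embedding of the index sets of weights -/
def wemb : E' × B' × Option B' ↪ E × B × Option B := ι.prodMap (j.prodMap j.optionMap)

variable {Q ι j Q'}

theorem wemb_mem (h : IsSub Q ι j Q') (p : E' × B' × Option B') :
    wemb ι j p ∈ Q.Wt ↔ p ∈ Q'.Wt := by
  obtain ⟨a, r, s⟩ := p
  have h3 : Q.vo (s.map j) = Q'.vo s := by
    cases s with
    | none => rfl
    | some s => simp [QD.vo, h.vx]
  simp only [QD.Wt, wemb, Finset.mem_filter, Finset.mem_univ, true_and,
    Function.Embedding.coe_prodMap, Prod.map_fst, Prod.map_snd,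
    Function.Embedding.optionMap_apply, h3, h.vx, h.src, h.tgt]

theorem rename_xi' (h : IsSub Q ι j Q') (p : E' × B' × Option B') :
    rename j (Q'.xi p) = Q.xi (wemb ι j p) := by
  obtain ⟨a, r, s⟩ := p
  cases s with
  | none => simp [QD.xi, wemb, xo, h.t]
  | some s => simp [QD.xi, wemb, xo, h.t]

theorem emb_kap (h : IsSub Q ι j Q') (g' : B' → ℕ) (P : Finset (E × B × Option B))
    (R : Finset (B × B))
    (hP : ∀ p, p ∈ P ↔ ∃ p' ∈ Q'.Wt.filter (fun p => g' p.2.1 ≠ p.2.2.elim 0 g'), wemb ι j p' = p)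
    (hR : ∀ p, p ∈ R ↔ ∃ p' ∈ Q'.Prs.filter (fun p => g' p.1 ≠ g' p.2), j.prodMap j p' = p) :
    emb j (Q'.kap g') = toK (∏ p ∈ P, Q.xi p) / toK (∏ p ∈ R, (X p.1 - X p.2 : SS B Λ)) := by
  have h1 : P = (Q'.Wt.filter (fun p => g' p.2.1 ≠ p.2.2.elim 0 g')).map (wemb ι j) := by
    ext p
    rw [hP, Finset.mem_map]
  have h2 : R = (Q'.Prs.filter (fun p => g' p.1 ≠ g' p.2)).map (j.prodMap j) := by
    ext p
    rw [hR, Finset.mem_map]
  have h3 : rename j (Q'.numG g') = ∏ p ∈ P, Q.xi p := by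
    rw [h1, Finset.prod_map]
    unfold QD.numG
    rw [map_prod]
    exact Finset.prod_congr rfl fun p _ => rename_xi' h p
  have h4 : rename j (Q'.denG g') = ∏ p ∈ R, (X p.1 - X p.2 : SS B Λ) := by
    rw [h2, Finset.prod_map]
    unfold QD.denG
    rw [map_prod]
    refine Finset.prod_congr rfl fun p _ => ?_
    simp
  unfold QD.kap
  rw [map_div₀, emb_toK, emb_toK, h3, h4]

end sub

section res

theorem mem_Prs {E' B' : Type*} [Fintype B'] [DecidableEq B'] (Q : QD I E' B' Λ) {p : B' × B'} :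
    p ∈ Q.Prs ↔ Q.vx p.1 = Q.vx p.2 := by
  unfold QD.Prs
  rw [Finset.mem_filter]
  exact ⟨fun h => h.2, fun h => ⟨Finset.mem_univ _, h⟩⟩

variable (Q : QD I E B Λ) (U : Finset B)

/-- the embedding of a subset of the boxes -/
abbrev jU (U : Finset B) : {b // b ∈ U} ↪ B := Function.Embedding.subtype _

theorem isSub_unf : IsSub Q (Function.Embedding.subtype _) (jU U) (Q.rst U).unf :=
  ⟨fun _ => rfl, fun _ => rfl, fun _ => rfl, fun _ => rfl⟩

theorem isSub_res : IsSub Q (Function.Embedding.refl _) (jU U) (Q.rst U) :=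
  ⟨fun _ => rfl, fun _ => rfl, fun _ => rfl, fun _ => rfl⟩

theorem emb_kapN (g' : {b // b ∈ U} → ℕ) (g : B → ℕ) (hg : ∀ b, g b.1 = g' b) :
    emb (jU U) ((Q.rst U).unf.kap g') = Q.kapN U g := by
  unfold QD.kapN
  refine emb_kap (isSub_unf Q U) g' _ _ ?_ ?_
  · rintro ⟨a, r, s⟩
    constructor
    · intro hp
      simp only [Finset.mem_filter] at hp
      obtain ⟨hw, hr, ⟨b, hb, hs⟩, hne⟩ := hp
      have hs' : s = some b := hs
      subst hs'
      have hta : Q.tgt a ≠ none := by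
        simp only [QD.Wt, Finset.mem_filter, Finset.mem_univ, true_and] at hw
        rw [← hw.2]
        simp [QD.vo]
      refine ⟨(⟨a, hta⟩, ⟨r, hr⟩, some ⟨b, hb⟩), ?_, rfl⟩
      rw [Finset.mem_filter]
      refine ⟨(wemb_mem (isSub_unf Q U) _).1 hw, ?_⟩
      simpa [← hg] using hne
    · rintro ⟨⟨a', r', s'⟩, hp', heq⟩
      rw [Finset.mem_filter] at hp'
      have hw := (wemb_mem (isSub_unf Q U) _).2 hp'.1
      rw [heq] at hw
      cases s' with
      | none =>
        exfalso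
        have h1 := hp'.1
        simp only [QD.Wt, Finset.mem_filter, Finset.mem_univ, true_and] at h1
        exact a'.2 h1.2.symm
      | some s' =>
        have h2 : (a, r, s) = (a'.1, r'.1, some s'.1) := heq.symm
        simp only [Prod.mk.injEq] at h2
        obtain ⟨rfl, rfl, rfl⟩ := h2
        rw [Finset.mem_filter]
        refine ⟨hw, r'.2, ⟨s'.1, s'.2, rfl⟩, ?_⟩
        simpa [← hg] using hp'.2
  · rintro ⟨r, s⟩
    constructor
    · intro hp
      simp only [Finset.mem_filter] at hp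
      obtain ⟨hw, hr, hs, hne⟩ := hp
      refine ⟨(⟨r, hr⟩, ⟨s, hs⟩), ?_, rfl⟩
      rw [Finset.mem_filter]
      have h5 : Q.vx r = Q.vx s := (mem_Prs Q).1 hw
      refine ⟨(mem_Prs _).2 h5, ?_⟩
      · simpa [← hg] using hne
    · rintro ⟨⟨r', s'⟩, hp', heq⟩
      have h2 : (r, s) = (r'.1, s'.1) := heq.symm
      simp only [Prod.mk.injEq] at h2
      obtain ⟨rfl, rfl⟩ := h2
      rw [Finset.mem_filter] at hp' ⊢
      have h5 : Q.vx r'.1 = Q.vx s'.1 := (mem_Prs (Q.rst U).unf).1 hp'.1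
      refine ⟨(mem_Prs _).2 h5, r'.2, s'.2, ?_⟩
      · simpa [← hg] using hp'.2

theorem emb_kapF (g' : {b // b ∈ Uᶜ} → ℕ) (g : B → ℕ) (hg : ∀ b, g b.1 = g' b) :
    emb (jU Uᶜ) ((Q.rst Uᶜ).kap g') = Q.kapF U g := by
  unfold QD.kapF
  refine emb_kap (isSub_res Q Uᶜ) g' _ _ ?_ ?_
  · rintro ⟨a, r, s⟩
    constructor
    · intro hp
      simp only [Finset.mem_filter] at hp
      obtain ⟨hw, hr, hs, hne⟩ := hp
      have hs' : ∃ s' : Option {b // b ∈ Uᶜ}, s'.map (jU Uᶜ) = s := by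
        cases s with
        | none => exact ⟨none, rfl⟩
        | some b =>
          have : b ∈ Uᶜ := by
            rw [Finset.mem_compl]
            intro hb
            exact hs b hb rfl
          exact ⟨some ⟨b, this⟩, rfl⟩
      obtain ⟨s', rfl⟩ := hs'
      refine ⟨(a, ⟨r, Finset.mem_compl.2 hr⟩, s'), ?_, rfl⟩
      rw [Finset.mem_filter]
      refine ⟨(wemb_mem (isSub_res Q Uᶜ) _).1 hw, ?_⟩
      cases s' with
      | none => simpa [← hg] using hne
      | some s' => simpa [← hg] using hne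
    · rintro ⟨⟨a', r', s'⟩, hp', heq⟩
      rw [Finset.mem_filter] at hp'
      have hw := (wemb_mem (isSub_res Q Uᶜ) _).2 hp'.1
      rw [heq] at hw
      have h2 : (a, r, s) = (a', r'.1, s'.map (jU Uᶜ)) := heq.symm
      simp only [Prod.mk.injEq] at h2
      obtain ⟨rfl, rfl, rfl⟩ := h2
      rw [Finset.mem_filter]
      refine ⟨hw, Finset.mem_compl.1 r'.2, ?_, ?_⟩
      · intro b hb
        cases s' with
        | none => simp
        | some s' =>
          simp only [Option.map_some, ne_eq, Option.some.injEq]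
          intro h3
          exact Finset.mem_compl.1 s'.2 (by rw [show s'.1 = b from h3]; exact hb)
      · cases s' with
        | none => simpa [← hg] using hp'.2
        | some s' => simpa [← hg] using hp'.2
  · rintro ⟨r, s⟩
    constructor
    · intro hp
      simp only [Finset.mem_filter] at hp
      obtain ⟨hw, hr, hs, hne⟩ := hp
      refine ⟨(⟨r, Finset.mem_compl.2 hr⟩, ⟨s, Finset.mem_compl.2 hs⟩), ?_, rfl⟩
      rw [Finset.mem_filter]
      have h5 : Q.vx r = Q.vx s := (mem_Prs Q).1 hw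
      refine ⟨(mem_Prs _).2 h5, ?_⟩
      · simpa [← hg] using hne
    · rintro ⟨⟨r', s'⟩, hp', heq⟩
      have h2 : (r, s) = (r'.1, s'.1) := heq.symm
      simp only [Prod.mk.injEq] at h2
      obtain ⟨rfl, rfl⟩ := h2
      rw [Finset.mem_filter] at hp' ⊢
      have h5 : Q.vx r'.1 = Q.vx s'.1 := (mem_Prs (Q.rst Uᶜ)).1 hp'.1
      refine ⟨(mem_Prs _).2 h5, Finset.mem_compl.1 r'.2,
        Finset.mem_compl.1 s'.2, ?_⟩
      · simpa [← hg] using hp'.2

/-- permutations of a subset, extended by the identity -/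
theorem sum_WU (σf : Equiv.Perm {b // b ∈ U} → KK B Λ) (τf : Equiv.Perm B → KK B Λ)
    (h : ∀ σ', τf (Equiv.Perm.ofSubtype σ') = σf σ')
    (P : Finset (Equiv.Perm {b // b ∈ U}))
    (hP : ∀ σ', σ' ∈ P ↔ ∀ b : {b // b ∈ U}, Q.vx (σ' b).1 = Q.vx b.1) :
    ∑ σ' ∈ P, σf σ' = ∑ σ ∈ Q.WU U, τf σ := by
  refine Finset.sum_nbij' (fun σ' => Equiv.Perm.ofSubtype σ')
    (fun σ => if hσ : ∀ b, b ∈ U ↔ σ b ∈ U then Equiv.Perm.subtypePerm σ (fun b => (hσ b).symm)
      else 1) ?_ ?_ ?_ ?_ ?_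
  · intro σ' hσ'
    rw [hP] at hσ'
    unfold QD.WU QD.Wf
    rw [Finset.mem_filter, Finset.mem_filter]
    refine ⟨⟨Finset.mem_univ _, ?_⟩, ?_⟩
    · intro b
      by_cases hb : b ∈ U
      · rw [Equiv.Perm.ofSubtype_apply_of_mem _ hb]
        exact hσ' ⟨b, hb⟩
      · rw [Equiv.Perm.ofSubtype_apply_of_not_mem _ hb]
    · intro b hb
      exact Equiv.Perm.ofSubtype_apply_of_not_mem _ hb
  · intro σ hσ
    have hσ' := hσ
    unfold QD.WU QD.Wf at hσ'
    rw [Finset.mem_filter, Finset.mem_filter] at hσ'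
    obtain ⟨⟨_, h1⟩, h2⟩ := hσ'
    have h3 : ∀ b, b ∈ U ↔ σ b ∈ U := by
      intro b
      constructor
      · intro hb
        by_contra hn
        have h4 := h2 _ hn
        have h5 := σ.injective h4
        exact hn (by rw [h5]; exact hb)
      · intro hb
        by_contra hn
        rw [h2 _ hn] at hb
        exact hn hb
    rw [dif_pos h3, hP]
    intro b
    exact h1 b.1
  · intro σ' _
    have h3 : ∀ b, b ∈ U ↔ Equiv.Perm.ofSubtype σ' b ∈ U := by
      intro b
      by_cases hb : b ∈ U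
      · rw [Equiv.Perm.ofSubtype_apply_of_mem _ hb]
        exact ⟨fun _ => (σ' ⟨b, hb⟩).2, fun _ => hb⟩
      · rw [Equiv.Perm.ofSubtype_apply_of_not_mem _ hb]
    rw [dif_pos h3]
    exact Equiv.Perm.subtypePerm_ofSubtype σ'
  · intro σ hσ
    unfold QD.WU QD.Wf at hσ
    rw [Finset.mem_filter, Finset.mem_filter] at hσ
    obtain ⟨⟨_, h1⟩, h2⟩ := hσ
    have h3 : ∀ b, b ∈ U ↔ σ b ∈ U := by
      intro b
      constructor
      · intro hb
        by_contra hn
        have h4 := h2 _ hn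
        have h5 := σ.injective h4
        exact hn (by rw [h5]; exact hb)
      · intro hb
        by_contra hn
        rw [h2 _ hn] at hb
        exact hn hb
    rw [dif_pos h3]
    refine Equiv.Perm.ofSubtype_subtypePerm _ ?_
    intro b hb
    by_contra hn
    exact hb (h2 b hn)
  · intro σ' _
    exact (h σ').symm

theorem ofSubtype_mem_WU {σ' : Equiv.Perm {b // b ∈ U}}
    (hσ' : ∀ b : {b // b ∈ U}, Q.vx (σ' b).1 = Q.vx b.1) : Equiv.Perm.ofSubtype σ' ∈ Q.WU U := by
  unfold QD.WU QD.Wf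
  rw [Finset.mem_filter, Finset.mem_filter]
  refine ⟨⟨Finset.mem_univ _, ?_⟩, ?_⟩
  · intro b
    by_cases hb : b ∈ U
    · rw [Equiv.Perm.ofSubtype_apply_of_mem _ hb]
      exact hσ' ⟨b, hb⟩
    · rw [Equiv.Perm.ofSubtype_apply_of_not_mem _ hb]
  · intro b hb
    exact Equiv.Perm.ofSubtype_apply_of_not_mem _ hb

theorem WU_restrict {σ : Equiv.Perm B} (hσ : σ ∈ Q.WU U) :
    ∃ σ' : Equiv.Perm {b // b ∈ U}, (∀ b : {b // b ∈ U}, Q.vx (σ' b).1 = Q.vx b.1) ∧
      ∀ b : {b // b ∈ U}, (σ' b).1 = σ b.1 := by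
  unfold QD.WU QD.Wf at hσ
  rw [Finset.mem_filter, Finset.mem_filter] at hσ
  obtain ⟨⟨_, h1⟩, h2⟩ := hσ
  have h3 : ∀ b, σ b ∈ U ↔ b ∈ U := by
    intro b
    constructor
    · intro hb
      by_contra hn
      rw [h2 _ hn] at hb
      exact hn hb
    · intro hb
      by_contra hn
      have h4 := h2 _ hn
      have h5 := σ.injective h4
      exact hn (by rw [h5]; exact hb)
  exact ⟨Equiv.Perm.subtypePerm σ h3, fun b => h1 b.1, fun b => rfl⟩

theorem exists_rename {s : SS B Λ} (hs : s ∈ supported Λ (U : Set B)) :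
    ∃ s' : SS {b // b ∈ U} Λ, rename (jU U) s' = s := by
  have h1 := hs
  rw [supported_eq_range_rename] at h1
  obtain ⟨s', hs'⟩ := h1
  exact ⟨s', hs'⟩

theorem rename_supported (s' : SS {b // b ∈ U} Λ) :
    rename (jU U) s' ∈ supported Λ (U : Set B) := by
  rw [supported_eq_range_rename]
  exact ⟨s', rfl⟩

end res

end N2f

open N2f

variable {I E B Λ k : Type*} [Fintype E] [DecidableEq I] [Fintype B] [DecidableEq B] [CommRing Λ]
  [IsDomain Λ] [Field k] [CharZero k] [Algebra k Λ]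
variable (Q : QD I E B Λ) (S : Scal k Λ)

theorem N2f.emb_hall_N (U : Finset B) (g' : {b // b ∈ U} → ℕ) (g : B → ℕ) (hg : ∀ b, g b.1 = g' b)
    (s' : SS {b // b ∈ U} Λ) :
    emb (jU U) ((Q.rst U).unf.hall g' s') =
      ∑ σ ∈ Q.WU U, act σ (toK (rename (jU U) s') * Q.kapN U g) := by
  unfold QD.hall
  rw [map_sum]
  refine sum_WU Q U _ _ ?_ _ ?_
  · intro σ'
    rw [← emb_kapN Q U g' g hg, ← emb_toK, ← map_mul]
    symm
    refine emb_act _ _ _ ?_ _
    intro b
    exact Equiv.Perm.ofSubtype_apply_coe _ _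
  · intro σ'
    unfold QD.Wf
    rw [Finset.mem_filter]
    exact ⟨fun h => h.2, fun h => ⟨Finset.mem_univ _, h⟩⟩

theorem N2f.emb_hall_F (U : Finset B) (g' : {b // b ∈ Uᶜ} → ℕ) (g : B → ℕ)
    (hg : ∀ b, g b.1 = g' b) (s' : SS {b // b ∈ Uᶜ} Λ) :
    emb (jU Uᶜ) ((Q.rst Uᶜ).hall g' s') =
      ∑ σ ∈ Q.WU Uᶜ, act σ (toK (rename (jU Uᶜ) s') * Q.kapF U g) := by
  unfold QD.hall
  rw [map_sum]
  refine sum_WU Q Uᶜ _ _ ?_ _ ?_
  · intro σ'
    rw [← emb_kapF Q U g' g hg, ← emb_toK, ← map_mul]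
    symm
    refine emb_act _ _ _ ?_ _
    intro b
    exact Equiv.Perm.ofSubtype_apply_coe _ _
  · intro σ'
    unfold QD.Wf
    rw [Finset.mem_filter]
    exact ⟨fun h => h.2, fun h => ⟨Finset.mem_univ _, h⟩⟩

/-- extension of a colouring by zero -/
def N2f.extg (U : Finset B) (g' : {b // b ∈ U} → ℕ) : B → ℕ :=
  fun b => if hb : b ∈ U then g' ⟨b, hb⟩ else 0

theorem N2f.extg_apply (U : Finset B) (g' : {b // b ∈ U} → ℕ) (b : {b // b ∈ U}) :
    extg U g' b.1 = g' b := by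
  unfold extg
  rw [dif_pos b.2]

/-- (N2f) -/
theorem LN_iff (U : Finset B) (f : KK B Λ) : f ∈ Q.LN U ↔
    ∃ f' ∈ (Q.rst U).unf.LL, emb (Function.Embedding.subtype _) f' = f := by
  have h1 : Q.LN U = Submodule.map (embL (jU U)) (Q.rst U).unf.LL := by
    unfold QD.LN QD.LL
    rw [Submodule.map_span]
    congr 1
    ext f
    constructor
    · rintro ⟨g, s, hs, rfl⟩
      obtain ⟨s', rfl⟩ := exists_rename U hs
      exact ⟨_, ⟨fun b => g b.1, s', rfl⟩, emb_hall_N Q U _ g (fun _ => rfl) s'⟩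
    · rintro ⟨_, ⟨g', s', rfl⟩, rfl⟩
      exact ⟨extg U g', rename (jU U) s', rename_supported U s',
        emb_hall_N Q U g' _ (extg_apply U g') s'⟩
  rw [h1, Submodule.mem_map]
  rfl

theorem RF_iff (U : Finset B) (f : KK B Λ) : f ∈ Q.RF U ↔
    ∃ r ∈ (Q.rst Uᶜ).R, emb (Function.Embedding.subtype _) (toK r) = f := by
  have h1 : Q.RF U = Submodule.map ((embL (jU Uᶜ)).comp
      (Algebra.linearMap (SS {b // b ∈ Uᶜ} Λ) (KK {b // b ∈ Uᶜ} Λ) |>.restrictScalars Λ))
      (Subalgebra.toSubmodule (Q.rst Uᶜ).R) := by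
    apply le_antisymm
    · unfold QD.RF
      rw [Submodule.span_le]
      rintro f ⟨r, hr, hinv, rfl⟩
      obtain ⟨r', rfl⟩ := exists_rename Uᶜ hr
      refine Submodule.mem_map.2 ⟨r', ?_, emb_toK _ _⟩
      intro σ' hσ'
      have h2 := hinv _ (ofSubtype_mem_WU Q Uᶜ hσ')
      rw [rename_rename] at h2
      apply rename_injective _ (jU Uᶜ).injective
      rw [rename_rename, ← h2]
      congr 2
      funext b
      exact (Equiv.Perm.ofSubtype_apply_coe σ' b).symm
    · rintro f hf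
      obtain ⟨r', hr', rfl⟩ := Submodule.mem_map.1 hf
      unfold QD.RF
      refine Submodule.subset_span ⟨rename (jU Uᶜ) r', rename_supported Uᶜ r', ?_, emb_toK _ _⟩
      intro σ hσ
      obtain ⟨σ', h2, h3⟩ := WU_restrict Q Uᶜ hσ
      rw [rename_rename]
      have h4 : (rename (jU Uᶜ) (rename σ' r') : SS B Λ) = rename (jU Uᶜ) r' :=
        congrArg _ (hr' σ' h2)
      rw [← h4, rename_rename]
      congr 2
      funext b
      exact (h3 b).symm
  rw [h1, Submodule.mem_map]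
  rfl

theorem UF_iff (U : Finset B) (f : KK B Λ) : f ∈ Q.UF U ↔
    ∃ f' ∈ (Q.rst Uᶜ).UU, emb (Function.Embedding.subtype _) f' = f := by
  have h1 : Q.UF U = Submodule.map (embL (jU Uᶜ)) (Q.rst Uᶜ).UU := by
    unfold QD.UF QD.UU
    rw [Submodule.map_span]
    congr 1
    ext f
    constructor
    · rintro ⟨g, s, hs, ⟨b, hb, hgb⟩, rfl⟩
      obtain ⟨s', rfl⟩ := exists_rename Uᶜ hs
      refine ⟨_, ⟨fun b => g b.1, s', ?_, rfl⟩, emb_hall_F Q U _ g (fun _ => rfl) s'⟩
      intro h0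
      exact hgb (congrFun h0 ⟨b, Finset.mem_compl.2 hb⟩)
    · rintro ⟨_, ⟨g', s', hg', rfl⟩, rfl⟩
      refine ⟨extg Uᶜ g', rename (jU Uᶜ) s', rename_supported Uᶜ s', ?_,
        emb_hall_F Q U g' _ (extg_apply Uᶜ g') s'⟩
      by_contra hn
      push Not at hn
      apply hg'
      funext b
      rw [← extg_apply Uᶜ g' b]
      exact hn b.1 (Finset.mem_compl.1 b.2)
  rw [h1, Submodule.mem_map]
  rfl


namespace N2f

section congr

variable {Q} {B' : Type*} [Fintype B'] [DecidableEq B'] (j : B' ≃ B) (vx' : B' → I)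

theorem isSub_on (hj : ∀ b, vx' b = Q.vx (j b)) :
    IsSub Q (Function.Embedding.refl _) j.toEmbedding (Q.on vx') :=
  ⟨fun _ => rfl, fun _ => rfl, hj, fun _ => rfl⟩

theorem wemb_surj (p : E × B × Option B) :
    ∃ p', wemb (Function.Embedding.refl E) j.toEmbedding p' = p := by
  obtain ⟨a, r, s⟩ := p
  refine ⟨(a, j.symm r, s.map j.symm), ?_⟩
  have h1 : (s.map j.symm).map j = s := by cases s <;> simp
  have h2 : wemb (Function.Embedding.refl E) j.toEmbedding (a, j.symm r, s.map j.symm) =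
    (a, j (j.symm r), (s.map j.symm).map j) := rfl
  rw [h2, h1, j.apply_symm_apply]

theorem Wt_map (hj : ∀ b, vx' b = Q.vx (j b)) :
    (Q.on vx').Wt.map (wemb (Function.Embedding.refl E) j.toEmbedding) = Q.Wt := by
  ext p
  rw [Finset.mem_map]
  constructor
  · rintro ⟨p', hp', rfl⟩
    exact (wemb_mem (isSub_on j vx' hj) p').2 hp'
  · intro hp
    obtain ⟨p', rfl⟩ := wemb_surj j p
    exact ⟨p', (wemb_mem (isSub_on j vx' hj) p').1 hp, rfl⟩

theorem Prs_map (hj : ∀ b, vx' b = Q.vx (j b)) :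
    (Q.on vx').Prs.map (j.toEmbedding.prodMap j.toEmbedding) = Q.Prs := by
  ext p
  rw [Finset.mem_map]
  constructor
  · rintro ⟨p', hp', rfl⟩
    have h1 : vx' p'.1 = vx' p'.2 := (mem_Prs (Q.on vx')).1 hp'
    rw [hj, hj] at h1
    exact (mem_Prs Q).2 h1
  · intro hp
    refine ⟨(j.symm p.1, j.symm p.2), ?_, ?_⟩
    · rw [mem_Prs]
      have h1 : Q.vx p.1 = Q.vx p.2 := (mem_Prs Q).1 hp
      show vx' (j.symm p.1) = vx' (j.symm p.2)
      rw [hj, hj, j.apply_symm_apply, j.apply_symm_apply, h1]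
    · show (j (j.symm p.1), j (j.symm p.2)) = p
      rw [j.apply_symm_apply, j.apply_symm_apply]

theorem degE_congr (hj : ∀ b, vx' b = Q.vx (j b)) (lam : B → ℤ) :
    (Q.on vx').degE (fun b => lam (j b)) = Q.degE lam := by
  unfold QD.degE
  rw [← Wt_map j vx' hj, ← Prs_map j vx' hj, Finset.sum_map, Finset.sum_map]
  congr 1
  refine Finset.sum_congr rfl fun p _ => ?_
  obtain ⟨a, r, s⟩ := p
  cases s <;> rfl

theorem chg_congr (hj : ∀ b, vx' b = Q.vx (j b)) (lam : B → ℤ) (i : I) :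
    (Q.on vx').chg i (fun b => lam (j b)) = Q.chg i lam := by
  unfold QD.chg
  refine Finset.sum_equiv j ?_ (fun _ _ => rfl)
  intro b
  rw [Finset.mem_filter, Finset.mem_filter]
  have : (Q.on vx').vx b = Q.vx (j b) := hj b
  rw [this]
  simp

theorem Om_congr (hj : ∀ b, vx' b = Q.vx (j b)) (lam : B → ℤ) :
    (Q.on vx').Om (fun b => lam (j b)) ↔ Q.Om lam := by
  unfold QD.Om
  constructor
  · rintro ⟨h1, h2⟩
    refine ⟨fun b => ?_, fun i => ?_⟩
    · simpa using h1 (j.symm b)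
    · rw [← chg_congr j vx' hj]; exact h2 i
  · rintro ⟨h1, h2⟩
    refine ⟨fun b => h1 _, fun i => ?_⟩
    rw [chg_congr j vx' hj]; exact h2 i

/-- relabelling of index data -/
noncomputable def idx0E (hj : ∀ b, vx' b = Q.vx (j b)) : Q.Idx0 ≃ (Q.on vx').Idx0 where
  toFun x := ⟨(fun b => x.1.1 (j b), x.1.2.mapDomain j.symm), (Om_congr j vx' hj _).2 x.2.1,
    fun b hb => by
      show x.1.2.mapDomain j.symm b = 0
      rw [Finsupp.mapDomain_equiv_apply]
      exact x.2.2 _ hb⟩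
  invFun x := ⟨(fun b => x.1.1 (j.symm b), x.1.2.mapDomain j), by
      refine ⟨(Om_congr j vx' hj _).1 ?_, ?_⟩
      · have := x.2.1
        simpa using this
      · intro b hb
        show x.1.2.mapDomain j b = 0
        rw [Finsupp.mapDomain_equiv_apply]
        exact x.2.2 _ hb⟩
  left_inv x := by
    apply Subtype.ext
    apply Prod.ext
    · funext b
      show x.1.1 (j (j.symm b)) = x.1.1 b
      rw [j.apply_symm_apply]
    · show (x.1.2.mapDomain j.symm).mapDomain j = x.1.2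
      rw [← Finsupp.mapDomain_comp]
      simp [Finsupp.mapDomain_id]
  right_inv x := by
    apply Subtype.ext
    apply Prod.ext
    · funext b
      show x.1.1 (j.symm (j b)) = x.1.1 b
      rw [j.symm_apply_apply]
    · show (x.1.2.mapDomain j).mapDomain j.symm = x.1.2
      rw [← Finsupp.mapDomain_comp]
      simp [Finsupp.mapDomain_id]

/-- conjugate permutation -/
def conj (σ : Equiv.Perm B) : Equiv.Perm B' := j.trans (σ.trans j.symm)

theorem conj_apply (σ : Equiv.Perm B) (b : B') : conj j σ b = j.symm (σ (j b)) := rfl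

theorem conj_inv_apply (σ : Equiv.Perm B) (b : B') : (conj j σ)⁻¹ b = j.symm (σ⁻¹ (j b)) := rfl

theorem conj_mem (hj : ∀ b, vx' b = Q.vx (j b)) (σ : Equiv.Perm B) :
    conj j σ ∈ (Q.on vx').W ↔ σ ∈ Q.W := by
  constructor
  · intro h b
    have h1 : vx' (conj j σ (j.symm b)) = vx' (j.symm b) := h (j.symm b)
    rw [hj, hj, conj_apply, j.apply_symm_apply, j.apply_symm_apply] at h1
    exact h1
  · intro h b
    show vx' (conj j σ b) = vx' b
    rw [hj, hj, conj_apply, j.apply_symm_apply, h (j b)]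

theorem conj_surj (σ' : Equiv.Perm B') : ∃ σ : Equiv.Perm B, conj j σ = σ' := by
  refine ⟨j.symm.trans (σ'.trans j), ?_⟩
  ext b
  simp [conj_apply]

theorem exists_conj (hj : ∀ b, vx' b = Q.vx (j b)) (P : Equiv.Perm B' → Prop) :
    (∃ σ' ∈ (Q.on vx').W, P σ') ↔ ∃ σ ∈ Q.W, P (conj j σ) := by
  constructor
  · rintro ⟨σ', h1, h2⟩
    obtain ⟨σ, rfl⟩ := conj_surj j σ'
    exact ⟨σ, (conj_mem j vx' hj σ).1 h1, h2⟩
  · rintro ⟨σ, h1, h2⟩
    exact ⟨_, (conj_mem j vx' hj σ).2 h1, h2⟩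

theorem forall_conj (hj : ∀ b, vx' b = Q.vx (j b)) (P : Equiv.Perm B' → Prop) :
    (∀ σ' ∈ (Q.on vx').W, P σ') ↔ ∀ σ ∈ Q.W, P (conj j σ) := by
  constructor
  · intro h σ hσ
    exact h _ ((conj_mem j vx' hj σ).2 hσ)
  · intro h σ' hσ'
    obtain ⟨σ, rfl⟩ := conj_surj j σ'
    exact h σ ((conj_mem j vx' hj σ).1 hσ')

theorem rel_congr (hj : ∀ b, vx' b = Q.vx (j b)) (x y : Q.Idx0) :
    Q.idxSetoid x y ↔ (Q.on vx').idxSetoid (idx0E j vx' hj x) (idx0E j vx' hj y) := by
  show (∃ σ ∈ Q.W, y.1.1 = lact σ x.1.1 ∧ y.1.2 = x.1.2.mapDomain σ) ↔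
    (∃ σ' ∈ (Q.on vx').W, (fun b => y.1.1 (j b)) = lact σ' (fun b => x.1.1 (j b)) ∧
      y.1.2.mapDomain j.symm = (x.1.2.mapDomain j.symm).mapDomain σ')
  rw [exists_conj j vx' hj]
  refine exists_congr fun σ => and_congr_right fun hσ => and_congr ?_ ?_
  · constructor
    · intro h
      funext b
      rw [h]
      simp [lact, conj_inv_apply]
    · intro h
      funext b
      have := congrFun h (j.symm b)
      simpa [lact, conj_inv_apply] using this
  · have h1 : (x.1.2.mapDomain j.symm).mapDomain (conj j σ) =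
        (x.1.2.mapDomain σ).mapDomain j.symm := by
      rw [← Finsupp.mapDomain_comp, ← Finsupp.mapDomain_comp]
      congr 1
      funext b
      simp [conj_apply]
    rw [h1]
    exact (Finsupp.mapDomain_injective j.symm.injective).eq_iff.symm

theorem sum_mapDomain {B₁ B₂ : Type*} (f : B₁ → B₂) (m : B₁ →₀ ℕ) :
    ((m.mapDomain f).sum fun _ n => n) = m.sum fun _ n => n :=
  Finsupp.sum_mapDomain_index (fun _ => rfl) (fun _ _ _ => rfl)

theorem deg0_idx0E (hj : ∀ b, vx' b = Q.vx (j b)) (x : Q.Idx0) :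
    (Q.on vx').deg0 (idx0E j vx' hj x) = Q.deg0 x := by
  have h1 := degE_congr j vx' hj x.1.1
  have h2 := sum_mapDomain j.symm x.1.2
  show (Q.on vx').degE (fun b => x.1.1 (j b)) +
    (((x.1.2.mapDomain j.symm).sum fun _ n => n : ℕ) : ℤ) = _
  rw [h1, h2]
  rfl

end congr

theorem degE_lact {σ : Equiv.Perm B} (hσ : σ ∈ Q.W) (lam : B → ℤ) :
    Q.degE (lact σ lam) = Q.degE lam := by
  have hσ' := Q.W.inv_mem hσ
  exact degE_congr (Q := Q) σ⁻¹ Q.vx (fun b => (hσ' b).symm) lam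

theorem deg0_inv {x y : Q.Idx0} (h : Q.idxSetoid x y) : Q.deg0 x = Q.deg0 y := by
  obtain ⟨σ, hσ, h1, h2⟩ := h
  unfold QD.deg0
  rw [h1, h2, degE_lact Q hσ, sum_mapDomain]

theorem degI_mk (x : Q.Idx0) : Q.degI (Quotient.mk _ x) = Q.deg0 x := by
  unfold QD.degI
  exact deg0_inv Q (Quotient.mk_out (s := Q.idxSetoid) x)

end N2f

/-- relabelling of boxes -/
theorem mul_congr {B' : Type*} [Fintype B'] [DecidableEq B'] (j : B' ≃ B) (vx' : B' → I)
    (hj : ∀ b, vx' b = Q.vx (j b)) (e : ℤ) : (Q.on vx').mul e = Q.mul e := by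
  let F : Q.Idx ≃ (Q.on vx').Idx := Quotient.congr (idx0E j vx' hj) (rel_congr j vx' hj)
  unfold QD.mul
  refine (Nat.card_congr (Equiv.subtypeEquiv F ?_)).symm
  intro x
  induction x using Quotient.inductionOn with
  | h x =>
    have h1 : F (Quotient.mk _ x) = Quotient.mk _ (idx0E j vx' hj x) := rfl
    rw [h1, N2f.degI_mk, N2f.degI_mk, deg0_idx0E]


namespace N2f

theorem sS_rename {B' : Type*} (j : B' ↪ B) (f : SS B' Λ) :
    S.sS B (rename j f) = rename j (S.sS B' f) := by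
  induction f using MvPolynomial.induction_on with
  | C c => rw [rename_C, Scal.sS_C, Scal.sS_C, rename_C]
  | add p q hp hq => rw [map_add, map_add, map_add, map_add, hp, hq]
  | mul_X p b hp =>
    rw [map_mul, map_mul, map_mul, map_mul, hp, rename_X, Scal.sS_X, Scal.sS_X, map_mul,
      rename_X, map_ofNat]

theorem sK_emb {B' : Type*} (j : B' ↪ B) (f : KK B' Λ) :
    S.sK B (emb j f) = emb j (S.sK B' f) := by
  obtain ⟨p, q, hq, rfl⟩ := IsFractionRing.div_surjective (A := SS B' Λ) f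
  have h1 : ∀ p : SS B' Λ, S.sK B (emb j (toK p)) = emb j (S.sK B' (toK p)) := by
    intro p
    rw [emb_toK, Scal.sK_toK, Scal.sK_toK, emb_toK, sS_rename]
  simp only [map_div₀]
  exact congrArg₂ _ (h1 p) (h1 q)

theorem emb_hom {B' : Type*} (j : B' ↪ B) (d : ℤ) (f : KK B' Λ) :
    S.Hom d (emb j f) ↔ S.Hom d f := by
  unfold Scal.Hom
  have h2 : (2 : KK B Λ) ^ d = emb j ((2 : KK B' Λ) ^ d) := by
    rw [map_zpow₀, map_ofNat]
  rw [sK_emb, h2, ← map_mul]
  exact (RingHom.injective (emb (Λ := Λ) j)).eq_iff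

section congr2

variable {Q} {B' : Type*} [Fintype B'] [DecidableEq B'] (j : B' ≃ B) (vx' : B' → I)

theorem R_congr (hj : ∀ b, vx' b = Q.vx (j b)) (f : SS B' Λ) :
    f ∈ (Q.on vx').R ↔ rename j f ∈ Q.R := by
  show (∀ σ' ∈ (Q.on vx').W, rename σ' f = f) ↔ ∀ σ ∈ Q.W, rename σ (rename j f) = rename j f
  rw [forall_conj j vx' hj]
  refine forall_congr' fun σ => imp_congr_right fun _ => ?_
  have h1 : rename σ (rename j f) = rename j (rename (conj j σ) f) := by
    rw [rename_rename, rename_rename]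
    congr 2
    funext b
    simp [conj_apply]
  rw [h1]
  exact (rename_injective _ j.injective).eq_iff.symm

theorem D_congr (hj : ∀ b, vx' b = Q.vx (j b)) : rename j (Q.on vx').D = Q.D := by
  unfold QD.D
  have h1 : Q.Prs.filter (fun p => p.1 ≠ p.2) =
      ((Q.on vx').Prs.filter (fun p => p.1 ≠ p.2)).map (j.toEmbedding.prodMap j.toEmbedding) := by
    rw [← Prs_map j vx' hj, Finset.filter_map]
    congr 1
    refine Finset.filter_congr fun p _ => ?_
    simp
  rw [h1, Finset.prod_map, map_prod]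
  refine Finset.prod_congr rfl fun p _ => ?_
  simp

theorem cut_congr (hj : ∀ b, vx' b = Q.vx (j b)) (U' : Finset B') :
    rename j ((Q.on vx').cut U') = Q.cut (U'.map j.toEmbedding) := by
  unfold QD.cut
  rw [← Wt_map j vx' hj, Finset.filter_map, Finset.prod_map, map_prod]
  refine Finset.prod_congr ?_ fun p _ => rename_xi' (isSub_on j vx' hj) p
  refine Finset.filter_congr fun p _ => ?_
  obtain ⟨a, r, s⟩ := p
  have h1 : (∃ b ∈ U', s = some b) ↔ ∃ b ∈ U'.map j.toEmbedding, s.map j = some b := by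
    cases s with
    | none => simp
    | some s => simp
  have h2 : r ∈ U' ↔ j r ∈ U'.map j.toEmbedding := by simp
  show (¬ (r ∈ U' ↔ ∃ b ∈ U', s = some b)) ↔
    ¬ (j r ∈ U'.map j.toEmbedding ↔ ∃ b ∈ U'.map j.toEmbedding, s.map j = some b)
  rw [h1, ← h2]

theorem IT_congr (hj : ∀ b, vx' b = Q.vx (j b)) (f : SS B' Λ) :
    f ∈ (Q.on vx').IT ↔ rename j f ∈ Q.IT := by
  have h1 : Q.IT = Ideal.map (renameEquiv Λ j : SS B' Λ ≃ₐ[Λ] SS B Λ) (Q.on vx').IT := by
    unfold QD.IT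
    rw [Ideal.map_span]
    congr 1
    ext g
    constructor
    · rintro ⟨U, hU, rfl⟩
      have h2 : U = (U.map j.symm.toEmbedding).map j.toEmbedding := by
        ext b
        simp
      refine ⟨_, ⟨U.map j.symm.toEmbedding, by simpa using hU, rfl⟩, ?_⟩
      show rename j _ = _
      rw [cut_congr j vx' hj, ← h2]
    · rintro ⟨_, ⟨U', hU', rfl⟩, rfl⟩
      exact ⟨U'.map j.toEmbedding, by simpa using hU', cut_congr j vx' hj U'⟩
  rw [h1]
  constructor
  · intro hf
    exact Ideal.mem_map_of_mem (renameEquiv Λ j : SS B' Λ ≃ₐ[Λ] SS B Λ) hf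
  · intro hf
    obtain ⟨g, hg, hgf⟩ := (Ideal.mem_map_iff_of_surjective
      (renameEquiv Λ j : SS B' Λ ≃ₐ[Λ] SS B Λ) (renameEquiv Λ j).surjective).1 hf
    have : g = f := rename_injective _ j.injective hgf
    rw [← this]; exact hg

theorem JD_congr (hj : ∀ b, vx' b = Q.vx (j b)) (f : SS B' Λ) :
    f ∈ (Q.on vx').JD ↔ rename j f ∈ Q.JD := by
  show (f ∈ (Q.on vx').R ∧ (Q.on vx').D * f ∈ (Q.on vx').IT) ↔
    (rename j f ∈ Q.R ∧ Q.D * rename j f ∈ Q.IT)
  rw [R_congr j vx' hj, IT_congr j vx' hj, map_mul, D_congr j vx' hj]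

end congr2

end N2f

theorem hH_congr {B' : Type*} [Fintype B'] [DecidableEq B'] (j : B' ≃ B) (vx' : B' → I)
    (hj : ∀ b, vx' b = Q.vx (j b)) (d : ℤ) : (Q.on vx').hH S d = Q.hH S d := by
  unfold QD.hH
  let e : SS B' Λ ≃ₗ[k] SS B Λ := (renameEquiv Λ j).toLinearEquiv.restrictScalars k
  have he : ∀ f, e f = rename j f := fun _ => rfl
  have hom : ∀ f : SS B' Λ, f ∈ S.homS B' d ↔ e f ∈ S.homS B d := by
    intro f
    show S.Hom d (toK f) ↔ S.Hom d (toK (rename j f))
    rw [← N2f.emb_hom S j.toEmbedding, N2f.emb_toK]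
    rfl
  have h1 : (Submodule.map (e : SS B' Λ →ₗ[k] SS B Λ) ((Q.on vx').Rd S d)) = Q.Rd S d := by
    ext f
    rw [Submodule.mem_map]
    constructor
    · rintro ⟨g, hg, rfl⟩
      exact ⟨(R_congr j vx' hj g).1 hg.1, (hom g).1 hg.2⟩
    · intro hf
      refine ⟨e.symm f, ⟨(R_congr j vx' hj _).2 ?_, (hom _).2 ?_⟩, e.apply_symm_apply f⟩
      · rw [← he, e.apply_symm_apply]; exact hf.1
      · rw [e.apply_symm_apply]; exact hf.2
  let F := e.ofSubmodules _ _ h1
  refine (Submodule.Quotient.equiv _ _ F ?_).finrank_eq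
  ext f
  rw [Submodule.mem_map]
  constructor
  · rintro ⟨g, hg, rfl⟩
    have hg' : (g : SS B' Λ) ∈ (Q.on vx').Jd S d := hg
    show (F g : SS B Λ) ∈ Q.Jd S d
    exact ⟨(JD_congr j vx' hj g).1 hg'.1, (hom _).1 hg'.2⟩
  · intro hf
    refine ⟨F.symm f, ?_, F.apply_symm_apply f⟩
    have hf' : (f : SS B Λ) ∈ Q.Jd S d := hf
    show (F.symm f : SS B' Λ) ∈ (Q.on vx').Jd S d
    have h3 : e (F.symm f : SS B' Λ) = f := congrArg Subtype.val (F.apply_symm_apply f)
    refine ⟨(JD_congr j vx' hj _).2 ?_, (hom _).2 ?_⟩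
    · rw [← he, h3]; exact hf'.1
    · rw [h3]; exact hf'.2

end Vale.Agent.P291
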