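import Vale.Agent.P291.HCore
import Vale.Agent.P291.B1Blk
import Vale.Agent.P291.B2Blk
import Vale.Agent.P291.FBlk
import Vale.Agent.P291.IIbBlk

/-!
# P291, Hilbert series, block N1a: `L(Q)` and `J_D` through the symmetrised Hall terms
-/

set_option linter.unusedSectionVars false

open MvPolynomial

namespace Vale.Agent.P291

variable {I E B Λ : Type*} [Fintype E] [DecidableEq I] [Fintype B] [DecidableEq B] [CommRing Λ]
  [IsDomain Λ]
variable (Q : QD I E B Λ)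

namespace HN1a

theorem smul_KK (c : Λ) (f : KK B Λ) : c • f = toK (C c) * f := by
  rw [Algebra.smul_def, IsScalarTower.algebraMap_apply Λ (SS B Λ) (KK B Λ)]
  rfl

theorem act_smulK (σ : Equiv.Perm B) (c : Λ) (f : KK B Λ) : act σ (c • f) = c • act σ f := by
  rw [smul_KK, smul_KK, map_mul, act_toK, rename_C]

theorem kap_zero : Q.kap (0 : B → ℕ) = 1 := by
  have h1 : ∀ o : Option B, o.elim 0 (0 : B → ℕ) = 0 := by
    intro o; cases o <;> rfl
  have h2 : Q.numG (0 : B → ℕ) = 1 := by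
    unfold QD.numG
    rw [Finset.filter_false_of_mem, Finset.prod_empty]
    intro p _
    rw [h1]
    simp
  have h3 : Q.denG (0 : B → ℕ) = 1 := by
    unfold QD.denG
    rw [Finset.filter_false_of_mem, Finset.prod_empty]
    intro p _
    simp
  unfold QD.kap
  rw [h2, h3]
  simp [toK]

theorem card_Wf_ne : (Q.Wf.card : ℕ) ≠ 0 :=
  Finset.card_ne_zero_of_mem (a := (1 : Equiv.Perm B)) (by simp [QD.Wf])

/-- averaging -/
theorem average [Algebra ℚ Λ] {f : KK B Λ} (hf : ∀ σ ∈ Q.W, act σ f = f)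
    {ι : Type*} (t : Finset ι) (a : ι → SS B Λ) (g : ι → B → ℕ)
    (h : f = ∑ i ∈ t, toK (a i) * Q.kap (g i)) :
    f = algebraMap ℚ Λ (1 / (Q.Wf.card : ℚ)) • ∑ i ∈ t, Q.hall (g i) (a i) := by
  have h1 : ∑ i ∈ t, Q.hall (g i) (a i) = (Q.Wf.card : KK B Λ) * f := by
    unfold QD.hall
    rw [Finset.sum_comm]
    have h2 : ∀ σ ∈ Q.Wf, ∑ i ∈ t, act σ (toK (a i) * Q.kap (g i)) = f := by
      intro σ hσ
      rw [← map_sum, ← h, hf σ ((mem_Wf Q).1 hσ)]
    rw [Finset.sum_congr rfl h2]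
    simp
  rw [h1, smul_KK, ← mul_assoc]
  have h3 : toK (C (algebraMap ℚ Λ (1 / (Q.Wf.card : ℚ))) : SS B Λ) * (Q.Wf.card : KK B Λ) = 1 := by
    have h4 : (Q.Wf.card : KK B Λ) = toK (C (algebraMap ℚ Λ (Q.Wf.card : ℚ)) : SS B Λ) := by
      rw [map_natCast, map_natCast]
      simp [toK]
    rw [h4, ← map_mul, ← map_mul, ← map_mul, one_div, inv_mul_cancel₀
      (Nat.cast_ne_zero.2 (card_Wf_ne Q)), map_one, map_one, map_one]
  rw [h3, one_mul]

theorem mem_LL_of [Algebra ℚ Λ] {f : KK B Λ} (hf : ∀ σ ∈ Q.W, act σ f = f)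
    {ι : Type*} (t : Finset ι) (a : ι → SS B Λ) (g : ι → B → ℕ)
    (h : f = ∑ i ∈ t, toK (a i) * Q.kap (g i)) : f ∈ Q.LL := by
  rw [average Q hf t a g h]
  exact Submodule.smul_mem _ _ (Submodule.sum_mem _ fun i _ =>
    Submodule.subset_span ⟨g i, a i, rfl⟩)

theorem mem_UU_of [Algebra ℚ Λ] {f : KK B Λ} (hf : ∀ σ ∈ Q.W, act σ f = f)
    {ι : Type*} (t : Finset ι) (a : ι → SS B Λ) (g : ι → B → ℕ) (hg : ∀ i ∈ t, g i ≠ 0)
    (h : f = ∑ i ∈ t, toK (a i) * Q.kap (g i)) : f ∈ Q.UU := by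
  rw [average Q hf t a g h]
  exact Submodule.smul_mem _ _ (Submodule.sum_mem _ fun i hi =>
    Submodule.subset_span ⟨g i, a i, hg i hi, rfl⟩)

theorem A01_add {z z' : AA B Λ} (hz : Q.A01 z) (hz' : Q.A01 z') : Q.A01 (z + z') := by
  refine ⟨Subalgebra.add_mem _ hz.1 hz'.1, fun mu hmu => ?_⟩
  by_cases h : z.coeff mu = 0
  · refine hz'.2 mu fun h' => hmu ?_
    rw [AddMonoidAlgebra.coeff_add, Finsupp.add_apply, h, h', add_zero]
  · exact hz.2 mu h

theorem A01_zero : Q.A01 (0 : AA B Λ) :=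
  ⟨Subalgebra.zero_mem _, fun mu hmu => absurd (by simp) hmu⟩

theorem A01_smul {z : AA B Λ} (hz : Q.A01 z) (c : Λ) : Q.A01 (c • z) := by
  refine ⟨Subalgebra.smul_mem _ hz.1 c, fun mu hmu => hz.2 mu fun h => hmu ?_⟩
  rw [AddMonoidAlgebra.coeff_smul, Finsupp.smul_apply, h, smul_zero]

theorem Om_zero : Q.Om (0 : B → ℤ) :=
  ⟨fun _ => zero_le_one, fun i => by simp [QD.chg]⟩

theorem A01_cst {r : SS B Λ} (hr : r ∈ Q.R) : Q.A01 (QD.cst r) := by
  refine ⟨cst_mem Q hr, fun mu hmu => ?_⟩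
  by_cases h : mu = 0
  · rw [h]; exact Om_zero Q
  · exact absurd (by simp [QD.cst, Finsupp.single_eq_of_ne h]) hmu

/-- every symmetrised Hall term is the constant coefficient of an element of `A01` -/
theorem hall_lift [Algebra ℚ Λ] (g : B → ℕ) (s : SS B Λ) :
    ∃ z, Q.A01 z ∧ z.coeff 0 = Q.hall g s := by
  by_cases hg : g = 0
  · subst hg
    refine ⟨QD.cst (∑ σ ∈ Q.Wf, rename σ s), A01_cst Q ?_, ?_⟩
    · intro ρ hρ
      rw [map_sum]
      refine Finset.sum_equiv (Equiv.mulLeft ρ) (fun σ => ?_) (fun σ _ => ?_)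
      · rw [mem_Wf, mem_Wf, Equiv.coe_mulLeft]
        exact ((Subgroup.mul_mem_cancel_left _ hρ)).symm
      · rw [rename_rename]; rfl
    · unfold QD.hall
      rw [kap_zero]
      simp only [QD.cst, mul_one, act_toK]
      rw [← map_sum]
      simp
  · obtain ⟨y, hyA, -, h1, h2⟩ := kap_lift Q g hg s
    exact ⟨y, ⟨hyA, h1⟩, h2⟩

/-- `z.coeff 0` is in the span of the `kap g` -/
theorem coeff_zero_kap [Algebra ℚ Λ] (hQ : Q.NonzeroLoops) {z : AA B Λ} (hz : Q.A01 z) :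
    z.coeff 0 ∈ Submodule.span (SS B Λ) (Set.range Q.kap) := by
  classical
  obtain ⟨N, hN⟩ : ∃ N : ℤ, ∀ mu, z.coeff mu ≠ 0 → nrm mu ≤ N := by
    refine ⟨∑ mu ∈ z.coeff.support, nrm mu, fun mu hmu => ?_⟩
    exact Finset.single_le_sum (f := fun mu => nrm mu) (fun mu _ => FB.nrm_nonneg mu)
      (Finsupp.mem_support_iff.2 hmu)
  obtain ⟨r, hr, s, τ, h1, -, h3⟩ := F1 Q hQ (H216.Om Q) (H216.Om_closed Q) hz.1
    (fun mu hmu => hz.2 mu hmu) N hN
  have hk : ∀ g : B → ℕ, Q.kap g ∈ Submodule.span (SS B Λ) (Set.range Q.kap) :=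
    fun g => Submodule.subset_span ⟨g, rfl⟩
  have h4 : z.coeff 0 = toK r + ∑ lam ∈ s, (Q.MT (len lam) (τ lam)).coeff 0 := by
    rw [h3, AddMonoidAlgebra.coeff_add, Finsupp.add_apply, AddMonoidAlgebra.coeff_sum,
      Finsupp.finsetSum_apply]
    simp [QD.cst]
  rw [h4]
  refine Submodule.add_mem _ ?_ (Submodule.sum_mem _ fun lam hlam => ?_)
  · have h5 : toK r = r • Q.kap (0 : B → ℕ) := by
      rw [kap_zero, Algebra.smul_def, mul_one]
    rw [h5]
    exact Submodule.smul_mem _ _ (hk _)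
  · obtain ⟨hl0, hlO, -, hD, hS⟩ := h1 lam hlam
    rw [MT_coeff]
    refine Submodule.sum_mem _ fun V hV => ?_
    by_cases hτ : τ lam V = 0
    · rw [hτ]; simp
    · obtain ⟨jj, h5, h6⟩ := H216.tuple_jj Q hlO hl0 V (hS V hτ) (Finset.mem_filter.1 hV).2
      rw [H216.prod_e Q V jj h5 (H216.gcol V) (H216.gO_gcol_inj V jj h5 h6)]
      have h7 : toK (τ lam V) * Q.kap (H216.gcol V) = τ lam V • Q.kap (H216.gcol V) := by
        rw [Algebra.smul_def]
      rw [h7]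
      exact Submodule.smul_mem _ _ (hk _)

theorem span_kap {f : KK B Λ} (hf : f ∈ Submodule.span (SS B Λ) (Set.range Q.kap)) :
    ∃ c : (B → ℕ) →₀ SS B Λ, f = ∑ g ∈ c.support, toK (c g) * Q.kap g := by
  obtain ⟨c, hc⟩ := (Finsupp.mem_span_range_iff_exists_finsupp).1 hf
  refine ⟨c, ?_⟩
  rw [← hc, Finsupp.sum]
  exact Finset.sum_congr rfl fun g _ => Algebra.smul_def _ _

theorem coeff_zero_inv {z : AA B Λ} (hz : z ∈ Q.A) : ∀ σ ∈ Q.W, act σ (z.coeff 0) = z.coeff 0 :=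
  fun _ hσ => (A_inv Q hz hσ 0).symm

end HN1a

open HN1a in
/-- (N1a) -/
theorem LL_iff [Algebra ℚ Λ] (hQ : Q.NonzeroLoops) {f : KK B Λ} :
    f ∈ Q.LL ↔ ∃ z, Q.A01 z ∧ z.coeff 0 = f := by
  constructor
  · intro hf
    unfold QD.LL at hf
    induction hf using Submodule.span_induction with
    | mem x hx =>
      obtain ⟨g, s, rfl⟩ := hx
      exact hall_lift Q g s
    | zero => exact ⟨0, A01_zero Q, by simp⟩
    | add x y _ _ hx hy =>
      obtain ⟨z, hz, rfl⟩ := hx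
      obtain ⟨z', hz', rfl⟩ := hy
      exact ⟨z + z', A01_add Q hz hz', by
        rw [AddMonoidAlgebra.coeff_add, Finsupp.add_apply]⟩
    | smul c x _ hx =>
      obtain ⟨z, hz, rfl⟩ := hx
      exact ⟨c • z, A01_smul Q hz c, by
        rw [AddMonoidAlgebra.coeff_smul, Finsupp.smul_apply]⟩
  · rintro ⟨z, hz, rfl⟩
    obtain ⟨c, hc⟩ := span_kap Q (coeff_zero_kap Q hQ hz)
    exact mem_LL_of Q (coeff_zero_inv Q hz.1) c.support c (fun g => g) hc

namespace HN1a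

theorem act_D {σ : Equiv.Perm B} (hσ : σ ∈ Q.W) : rename σ Q.D = Q.D := by
  unfold QD.D
  rw [map_prod]
  refine Finset.prod_equiv (Equiv.prodCongr σ σ) ?_ ?_
  · intro p
    simp [QD.Prs, (mem_W Q).1 hσ]
  · intro p _
    simp

theorem rename_cut {σ : Equiv.Perm B} (hσ : σ ∈ Q.W) (U : Finset B) :
    rename σ (Q.cut U) = Q.cut (U.map σ.toEmbedding) := by
  unfold QD.cut
  rw [map_prod]
  refine Finset.prod_equiv (wtEquiv σ) ?_ ?_
  · intro p
    simp only [Finset.mem_filter, wtEquiv_mem Q hσ p]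
    have h1 : (wtEquiv σ p).2.1 ∈ U.map σ.toEmbedding ↔ p.2.1 ∈ U := by
      simp [wtEquiv]
    have h2 : (∃ b ∈ U.map σ.toEmbedding, (wtEquiv σ p).2.2 = some b) ↔
        ∃ b ∈ U, p.2.2 = some b := by
      obtain ⟨a, r, o⟩ := p
      cases o with
      | none => simp [wtEquiv]
      | some c => simp [wtEquiv]
    rw [h1, h2]
  · intro p _
    rw [rename_xi]

theorem rename_IT {σ : Equiv.Perm B} (hσ : σ ∈ Q.W) {f : SS B Λ} (hf : f ∈ Q.IT) :
    rename σ f ∈ Q.IT := by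
  have h1 : Q.IT ≤ Q.IT.comap (rename σ : SS B Λ →ₐ[Λ] SS B Λ) := by
    conv_lhs => unfold QD.IT
    rw [Ideal.span_le]
    rintro _ ⟨U, hU, rfl⟩
    rw [SetLike.mem_coe, Ideal.mem_comap, rename_cut Q hσ]
    exact Ideal.subset_span ⟨_, hU.map, rfl⟩
  exact h1 hf

theorem cut_dvd (g : B → ℕ) (b0 : B) (h0 : g b0 ≠ 0) :
    Q.cut (Finset.univ.filter fun b => g b = g b0) ∣ Q.numG g := by
  unfold QD.cut QD.numG
  refine Finset.prod_dvd_prod_of_subset _ _ _ ?_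
  intro p hp
  rw [Finset.mem_filter] at hp ⊢
  refine ⟨hp.1, fun h => hp.2 ?_⟩
  simp only [Finset.mem_filter, Finset.mem_univ, true_and]
  obtain ⟨a, r, o⟩ := p
  cases o with
  | none =>
    have h' : g r = 0 := h
    constructor
    · intro h1
      exact absurd (h1.symm.trans h') h0
    · rintro ⟨b, -, h2⟩
      exact absurd h2 (by simp)
  | some c =>
    have h' : g r = g c := h
    constructor
    · intro h1
      exact ⟨c, h'.symm.trans h1, rfl⟩
    · rintro ⟨b, hb, h2⟩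
      have h3 : c = b := Option.some_injective _ h2
      rw [h3] at h'
      exact h'.trans hb

theorem PG_mem (g : B → ℕ) (hg : g ≠ 0) : H216.PG Q g ∈ Q.IT := by
  classical
  obtain ⟨b0, hb0⟩ : ∃ b0, g b0 ≠ 0 := by
    by_contra h
    push Not at h
    exact hg (funext h)
  unfold H216.PG
  refine Ideal.mul_mem_left _ _ ?_
  obtain ⟨c, hc⟩ := cut_dvd Q g b0 hb0
  rw [hc]
  exact Ideal.mul_mem_right _ _ (Ideal.subset_span ⟨_, ⟨b0, by simp⟩, rfl⟩)

end HN1a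

open HN1a in
/-- (N1a') -/
theorem JD_iff [Algebra ℚ Λ] (hQ : Q.NonzeroLoops) {f : SS B Λ} (hf : f ∈ Q.R) :
    f ∈ Q.JD ↔ toK f ∈ Q.UU := by
  constructor
  · intro h
    obtain ⟨s, a, hs, h1⟩ := JD_span Q h.2
    refine mem_UU_of Q (fun σ hσ => ?_) s a (fun g => g) hs h1
    rw [act_toK, hf σ hσ]
  · intro h
    refine ⟨hf, ?_⟩
    have h1 : ∀ x ∈ Q.UU, ∃ y ∈ Q.IT, toK Q.D * x = toK y := by
      intro x hx
      unfold QD.UU at hx
      induction hx using Submodule.span_induction with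
      | mem x hx =>
        obtain ⟨g, s, hg, rfl⟩ := hx
        refine ⟨∑ σ ∈ Q.Wf, rename σ (s * H216.PG Q g), Ideal.sum_mem _ fun σ hσ =>
          rename_IT Q ((mem_Wf Q).1 hσ) (Ideal.mul_mem_left _ _ (PG_mem Q g hg)), ?_⟩
        unfold QD.hall
        have h5 : toK (∑ σ ∈ Q.Wf, rename σ (s * H216.PG Q g)) =
            ∑ σ ∈ Q.Wf, toK (rename σ (s * H216.PG Q g)) := map_sum _ _ _
        rw [Finset.mul_sum, h5]
        refine Finset.sum_congr rfl fun σ hσ => ?_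
        rw [← act_toK, H216.toK_mul, ← H216.D_mul_kap, map_mul, map_mul, map_mul,
          act_toK, act_toK, act_D Q ((mem_Wf Q).1 hσ)]
        ring
      | zero => exact ⟨0, Ideal.zero_mem _, by simp [toK]⟩
      | add x y _ _ hx hy =>
        obtain ⟨p, hp, h2⟩ := hx
        obtain ⟨q, hq, h3⟩ := hy
        exact ⟨p + q, Ideal.add_mem _ hp hq, by rw [mul_add, h2, h3, toK, toK, toK, map_add]⟩
      | smul c x _ hx =>
        obtain ⟨p, hp, h2⟩ := hx
        refine ⟨C c * p, Ideal.mul_mem_left _ _ hp, ?_⟩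
        rw [smul_KK, H216.toK_mul, ← h2]
        ring
    obtain ⟨y, hy, h2⟩ := h1 _ h
    rw [← H216.toK_mul, H216.toK_inj] at h2
    rw [h2]
    exact hy

end Vale.Agent.P291
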