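import Vale.Agent.P291.H846.LLB
import Vale.Agent.P291.HN1aBlk

/-!
# P291: block N1d
-/

set_option linter.unusedSectionVars false

open MvPolynomial

namespace Vale.Agent.P291

variable {I E B Λ k : Type*} [Fintype E] [DecidableEq I] [Fintype B] [DecidableEq B] [CommRing Λ]
  [IsDomain Λ] [Field k] [CharZero k] [Algebra k Λ]
variable (Q : QD I E B Λ) (S : Scal k Λ)

theorem degI_mk (x : Q.Idx0) : Q.degI (Quotient.mk _ x) = Q.deg0 x := by
  unfold QD.degI QD.deg0
  obtain ⟨σ, hσ, h1, h2⟩ := Quotient.mk_out (s := Q.idxSetoid) x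
  rw [h1, h2]
  have h3 : Q.degE (lact σ (Quotient.out (Quotient.mk Q.idxSetoid x)).1.1) =
      Q.degE (Quotient.out (Quotient.mk Q.idxSetoid x)).1.1 := H846.dege_lact hσ _
  have h4 := H846.mdeg_mapDomain σ (Quotient.out (Quotient.mk Q.idxSetoid x)).1.2
  unfold H846.mdeg at h4
  rw [h3, h4]

/-- (N1d) the basis theorem for `L(Q)` -/
theorem LL_basis [Algebra ℚ Λ] (hS : Q.Lin S) (hQ : Q.NonzeroLoops) :
    ∃ β : Q.Idx → KK B Λ, (∀ x, S.Hom (Q.degI x) (β x)) ∧ LinearIndependent Λ β ∧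
      Submodule.span Λ (Set.range β) = Q.LL := by
  choose EE hE hE' using fun x => H846.exists_EE (Q := Q) (S := S) hS hQ x
  refine ⟨fun x => (EE x).coeff 0, hE', H846.indep_EE hQ hE, le_antisymm ?_ ?_⟩
  · rw [Submodule.span_le]
    rintro _ ⟨x, rfl⟩
    exact (LL_iff Q hQ).mpr ⟨EE x, (hE x).cc, rfl⟩
  · intro f hf
    obtain ⟨z, hz, rfl⟩ := (LL_iff Q hQ).mp hf
    obtain ⟨N, hN⟩ : ∃ N : ℕ, ∀ mu, z.coeff mu ≠ 0 → nrm mu < N := by
      classical
      obtain ⟨M, hM⟩ := (z.coeff.support.image fun mu => (nrm mu).toNat).bddAbove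
      refine ⟨M + 1, fun mu hmu => ?_⟩
      have h1 : (nrm mu).toNat ≤ M := hM (by
        rw [Finset.mem_coe, Finset.mem_image]
        exact ⟨mu, Finsupp.mem_support_iff.mpr hmu, rfl⟩)
      have h2 := H846.nrm_nonneg mu
      push_cast
      omega
    exact H846.span_EE hQ hE N _ z hz hN rfl

/-- entries of cocharacters in `Om` are bounded below -/
theorem Om_ge {lam : B → ℤ} (h : Q.Om lam) (b : B) : -(Fintype.card B : ℤ) ≤ lam b := by
  have h1 := h.2 (Q.vx b)
  unfold QD.chg at h1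
  have hb : b ∈ Finset.univ.filter fun c => Q.vx c = Q.vx b := by simp
  rw [← Finset.add_sum_erase _ _ hb] at h1
  have h2 : ∑ c ∈ (Finset.univ.filter fun c => Q.vx c = Q.vx b).erase b, lam c ≤
      ∑ c ∈ (Finset.univ.filter fun c => Q.vx c = Q.vx b).erase b, 1 :=
    Finset.sum_le_sum fun c _ => h.1 c
  rw [Finset.sum_const, nsmul_eq_mul, mul_one] at h2
  have h3 : ((Finset.univ.filter fun c => Q.vx c = Q.vx b).erase b).card ≤ Fintype.card B :=
    Finset.card_le_univ _
  have h4 : (((Finset.univ.filter fun c => Q.vx c = Q.vx b).erase b).card : ℤ) ≤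
    Fintype.card B := by exact_mod_cast h3
  linarith

theorem Om_finite : {lam : B → ℤ | Q.Om lam}.Finite := by
  refine (Set.Finite.pi' (t := fun _ : B => Set.Icc (-(Fintype.card B : ℤ)) 1)
    (fun _ => Set.finite_Icc _ _)).subset ?_
  intro lam h b
  exact ⟨Om_ge Q h b, h.1 b⟩

/-- (N1e) finiteness of the index set in each degree, bounded below -/
theorem Idx_bdd : ∃ c : ℤ, ∀ x : Q.Idx, c ≤ Q.degI x := by
  obtain ⟨c, hc⟩ := ((Om_finite Q).image Q.degE).bddBelow
  refine ⟨c, fun x => ?_⟩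
  unfold QD.degI QD.deg0
  have h1 : c ≤ Q.degE (Quotient.out x).1.1 := hc ⟨_, (Quotient.out x).2.1, rfl⟩
  have h2 : (0 : ℤ) ≤ (((Quotient.out x).1.2.sum fun _ n => n : ℕ) : ℤ) := by positivity
  linarith

theorem Idx_fin (e : ℤ) : {x : Q.Idx | Q.degI x = e}.Finite := by
  obtain ⟨c, hc⟩ := ((Om_finite Q).image Q.degE).bddBelow
  -- the monomials have bounded degree
  have hfin : {m : B →₀ ℕ | ((m.sum fun _ n => n : ℕ) : ℤ) ≤ e - c}.Finite := by
    have h1 : (Set.pi Set.univ fun _ : B => Set.Iic (e - c).toNat).Finite :=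
      Set.Finite.pi fun _ => Set.finite_Iic _
    refine Set.Finite.of_finite_image (f := fun m : B →₀ ℕ => (m : B → ℕ)) (h1.subset ?_)
      (fun a _ b _ h => DFunLike.coe_injective h)
    rintro _ ⟨m, hm, rfl⟩ b _
    have h2 : m b ≤ m.sum fun _ n => n := by
      by_cases hb : b ∈ m.support
      · exact Finset.single_le_sum (f := fun b => m b) (fun _ _ => Nat.zero_le _) hb
      · rw [Finsupp.notMem_support_iff] at hb
        rw [hb]; exact Nat.zero_le _
    simp only [Set.mem_Iic]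
    have h3 : ((m b : ℕ) : ℤ) ≤ ((m.sum fun _ n => n : ℕ) : ℤ) := by exact_mod_cast h2
    have h4 : ((m.sum fun _ n => n : ℕ) : ℤ) ≤ e - c := hm
    omega
  have h5 : ((fun x : Q.Idx => (Quotient.out x).1) '' {x : Q.Idx | Q.degI x = e}).Finite := by
    refine ((Om_finite Q).prod hfin).subset ?_
    rintro _ ⟨x, hx, rfl⟩
    refine ⟨(Quotient.out x).2.1, ?_⟩
    have h1 : c ≤ Q.degE (Quotient.out x).1.1 := hc ⟨_, (Quotient.out x).2.1, rfl⟩
    have h2 : Q.degI x = e := hx
    unfold QD.degI QD.deg0 at h2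
    simp only [Set.mem_ofPred_eq]
    linarith
  refine Set.Finite.of_finite_image h5 ?_
  intro x _ y _ hxy
  have : Quotient.out x = Quotient.out y := Subtype.ext hxy
  rw [← Quotient.out_eq x, this, Quotient.out_eq y]

end Vale.Agent.P291
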