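import Vale.Agent.P291.H548.N2h3

/-!
# P291, stage 2, block N2h: the identity of Hilbert series
-/

set_option linter.unusedSectionVars false

open MvPolynomial

namespace Vale.Agent.P291

namespace H2h

section counting

variable {X : Type*} (deg : X → ℤ) (h : ℤ → ℕ) (c0 : ℤ) (hc0 : ∀ x, c0 ≤ deg x)
  (h0 : ∀ n, n < 0 → h n = 0) (K d : ℤ)

/-- the degree, as a map to a finite interval -/
def fdeg (q : {q : X × (Σ n, Fin (h n)) // deg q.1 + q.2.1 + K = d}) :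
    ↥(Finset.Icc c0 (d - K)) :=
  ⟨deg q.1.1, by
    rw [Finset.mem_Icc]
    refine ⟨hc0 _, ?_⟩
    have h1 : 0 ≤ q.1.2.1 := by
      by_contra hneg
      push Not at hneg
      have h2 := h0 _ hneg
      have h3 := q.1.2.2.2
      omega
    have h4 := q.2
    omega⟩

/-- the fibres of the degree -/
def fibEquiv (e : ↥(Finset.Icc c0 (d - K))) :
    {q : {q : X × (Σ n, Fin (h n)) // deg q.1 + q.2.1 + K = d} //
      fdeg deg h c0 hc0 h0 K d q = e} ≃
      {x : X // deg x = e} × {j : (Σ n, Fin (h n)) // j.1 = d - K - e} where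
  toFun q := (⟨q.1.1.1, congrArg Subtype.val q.2⟩, ⟨q.1.1.2, by
    have h1 := congrArg Subtype.val q.2
    have h2 := q.1.2
    simp only [fdeg] at h1
    omega⟩)
  invFun p := ⟨⟨(p.1.1, p.2.1), by
    have h1 := p.1.2
    have h2 := p.2.2
    simp only
    omega⟩, Subtype.ext p.1.2⟩
  left_inv _ := rfl
  right_inv _ := rfl

include hc0 h0 in
theorem finite_count (hf : ∀ e, {x | deg x = e}.Finite) :
    Finite {q : X × (Σ n, Fin (h n)) // deg q.1 + q.2.1 + K = d} := by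
  have h1 : ∀ e : ↥(Finset.Icc c0 (d - K)),
      Finite {q : {q : X × (Σ n, Fin (h n)) // deg q.1 + q.2.1 + K = d} //
        fdeg deg h c0 hc0 h0 K d q = e} := by
    intro e
    have h2 : Finite {x : X // deg x = e} := hf e
    have h3 : Finite {j : (Σ n, Fin (h n)) // j.1 = d - K - e} :=
      Finite.of_equiv _ (Equiv.sigmaSubtype (d - K - (e : ℤ))).symm
    exact Finite.of_equiv _ (fibEquiv deg h c0 hc0 h0 K d e).symm
  exact Finite.of_equiv _ (Equiv.sigmaFiberEquiv (fdeg deg h c0 hc0 h0 K d))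

include hc0 h0 in
theorem count (hf : ∀ e, {x | deg x = e}.Finite) :
    Nat.card {q : X × (Σ n, Fin (h n)) // deg q.1 + q.2.1 + K = d} =
      ∑ᶠ e : ℤ, Nat.card {x : X // deg x = e} * h (d - K - e) := by
  have h1 : ∀ e : ↥(Finset.Icc c0 (d - K)),
      Finite {q : {q : X × (Σ n, Fin (h n)) // deg q.1 + q.2.1 + K = d} //
        fdeg deg h c0 hc0 h0 K d q = e} := by
    intro e
    have h2 : Finite {x : X // deg x = e} := hf e
    have h3 : Finite {j : (Σ n, Fin (h n)) // j.1 = d - K - e} :=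
      Finite.of_equiv _ (Equiv.sigmaSubtype (d - K - (e : ℤ))).symm
    exact Finite.of_equiv _ (fibEquiv deg h c0 hc0 h0 K d e).symm
  rw [← Nat.card_congr (Equiv.sigmaFiberEquiv (fdeg deg h c0 hc0 h0 K d)), Nat.card_sigma,
    finsum_eq_sum_of_support_subset (s := Finset.Icc c0 (d - K)),
    ← Finset.sum_coe_sort (Finset.Icc c0 (d - K))]
  · refine Finset.sum_congr rfl fun e _ => ?_
    rw [Nat.card_congr (fibEquiv deg h c0 hc0 h0 K d e), Nat.card_prod,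
      Nat.card_congr (Equiv.sigmaSubtype (d - K - (e : ℤ))), Nat.card_eq_fintype_card (α := Fin _),
      Fintype.card_fin]
  · intro e he
    rw [Function.mem_support] at he
    simp only [Finset.coe_Icc, Set.mem_Icc]
    constructor
    · by_contra hlt
      apply he
      have : IsEmpty {x : X // deg x = e} := ⟨fun x => hlt (x.2 ▸ hc0 x.1)⟩
      rw [Nat.card_of_isEmpty, zero_mul]
    · by_contra hlt
      apply he
      rw [h0 (d - K - e) (by omega), mul_zero]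

end counting

section main

variable {I E B Λ k : Type*} [Fintype E] [DecidableEq I] [Fintype B] [DecidableEq B] [CommRing Λ]
  [IsDomain Λ] [Field k] [CharZero k] [Algebra k Λ]
variable (Q : QD I E B Λ) (S : Scal k Λ)

theorem hH_neg {ιΛ : Type*} (c : Module.Basis ιΛ k Λ) (dc : ιΛ → ℕ)
    (hc : ∀ i, S.θ (c i) = 2 ^ dc i * c i) {d : ℤ} (hd : d < 0) : Q.hH S d = 0 := by
  have h1 : Q.Rd S d = ⊥ := by
    rw [eq_bot_iff, ← homS_neg (B := B) S c dc hc hd]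
    exact inf_le_right
  have h2 : Subsingleton (Q.Rd S d) := by
    rw [h1]; infer_instance
  have h3 : Subsingleton (↥(Q.Rd S d) ⧸ (Q.Jd S d).submoduleOf (Q.Rd S d)) :=
    (Submodule.Quotient.mk_surjective _).subsingleton
  exact Module.finrank_zero_of_subsingleton

/-- first basis -/
noncomputable def b1 {ιΛ : Type*} (c : Module.Basis ιΛ k Λ) (β : Q.Idx → KK B Λ)
    (p : ιΛ × Q.Idx) : KK B Λ := c p.1 • β p.2

theorem b1_indep {ιΛ : Type*} (c : Module.Basis ιΛ k Λ) {β : Q.Idx → KK B Λ}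
    (hβ : LinearIndependent Λ β) : LinearIndependent k (b1 Q c β) :=
  linearIndependent_smul c.linearIndependent hβ

theorem b1_span {ιΛ : Type*} (c : Module.Basis ιΛ k Λ) {β : Q.Idx → KK B Λ}
    (hβ : Submodule.span Λ (Set.range β) = Q.LL) :
    Submodule.span k (Set.range (b1 Q c β)) = Q.LL.restrictScalars k := by
  have h1 := Submodule.span_smul_of_span_eq_top (R := k) (S := Λ) (A := KK B Λ) c.span_eq
    (Set.range β)
  rw [hβ] at h1
  rw [← h1]
  congr 1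
  ext x
  rw [Set.mem_smul]
  constructor
  · rintro ⟨⟨i, y⟩, rfl⟩
    exact ⟨c i, ⟨i, rfl⟩, β y, ⟨y, rfl⟩, rfl⟩
  · rintro ⟨_, ⟨i, rfl⟩, _, ⟨y, rfl⟩, rfl⟩
    exact ⟨⟨i, y⟩, rfl⟩

theorem b1_hom {ιΛ : Type*} (c : Module.Basis ιΛ k Λ) (dc : ιΛ → ℕ)
    (hc : ∀ i, S.θ (c i) = 2 ^ dc i * c i) {β : Q.Idx → KK B Λ}
    (hβ : ∀ x, S.Hom (Q.degI x) (β x)) (p : ιΛ × Q.Idx) :
    sKl S (b1 Q c β p) = (2 : k) ^ ((dc p.1 : ℤ) + Q.degI p.2) • b1 Q c β p := by
  have h0 : sKl S (b1 Q c β p) = S.sK B (b1 Q c β p) := rfl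
  have h1 : S.sK B (β p.2) = (2 : k) ^ Q.degI p.2 • β p.2 := (hom_iff S).1 (hβ p.2)
  have h2 : (2 : Λ) ^ dc p.1 = algebraMap k Λ (2 ^ dc p.1) := by
    rw [map_pow, map_ofNat]
  rw [h0, b1, sK_smul', hc, h1, zpow_add₀ (by norm_num), zpow_natCast, mul_smul, h2,
    algebraMap_smul, mul_smul]
  rw [smul_comm (c p.1) ((2 : k) ^ Q.degI p.2)]

theorem finite1 {ιΛ : Type*} (dc : ιΛ → ℕ) (hfin : ∀ n, {i | dc i = n}.Finite) (d : ℤ) :
    {p : ιΛ × Q.Idx | (dc p.1 : ℤ) + Q.degI p.2 = d}.Finite := by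
  obtain ⟨c0, hc0⟩ := Idx_bdd Q
  have h1 : {i : ιΛ | dc i ≤ (d - c0).toNat}.Finite := by
    have : {i : ιΛ | dc i ≤ (d - c0).toNat} =
        ⋃ n ∈ Finset.range ((d - c0).toNat + 1), {i | dc i = n} := by
      ext i; simp
    rw [this]
    exact Set.Finite.biUnion (Finset.finite_toSet _) fun n _ => hfin n
  have h2 : {x : Q.Idx | Q.degI x ≤ d}.Finite := by
    have : {x : Q.Idx | Q.degI x ≤ d} ⊆ ⋃ e ∈ Finset.Icc c0 d, {x | Q.degI x = e} := by
      intro x hx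
      simp only [Set.mem_iUnion]
      exact ⟨Q.degI x, Finset.mem_Icc.2 ⟨hc0 x, hx⟩, rfl⟩
    exact Set.Finite.subset
      (Set.Finite.biUnion (Finset.finite_toSet _) fun e _ => Idx_fin Q e) this
  refine Set.Finite.subset (h1.prod h2) ?_
  rintro ⟨i, x⟩ h
  have h' : (dc i : ℤ) + Q.degI x = d := h
  have h3 := hc0 x
  refine ⟨?_, ?_⟩
  · show dc i ≤ (d - c0).toNat
    omega
  · show Q.degI x ≤ d
    omega

end main

end H2h

theorem pbw_count {I E B Λ k : Type*} [Fintype E] [DecidableEq I] [Fintype B] [DecidableEq B]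
    [CommRing Λ] [IsDomain Λ] [Field k] [CharZero k] [Algebra k Λ]
    (Q : QD I E B Λ) (S : Scal k Λ)
    [Algebra ℚ Λ] (hS : Q.Lin S) (hQ : Q.NonzeroLoops) (T : Finset (Finset B))
    (hT : ∀ M : Finset B, ∃! U, U ∈ T ∧ ∃ σ ∈ Q.W, M.map σ.toEmbedding = U)
    {ιΛ : Type*} (c : Module.Basis ιΛ k Λ) (dc : ιΛ → ℕ) (hc : ∀ i, S.θ (c i) = 2 ^ dc i * c i)
    (hfin : ∀ n, {i | dc i = n}.Finite) (d : ℤ) :
    Nat.card {p : ιΛ × Q.Idx // (dc p.1 : ℤ) + Q.degI p.2 = d} =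
      ∑ U ∈ T, ∑ᶠ e : ℤ, (Q.rst U).unf.mul e *
        (Q.rst Uᶜ).hH S (d - Q.degK (QD.ind U) - e) := by
  classical
  obtain ⟨β, hβ1, hβ2, hβ3⟩ := LL_basis Q S hS hQ
  have D : ∀ U, H2h.Dat Q S U := fun U =>
    Classical.choice (H2h.exists_dat Q S hS hQ c dc hc hfin U)
  have hn : ∀ U : Finset B, ∀ n : ℤ, n < 0 → (Q.rst Uᶜ).hH S n = 0 := fun U n hn =>
    H2h.hH_neg (Q.rst Uᶜ) S c dc hc hn
  have hbdd : ∀ U : Finset B, ∃ c0 : ℤ, ∀ x, c0 ≤ (Q.rst U).unf.degI x := fun U =>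
    Idx_bdd (Q.rst U).unf
  have hfinU : ∀ (U : Finset B) (e : ℤ), {x | (Q.rst U).unf.degI x = e}.Finite := fun U e =>
    Idx_fin (Q.rst U).unf e
  -- finiteness of the second index set
  let P : ∀ U : {U : Finset B // U ∈ T},
      ((Q.rst U.1).unf).Idx × (Σ n : ℤ, Fin ((Q.rst (U.1)ᶜ).hH S n)) → Prop := fun U q =>
    ((Q.rst U.1).unf).degI q.1 + q.2.1 + Q.degK (QD.ind U.1) = d
  have hfinite : ∀ U : {U : Finset B // U ∈ T}, Finite {q // P U q} := fun U => by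
    obtain ⟨c0, hc0⟩ := hbdd U.1
    exact H2h.finite_count _ _ c0 hc0 (hn U.1) _ d (hfinU U.1)
  let eqv : {p : H2h.Ix2 Q S T // H2h.deg2 T p = d} ≃ Σ U : {U : Finset B // U ∈ T},
      {q // P U q} :=
    { toFun := fun p => ⟨p.1.1, ⟨p.1.2, p.2⟩⟩
      invFun := fun p => ⟨⟨p.1, p.2.1⟩, p.2.2⟩
      left_inv := fun _ => rfl
      right_inv := fun _ => rfl }
  have hfin2 : Finite {p : H2h.Ix2 Q S T // H2h.deg2 T p = d} := Finite.of_equiv _ eqv.symm
  have e1 := count_basis (H2h.sKl S) (H2h.b1 Q c β) (H2h.b1_indep Q c hβ2)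
    (fun p => (dc p.1 : ℤ) + Q.degI p.2) (H2h.b1_hom Q S c dc hc hβ1) d
    (H2h.finite1 Q dc hfin d)
  have e2 := count_basis (H2h.sKl S) (H2h.bb T D) (H2h.bb_indep T hT D) (H2h.deg2 T)
    (fun p => (H2h.hom_iff S).1 (H2h.bb_hom T D hS p)) d hfin2
  rw [H2h.b1_span Q c hβ3] at e1
  rw [H2h.bb_span T hT D] at e2
  rw [← e1, e2, Nat.card_congr eqv, Nat.card_sigma, ← Finset.sum_coe_sort T]
  refine Finset.sum_congr rfl fun U _ => ?_
  obtain ⟨c0, hc0⟩ := hbdd U.1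
  exact H2h.count _ _ c0 hc0 (hn U.1) _ d (hfinU U.1)

end Vale.Agent.P291
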