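import Vale.Agent.P291.H4c
import Vale.Agent.P291.H3Blk
import Vale.Agent.P291.HN1dBlk
import Vale.Agent.P291.HN2hBlk

/-!
# P291, block H4: the Hilbert function of `R / J_C` for the trivial flavour torus
-/

open MvPolynomial

namespace Vale.Agent.P291

variable {I E B k : Type*} [Fintype E] [DecidableEq I] [Fintype B] [DecidableEq B] [Field k]
  [CharZero k]

/-- (H4a) for a datum over a field with all weights zero: `Q.line` has all weights `t` over `k[t]`;
the Hilbert function of `R / J_C` is the difference of that of `R / J_D` of the line -/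
theorem hH_line (Q : QD I E B k) (h0 : ∀ a, Q.t a = 0) (d : ℤ) :
    (Q.line.hH (scalPoly k) d : ℤ) = Q.line.hH (scalPoly k) (d - 1) + Q.hC d := by
  rw [H4.hH_line' Q (fun {f} h => JD_sat Q.line Polynomial.X_ne_zero h) h0 d]
  push_cast
  ring

/-- (H4b) MAIN RECURSION: it determines `hC` and is Hausel's formula -/
theorem recursion (Q : QD I E B k) (h0 : ∀ a, Q.t a = 0) (T : Finset (Finset B))
    (hT : ∀ M : Finset B, ∃! U, U ∈ T ∧ ∃ σ ∈ Q.W, M.map σ.toEmbedding = U) (d : ℤ) :
    Q.mul d = ∑ U ∈ T, ∑ᶠ e : ℤ, (Q.rst U).unf.mul e *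
      (Q.rst Uᶜ).hC (d - Q.degK (QD.ind U) - e) := by
  refine H4.recursion_of Q T
    (fun U _ {f} h => JD_sat (Q.rst Uᶜ).line Polynomial.X_ne_zero h) h0
    (fun e => Idx_fin Q e) (Idx_bdd Q) (fun U _ => Idx_bdd (Q.rst U).unf) (fun d => ?_) d
  exact pbw_count Q.line (scalPoly k) (H4.line_lin Q) (H4.line_loops Q) T hT
    (Polynomial.basisMonomials k) (fun n => n) (fun n => by
      rw [Polynomial.coe_basisMonomials]
      refine Polynomial.ext fun m => ?_
      have h2 : (2 : Polynomial k) ^ n = Polynomial.C (2 ^ n) := by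
        rw [Polynomial.C_pow]; rfl
      rw [H4.theta_coeff, h2, Polynomial.coeff_C_mul, Polynomial.coeff_monomial]
      split_ifs with h
      · rw [h]
      · simp)
    (fun n => by
      have : {i : ℕ | i = n} = {n} := rfl
      rw [this]; exact Set.finite_singleton n) d

end Vale.Agent.P291
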