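import Vale.Agent.P291.H906.End

/-!
# P291, block I3: part (I), `J_C` is contained in `J_D`
-/

open MvPolynomial

namespace Vale.Agent.P291

variable {I E B Λ : Type*} [Fintype E] [DecidableEq I] [Fintype B] [DecidableEq B] [CommRing Λ]
  [IsDomain Λ]
variable (Q : QD I E B Λ)

/-- **Part (I)**: `J_C ⊆ J_D`. -/
theorem partI [Algebra ℚ Λ] (hQ : Q.NonzeroLoops) {f : SS B Λ} (hf : f ∈ Q.JC) : f ∈ Q.JD := by
  let _ : H906.VS I := H906.vsQ Q
  exact H906.final Q hQ (fun i hi => H906.full_some Q hi) hf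

end Vale.Agent.P291
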