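import Vale.Agent.P291.H125.SpBase

/-!
# Block Sp1: specialisation of the flavour parameters maps `J_C` to `J_C`
-/

open MvPolynomial

set_option linter.unusedSectionVars false

namespace Vale.Agent.P291

variable {I E B Λ : Type*} [Fintype E] [DecidableEq I] [Fintype B] [DecidableEq B] [CommRing Λ]
  [IsDomain Λ]
variable (Q : QD I E B Λ)
variable {Λ' : Type*} [CommRing Λ'] [IsDomain Λ']

namespace H125

theorem A_sub_map {Q : QD I E B Λ} {Q' : QD I E B Λ'} {φ : Λ' →+* Λ} (h : Rel Q Q' φ)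
    {a' : AA B Λ'} (ha : a' ∈ Q'.A) : ∃ a ∈ Q.A, (a', a) ∈ SpA Q' φ := by
  refine Algebra.adjoin_induction (p := fun x _ => ∃ a ∈ Q.A, (x, a) ∈ SpA Q' φ)
    ?_ ?_ ?_ ?_ ha
  · rintro x ⟨F, hF, rfl⟩
    exact ⟨_, Algebra.subset_adjoin ⟨_, h.Eqv_map hF, rfl⟩, h.M_mem F⟩
  · intro r
    exact ⟨_, Q.A.algebraMap_mem (φ r), algebraMap_mem_SpA Q' φ r⟩
  · rintro x y _ _ ⟨a, ha, hxa⟩ ⟨b, hb, hyb⟩
    exact ⟨a + b, Q.A.add_mem ha hb, SpA_add hxa hyb⟩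
  · rintro x y _ _ ⟨a, ha, hxa⟩ ⟨b, hb, hyb⟩
    exact ⟨a * b, Q.A.mul_mem ha hb, SpA_mul hxa hyb⟩

theorem II_sub_map {Q : QD I E B Λ} {Q' : QD I E B Λ'} {φ : Λ' →+* Λ} (h : Rel Q Q' φ)
    {z' : AA B Λ'} (hz : z' ∈ Q'.II) : ∃ z ∈ Q.II, (z', z) ∈ SpA Q' φ := by
  refine Submodule.span_induction (p := fun x _ => ∃ a ∈ Q.II, (x, a) ∈ SpA Q' φ)
    ?_ ?_ ?_ ?_ hz
  · rintro x ⟨F, hF, h0, h1, rfl⟩
    refine ⟨_, Submodule.subset_span ⟨_, h.Eqv_map hF, ?_, ?_, rfl⟩, h.M_mem F⟩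
    · simp [h0]
    · simp [h1]
  · exact ⟨0, Submodule.zero_mem _, SpA_zero⟩
  · rintro x y _ _ ⟨a, ha, hxa⟩ ⟨b, hb, hyb⟩
    exact ⟨a + b, Submodule.add_mem _ ha hb, SpA_add hxa hyb⟩
  · rintro c x _ ⟨a, ha, hxa⟩
    obtain ⟨d, hd, hcd⟩ := A_sub_map h c.2
    refine ⟨d * a, ?_, SpA_mul hcd hxa⟩
    exact Submodule.smul_mem Q.II (⟨d, hd⟩ : Q.A) ha

end H125

/-- easy direction -/
theorem JC_map (Q' : QD I E B Λ') (φ : Λ' →+* Λ)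
    (h : Q.src = Q'.src ∧ Q.tgt = Q'.tgt ∧ Q.vx = Q'.vx ∧ ∀ a, Q.t a = φ (Q'.t a))
    {f : SS B Λ'} (hf : f ∈ Q'.JC) : MvPolynomial.map φ f ∈ Q.JC := by
  have hR : H125.Rel Q Q' φ := h
  refine ⟨?_, ?_⟩
  · intro σ hσ
    have := hf.1 σ (by rw [← hR.W_eq]; exact hσ)
    rw [← MvPolynomial.map_rename, this]
  · obtain ⟨z, hz, hz'⟩ := H125.II_sub_map hR hf.2
    rw [H125.SpA_uniq hR (H125.cst_mem_SpA Q' φ f) hz']; exact hz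

end Vale.Agent.P291
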