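import Vale.Agent.P291.B3Blk
import Vale.Agent.P291.I3Blk
import Vale.Agent.P291.Sp1Blk
import Vale.Agent.P291.Sp2Blk

/-!
# P291: Theorem A (`J_C = J_D` under (H)) and Theorem B (any flavour torus)
-/

set_option linter.unusedSectionVars false

open MvPolynomial

namespace Vale.Agent.P291

variable {I E B Λ : Type*} [Fintype E] [DecidableEq I] [Fintype B] [DecidableEq B] [CommRing Λ]
  [IsDomain Λ]
variable (Q : QD I E B Λ)

/-- Theorem A -/
theorem JC_eq_JD [Algebra ℚ Λ] (hQ : Q.NonzeroLoops) : Q.JC = Q.JD :=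
  Set.Subset.antisymm (fun _ h => partI Q hQ h) (fun _ h => partB Q hQ h)

/-- The same quiver with the torus enlarged by one coordinate per arrow, which scales it. -/
noncomputable def QD.hat : QD I E B (MvPolynomial E Λ) where
  src := Q.src
  tgt := Q.tgt
  vx := Q.vx
  t := fun a => C (Q.t a) + X a

theorem hat_nonzeroLoops : Q.hat.NonzeroLoops := by
  intro a _ h
  have h1 := congrArg (MvPolynomial.coeff (Finsupp.single a 1)) h
  have hne : (0 : E →₀ ℕ) ≠ Finsupp.single a 1 := by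
    intro h2
    have := DFunLike.congr_fun h2 a
    simp at this
  classical
  simp [QD.hat, MvPolynomial.coeff_X, MvPolynomial.coeff_C, hne] at h1

/-- Theorem B -/
theorem JC_eq_JH [Algebra ℚ Λ] :
    Q.JC = {f | ∃ f' ∈ Q.hat.JD, MvPolynomial.map (MvPolynomial.constantCoeff) f' = f} := by
  have hh : Q.src = Q.hat.src ∧ Q.tgt = Q.hat.tgt ∧ Q.vx = Q.hat.vx ∧
      ∀ a, Q.t a = MvPolynomial.constantCoeff (Q.hat.t a) := by
    refine ⟨rfl, rfl, rfl, fun a => ?_⟩
    simp [QD.hat]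
  have hsurj : Function.Surjective (MvPolynomial.constantCoeff : MvPolynomial E Λ →+* Λ) :=
    fun r => ⟨C r, by simp⟩
  ext f
  constructor
  · intro hf
    obtain ⟨f', hf', h⟩ := JC_lift Q Q.hat (hat_nonzeroLoops Q) _ hsurj hh hf
    rw [JC_eq_JD Q.hat (hat_nonzeroLoops Q)] at hf'
    exact ⟨f', hf', h⟩
  · rintro ⟨f', hf', rfl⟩
    rw [← JC_eq_JD Q.hat (hat_nonzeroLoops Q)] at hf'
    exact JC_map Q Q.hat _ hh hf'

end Vale.Agent.P291
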