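import Vale.Agent.P291.H598.Lem

/-!
# P291, block R7: the two transfers of exact identities of a block to the big theory
-/

set_option linter.unusedSectionVars false
set_option linter.unusedVariables false

open MvPolynomial

namespace Vale.Agent.P291

namespace R7

section family

variable {I E B Λ : Type*} [Fintype E] [DecidableEq I] [Fintype B] [DecidableEq B] [CommRing Λ]
  [IsDomain Λ]
variable (Q : QD I E B Λ)

theorem MT_smul (k : ℕ) (c : Λ) (τ : (Fin k → Finset (Option B)) → SS B Λ) :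
    Q.MT k (c • τ) = c • Q.MT k τ := by
  simp only [QD.MT, Pi.smul_apply, Finset.smul_sum, AddMonoidAlgebra.smul_single]
  refine Finset.sum_congr rfl fun V _ => ?_
  congr 1
  rw [toK, toK, Algebra.smul_def, Algebra.smul_def, map_mul, mul_assoc,
    ← IsScalarTower.algebraMap_apply]

theorem MT_sum {ι : Type*} (s : Finset ι) (k : ℕ)
    (τ : ι → (Fin k → Finset (Option B)) → SS B Λ) :
    Q.MT k (fun V => ∑ i ∈ s, τ i V) = ∑ i ∈ s, Q.MT k (τ i) := by
  simp only [QD.MT]
  rw [Finset.sum_comm]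
  refine Finset.sum_congr rfl fun V _ => ?_
  classical
  induction s using Finset.induction_on with
  | empty => simp
  | insert i s hi ih =>
    rw [Finset.sum_insert hi, Finset.sum_insert hi, toK_add, add_mul, AddMonoidAlgebra.single_add,
      ih]

theorem exists_family {u : Prop} {f : SS B Λ} (h : QD.cst f ∈ Q.KS u) :
    ∃ (N : ℕ) (kk : Fin N → ℕ) (j0 : ∀ i, Fin (kk i))
      (τ : ∀ i, (Fin (kk i) → Finset (Option B)) → SS B Λ),
      (∀ i, τ i ∈ Q.Dec (kk i)) ∧ (∀ i V, τ i V ≠ 0 → Q.KT u (j0 i) V) ∧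
      ∑ i, Q.MT (kk i) (τ i) = QD.cst f := by
  rw [QD.KS, Submodule.mem_span_set'] at h
  obtain ⟨N, c, g, hg⟩ := h
  have h1 : ∀ i : Fin N, ∃ (k : ℕ) (j0 : Fin k) (τ : (Fin k → Finset (Option B)) → SS B Λ),
      τ ∈ Q.Dec k ∧ (∀ V, τ V ≠ 0 → Q.KT u j0 V) ∧ (g i : AA B Λ) = Q.MT k τ := fun i => (g i).2
  choose kk j0 τ h2 h3 h4 using h1
  refine ⟨N, kk, j0, fun i => c i • τ i, fun i => Submodule.smul_mem _ _ (h2 i), ?_, ?_⟩
  · intro i V hV
    apply h3 i V
    intro h0
    apply hV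
    show c i • τ i V = 0
    rw [h0, smul_zero]
  · rw [← hg]
    refine Finset.sum_congr rfl fun i _ => ?_
    rw [MT_smul, h4]

theorem KT_types {u : Prop} {k : ℕ} {j0 : Fin k} {V : Fin k → Finset (Option B)}
    (h : Q.KT u j0 V) (j : Fin k) : none ∈ V j ↔ decide (j ≠ j0) = true := by
  rw [decide_eq_true_eq]
  constructor
  · rintro hj rfl
    exact h.1 hj
  · exact h.2.1 j

theorem KT_dims {u : Prop} {k : ℕ} {j0 : Fin k} {V : Fin k → Finset (Option B)}
    (h : Q.KT u j0 V) : ∑ j, Q.db (cb (V j)) = Q.db Finset.univ ∧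
      Q.db (cb (V j0)) ≠ Q.db Finset.univ ∧ (u → Q.db (cb (V j0)) ≠ 0) := by
  have h1 := db_cb_add Q (V j0)
  have hb : Q.db (bx (V j0)) ≠ 0 := by
    obtain ⟨b, hb⟩ := h.2.2.1
    intro h0
    have h2 : Q.db (bx (V j0)) (Q.vx b) = 0 := by rw [h0]; rfl
    rw [QD.db, Finset.card_eq_zero, Finset.filter_eq_empty_iff] at h2
    exact h2 hb rfl
  refine ⟨?_, ?_, ?_⟩
  · rw [← Finset.add_sum_erase _ _ (Finset.mem_univ j0), ← h.2.2.2.1, add_comm, h1]
  · intro h0
    apply hb
    rw [h0] at h1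
    exact add_eq_right.1 h1
  · intro hu h0
    obtain ⟨b, hb⟩ := h.2.2.2.2 hu
    have h2 : Q.db (cb (V j0)) (Q.vx b) = 0 := by rw [h0]; rfl
    rw [QD.db, Finset.card_eq_zero, Finset.filter_eq_empty_iff] at h2
    exact h2 hb rfl

theorem count_types {k : ℕ} (j0 : Fin k) :
    (∑ j, if decide (j ≠ j0) then (0 : ℤ) else 1) = 1 := by
  rw [Finset.sum_eq_single j0]
  · simp
  · intro j _ hj
    simp [hj]
  · intro h; exact absurd (Finset.mem_univ _) h

/-- polynomial representation of a dressing on tuples with given types and dimensions -/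
theorem rep_types [Algebra ℚ Λ] {k : ℕ} {τ : (Fin k → Finset (Option B)) → SS B Λ}
    (hτ : τ ∈ Q.Dec k) (ty : Fin k → Bool) (d : Fin k → I → ℕ) :
    ∃ q : MvPolynomial (Option (Fin k) × ℕ × I) Λ, ∀ V : Fin k → Finset (Option B),
      (∀ j, none ∈ V j ↔ ty j = true) → (∀ j, Q.db (cb (V j)) = d j) →
      τ V = aeval (Q.pwv V) q := by
  by_cases h : ∃ V0 : Fin k → Finset (Option B), (∀ j, none ∈ V0 j ↔ ty j = true) ∧
      (∀ j, Q.db (cb (V0 j)) = d j)
  · obtain ⟨V0, h1, h2⟩ := h
    obtain ⟨q, hq⟩ := rep Q hτ V0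
    refine ⟨q, fun V h3 h4 => hq V fun j => orb_of_types Q ?_ ?_⟩
    · rw [h1, h3]
    · rw [h2, h4]
  · exact ⟨0, fun V h3 h4 => absurd ⟨V, h3, h4⟩ h⟩

/-- tuples with one set -/
theorem MT_one (F : Finset (Option B) → SS B Λ) :
    Q.MT 1 (fun V => F (V 0)) = Q.M F := by
  have h := MT_pure Q 1 1 (fun _ => F)
  have h2 : (QD.cst 1 : AA B Λ) = 1 := by
    rw [QD.cst, toK, map_one, AddMonoidAlgebra.one_def]
  rw [h2, one_mul, Finset.prod_const, Finset.card_univ, Fintype.card_fin, pow_one] at h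
  rw [← h]
  congr 1
  funext V
  rw [one_mul, Fin.prod_univ_one]

theorem dec_one' {F : Finset (Option B) → SS B Λ} (hF : F ∈ Q.Eqv) :
    (fun V : Fin 1 → Finset (Option B) => F (V 0)) ∈ Q.Dec 1 := by
  refine Submodule.subset_span ⟨1, Subalgebra.one_mem _, fun _ => F, fun _ => hF, ?_⟩
  funext V
  rw [one_mul, Fin.prod_univ_one]

end family

section main

variable {I E E' B B' Λ : Type*} [Fintype E] [Fintype E'] [DecidableEq I] [Fintype B]
  [DecidableEq B] [Fintype B'] [DecidableEq B'] [CommRing Λ] [IsDomain Λ]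
variable (Q' : QD I E' B' Λ) (Q : QD I E B Λ)

/-- evaluation points of the big dressing -/
noncomputable def yv {k : ℕ} (V : Fin k → Finset (Option B)) :
    Option (Fin k) × ℕ × I → SS B Λ :=
  fun p => p.1.elim (∑ j, Q.pws p.2.1 p.2.2 (cb (V j))) fun j => Q.pws p.2.1 p.2.2 (cb (V j))

noncomputable def zv {k : ℕ} (V : Fin k → Finset (Option B)) :
    Option (Fin 1) × ℕ × I → SS B Λ :=
  fun p => p.1.elim (Q.pws p.2.1 p.2.2 Finset.univ) fun _ => ∑ j, Q.pws p.2.1 p.2.2 (cb (V j))

/-- the same in terms of the weight -/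
noncomputable def zw (w : B → ℕ) : Option (Fin 1) × ℕ × I → SS B Λ :=
  fun p => p.1.elim (Q.pws p.2.1 p.2.2 Finset.univ) fun _ => pww Q w p.2.1 p.2.2

theorem zv_mkV {k : ℕ} (ty : Fin k → Bool) (S : Fin k → Finset B) :
    zv (Λ := Λ) Q (mkV ty S) = zw Q (wS S) := by
  funext p
  obtain ⟨o, n, i⟩ := p
  rcases o with _ | o
  · rfl
  · show ∑ j, Q.pws n i (cb (mkV ty S j)) = pww Q (wS S) n i
    simp only [cb_mkV]
    exact sum_pws Q S n i

theorem pwv_one (ty : Fin 1 → Bool) (S : Fin 1 → Finset B) :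
    Q.pwv (mkV ty S) = (zw Q (wS S) : _ → SS B Λ) := by
  rw [← zv_mkV Q ty S]
  funext p
  obtain ⟨o, n, i⟩ := p
  rcases o with _ | o
  · rfl
  · show Q.pws n i (cb (mkV ty S o)) = ∑ j, Q.pws n i (cb (mkV ty S j))
    rw [Fin.sum_univ_one, Subsingleton.elim o 0]

variable {Q' Q} in
theorem rename_pwv {w : B → ℕ} {e : B' ≃ (b : B) × Fin (w b)}
    (hv : ∀ b', Q.vx (io e b') = Q'.vx b') {k : ℕ} {S : Fin k → Finset B} (hS : wS S = w)
    (ty ty' : Fin k → Bool) (p : Option (Fin k) × ℕ × I) :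
    rename (io e) (Q'.pwv (mkV ty' (liftS e S)) p) = (yv Q (mkV ty S) p : SS B Λ) := by
  obtain ⟨o, n, i⟩ := p
  rcases o with _ | j
  · show rename (io e) (Q'.pws n i Finset.univ) = ∑ j, Q.pws n i (cb (mkV ty S j))
    simp only [cb_mkV]
    rw [rename_pws_univ hv, sum_pws, hS]
  · show rename (io e) (Q'.pws n i (cb (mkV ty' (liftS e S) j))) = Q.pws n i (cb (mkV ty S j))
    rw [cb_mkV, cb_mkV, rename_pws_lift hv hS]

theorem sum_one_le (w : B → ℕ) (x : KK B Λ) :
    (∑ _S ∈ Finset.univ.filter (fun S : Fin 1 → Finset B => wS S = w), x) =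
      if ∀ b, w b ≤ 1 then x else 0 := by
  have hw : ∀ S : Fin 1 → Finset B, ∀ b, wS S b = if b ∈ S 0 then 1 else 0 := by
    intro S b; rw [wS, Fin.sum_univ_one]
  by_cases h : ∀ b, w b ≤ 1
  · rw [if_pos h, Finset.sum_const]
    have : Finset.univ.filter (fun S : Fin 1 → Finset B => wS S = w) =
        {fun _ => Finset.univ.filter fun b => w b = 1} := by
      ext S
      rw [Finset.mem_filter, Finset.mem_singleton]
      constructor
      · rintro ⟨-, hS⟩
        funext j
        rw [Subsingleton.elim j 0]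
        ext b
        rw [Finset.mem_filter]
        have h2 := hw S b
        rw [hS] at h2
        split_ifs at h2 with hb
        · simp [hb, h2]
        · simp [hb, h2]
      · rintro rfl
        refine ⟨Finset.mem_univ _, ?_⟩
        funext b
        rw [hw]
        have h1 := h b
        simp only [Finset.mem_filter, Finset.mem_univ, true_and]
        split_ifs with hb
        · exact hb.symm
        · omega
    rw [this, Finset.card_singleton, one_smul]
  · rw [if_neg h]
    push Not at h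
    obtain ⟨b, hb⟩ := h
    have : Finset.univ.filter (fun S : Fin 1 → Finset B => wS S = w) = ∅ := by
      rw [Finset.filter_eq_empty_iff]
      intro S _ hS
      have h2 := hw S b
      rw [hS] at h2
      split_ifs at h2 <;> omega
    rw [this, Finset.sum_empty]

/-- the big dressing with prescribed dimensions -/
noncomputable def bigT {k : ℕ} (ty : Fin k → Bool)
    (q : (Fin k → I → ℕ) → MvPolynomial (Option (Fin k) × ℕ × I) Λ)
    (qF : MvPolynomial (Option (Fin 1) × ℕ × I) Λ) (δ : Fin k → I → ℕ) :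
    (Fin k → Finset (Option B)) → SS B Λ :=
  open scoped Classical in
  fun V => if ∀ j, (none ∈ V j ↔ ty j = true) ∧ Q.db (cb (V j)) = δ j then
    aeval (yv Q V) (q δ) * aeval (zv Q V) qF else 0

theorem bigT_mem {k : ℕ} (ty : Fin k → Bool)
    (q : (Fin k → I → ℕ) → MvPolynomial (Option (Fin k) × ℕ × I) Λ)
    (qF : MvPolynomial (Option (Fin 1) × ℕ × I) Λ) (δ : Fin k → I → ℕ) :
    bigT Q ty q qF δ ∈ Q.Dec k := by
  classical
  have hcb : ∀ n i (j : Fin k), (fun V : Fin k → Finset (Option B) =>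
      (Q.pws n i (cb (V j)) : SS B Λ)) ∈ Q.DA k := fun n i j => pwv_mem_DA Q (some j, n, i)
  have hsum : ∀ n i, (fun V : Fin k → Finset (Option B) =>
      (∑ j, Q.pws n i (cb (V j)) : SS B Λ)) ∈ Q.DA k := by
    intro n i
    have : (fun V : Fin k → Finset (Option B) => (∑ j, Q.pws n i (cb (V j)) : SS B Λ)) =
        ∑ j, fun V : Fin k → Finset (Option B) => (Q.pws n i (cb (V j)) : SS B Λ) := by
      funext V; rw [Finset.sum_apply]
    rw [this]
    exact sum_mem fun j _ => hcb n i j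
  have h1 : (fun V => aeval (yv Q V) (q δ)) ∈ Q.DA k := by
    apply mem_DA_aeval
    rintro ⟨o, n, i⟩
    rcases o with _ | j
    · exact hsum n i
    · exact hcb n i j
  have h2 : (fun V : Fin k → Finset (Option B) => aeval (zv Q V) qF) ∈ Q.DA k := by
    apply mem_DA_aeval
    rintro ⟨o, n, i⟩
    rcases o with _ | j
    · exact pwv_mem_DA Q (none, n, i)
    · exact hsum n i
  have h3 := dec_of_DA Q (fun j => ty j = true) δ (mul_mem h1 h2)
  convert h3 using 1
  funext V
  by_cases h : ∀ j, (none ∈ V j ↔ ty j = true) ∧ Q.db (cb (V j)) = δ j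
  · rw [bigT, if_pos h, if_pos h]; rfl
  · rw [bigT, if_neg h, if_neg h]

theorem bigT_types {k : ℕ} (ty : Fin k → Bool)
    (q : (Fin k → I → ℕ) → MvPolynomial (Option (Fin k) × ℕ × I) Λ)
    (qF : MvPolynomial (Option (Fin 1) × ℕ × I) Λ) (δ : Fin k → I → ℕ)
    (V : Fin k → Finset (Option B)) (h : bigT Q ty q qF δ V ≠ 0) (j : Fin k) :
    (none ∈ V j ↔ ty j = true) ∧ Q.db (cb (V j)) = δ j := by
  classical
  by_contra h'
  apply h
  rw [bigT, if_neg]
  intro h2
  exact h' (h2 j)

theorem sum_bigT {k : ℕ} (ty : Fin k → Bool)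
    (q : (Fin k → I → ℕ) → MvPolynomial (Option (Fin k) × ℕ × I) Λ)
    (qF : MvPolynomial (Option (Fin 1) × ℕ × I) Λ) (D : Finset (Fin k → I → ℕ))
    (S : Fin k → Finset B) :
    (∑ δ ∈ D, bigT Q ty q qF δ (mkV ty S)) = open scoped Classical in
      if (fun j => Q.db (S j)) ∈ D then
        aeval (yv Q (mkV ty S)) (q fun j => Q.db (S j)) * aeval (zw Q (wS S)) qF else 0 := by
  classical
  have h1 : ∀ δ, bigT (Λ := Λ) Q ty q qF δ (mkV ty S) = if δ = (fun j => Q.db (S j)) then
      aeval (yv Q (mkV ty S)) (q fun j => Q.db (S j)) * aeval (zw Q (wS S)) qF else 0 := by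
    intro δ
    rw [bigT]
    by_cases h : δ = fun j => Q.db (S j)
    · rw [if_pos h, if_pos, zv_mkV, h]
      intro j
      rw [none_mem_mkV, cb_mkV, h]
      exact ⟨Iff.rfl, rfl⟩
    · rw [if_neg h, if_neg]
      intro h2
      apply h
      funext j
      rw [← (h2 j).2, cb_mkV]
  rw [Finset.sum_congr rfl fun δ _ => h1 δ, Finset.sum_ite_eq']

/-- General transfer. -/
theorem pleth_main [Algebra ℚ Λ] {u : Prop} (je : E' → E) (hinj : Function.Injective je)
    (hsrc : ∀ a, Q.src (je a) = Q'.src a) (htgt : ∀ a, Q.tgt (je a) = Q'.tgt a)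
    (ht : ∀ a, Q.t (je a) = Q'.t a)
    (bt : ∀ k : ℕ, Fin k → Fin k → Bool) (tyF : Bool)
    (hbt : ∀ k (j0 : Fin k), (∑ j, if bt k j0 j then (0 : ℤ) else 1) = if tyF then 0 else 1)
    (hn : ∀ k (j0 : Fin k), ∀ a, Q'.tgt a = none → (fun j => decide (j ≠ j0)) = bt k j0)
    (hs : ∀ k (j0 : Fin k), ∀ a, (∃ a', je a' = a) ∨ (Q.tgt a = none ∧ ∀ j, bt k j0 j = true))
    (hP : QD.cst 1 ∈ Q'.KS u)
    {F : Finset (Option B) → SS B Λ} (hF : F ∈ Q.Eqv)
    (hF' : ∀ V, F V ≠ 0 → (none ∈ V ↔ tyF = true) ∧ Q.db (cb V) = Q'.db Finset.univ) :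
    Q.M F ∈ Submodule.span Λ {z | ∃ (k : ℕ) (j0 : Fin k)
      (G : Fin k → Finset (Option B) → SS B Λ) (d : Fin k → I → ℕ), (∀ j, G j ∈ Q.Eqv) ∧
      (∀ j V, G j V ≠ 0 → (none ∈ V ↔ bt k j0 j = true) ∧ Q.db (cb V) = d j) ∧
      ∑ j, d j = Q'.db Finset.univ ∧ d j0 ≠ Q'.db Finset.univ ∧ (u → d j0 ≠ 0) ∧
      z = ∏ j, Q.M (G j)} := by
  classical
  obtain ⟨N, kk, j0, τ, hτ, hKT, hsum⟩ := exists_family Q' hP
  have hrep : ∀ i (δ : Fin (kk i) → I → ℕ),
      ∃ q : MvPolynomial (Option (Fin (kk i)) × ℕ × I) Λ,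
        ∀ V : Fin (kk i) → Finset (Option B'), (∀ j, none ∈ V j ↔ decide (j ≠ j0 i) = true) →
        (∀ j, Q'.db (cb (V j)) = δ j) → τ i V = aeval (Q'.pwv V) q :=
    fun i δ => rep_types Q' (hτ i) _ δ
  choose q hq using hrep
  obtain ⟨qF, hqF⟩ := rep_types Q (dec_one' Q hF) (fun _ => tyF) (fun _ => Q'.db Finset.univ)
  let D : ∀ i, Finset (Fin (kk i) → I → ℕ) := fun i =>
    (Finset.univ.filter fun V : Fin (kk i) → Finset (Option B') => Q'.KT u (j0 i) V).image
      fun V j => Q'.db (cb (V j))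
  have hD : ∀ i, ∀ δ ∈ D i, ∑ j, δ j = Q'.db Finset.univ ∧ δ (j0 i) ≠ Q'.db Finset.univ ∧
      (u → δ (j0 i) ≠ 0) := by
    intro i δ hδ
    obtain ⟨V, hV, rfl⟩ := Finset.mem_image.1 hδ
    exact KT_dims Q' (Finset.mem_filter.1 hV).2
  -- main identity
  have key : Q.M F = ∑ i, ∑ δ ∈ D i, Q.MT (kk i) (bigT Q (bt (kk i) (j0 i)) (q i) qF δ) := by
    have hT : ∀ i, ∑ δ ∈ D i, Q.MT (kk i) (bigT Q (bt (kk i) (j0 i)) (q i) qF δ) =
        Q.MT (kk i) (fun V => ∑ δ ∈ D i, bigT Q (bt (kk i) (j0 i)) (q i) qF δ V) := by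
      intro i; rw [MT_sum]
    rw [Finset.sum_congr rfl fun i _ => hT i, ← MT_one]
    have hTty : ∀ i (V : Fin (kk i) → Finset (Option B)),
        (∑ δ ∈ D i, bigT Q (bt (kk i) (j0 i)) (q i) qF δ V) ≠ 0 →
        (∀ j, none ∈ V j ↔ bt (kk i) (j0 i) j = true) ∧ (fun j => Q.db (cb (V j))) ∈ D i := by
      intro i V hV
      obtain ⟨δ, hδ, h⟩ := Finset.exists_ne_zero_of_sum_ne_zero hV
      have h2 := bigT_types Q _ _ _ _ _ h
      refine ⟨fun j => (h2 j).1, ?_⟩
      have : (fun j => Q.db (cb (V j))) = δ := by funext j; exact (h2 j).2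
      rw [this]; exact hδ
    apply AddMonoidAlgebra.ext
    ext mu
    rw [AddMonoidAlgebra.coeff_sum, Finsupp.finsetSum_apply]
    let c : ℤ := if tyF then 0 else 1
    by_cases hw : ∃ w : B → ℕ, (∀ b, mu b = c - w b) ∧
        ∀ i, ∑ b ∈ Finset.univ.filter (fun b => Q.vx b = i), w b = Q'.db Finset.univ i
    · obtain ⟨w, hw1, hw2⟩ := hw
      obtain ⟨e, he⟩ := exists_e Q' Q w hw2
      have m : Mor Q' Q je (io e) := ⟨hinj, hsrc, htgt, ht, he⟩
      have hmu : mu = fun b => c - (w b : ℤ) := funext hw1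
      have hiff : ∀ {k : ℕ} (ty : Fin k → Bool), (∑ j, if ty j then (0 : ℤ) else 1) = c →
          ∀ S : Fin k → Finset B, (∑ j, lamV (mkV ty S j) = mu) ↔ wS S = w := by
        intro k ty hty S
        rw [hmu, funext_iff, funext_iff]
        refine forall_congr' fun b => ?_
        rw [sum_lamV_mkV, hty]
        constructor
        · intro h; have : (wS S b : ℤ) = w b := by linarith
          exact_mod_cast this
        · intro h; rw [h]
      -- left side
      have hL : (Q.MT 1 fun V => F (V 0)).coeff mu =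
          Q.e mu * (toK (aeval (zw Q w) qF) * if ∀ b, w b ≤ 1 then 1 else 0) := by
        rw [MT_coeff, sum_types_filter (fun _ => tyF) (fun V => ∑ j, lamV (V j) = mu)
          (fun S => wS S = w) (hiff (fun _ => tyF) (by simp [c]))]
        · have h1 : ∀ S ∈ Finset.univ.filter (fun S : Fin 1 → Finset B => wS S = w),
              toK (F (mkV (fun _ => tyF) S 0)) * ∏ j, Q.e (lamV (mkV (fun _ => tyF) S j)) =
              Q.e mu * toK (aeval (zw Q w) qF) := by
            intro S hS
            have hS' := (Finset.mem_filter.1 hS).2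
            have h2 : Q.e (lamV (mkV (fun _ => tyF) S 0)) = Q.e mu := by
              rw [← (hiff (fun _ => tyF) (by simp [c]) S).2 hS', Fin.sum_univ_one]
            have h3 : F (mkV (fun _ => tyF) S 0) = aeval (zw Q w) qF := by
              have h4 := hqF (mkV (fun _ => tyF) S) (fun j => none_mem_mkV _ _ _) (fun j => by
                rw [cb_mkV, Subsingleton.elim j 0]
                funext i
                have h5 := sum_db Q S i
                rw [Fin.sum_univ_one, hS', hw2] at h5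
                exact h5)
              rw [pwv_one, hS'] at h4
              exact h4
            rw [Fin.prod_univ_one, h2, h3, mul_comm]
          rw [Finset.sum_congr rfl h1, sum_one_le]
          split_ifs
          · rw [mul_one]
          · rw [mul_zero, mul_zero]
        · intro V hV j
          rw [Subsingleton.elim j 0]
          refine (hF' (V 0) ?_).1
          intro h
          apply hV
          rw [h, toK_zero, zero_mul]
      rw [hL]
      -- right side
      have hR : ∀ i, (Q.MT (kk i) (fun V =>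
          ∑ δ ∈ D i, bigT Q (bt (kk i) (j0 i)) (q i) qF δ V)).coeff mu =
          Q.e mu * (toK (aeval (zw Q w) qF) *
            ∑ S ∈ Finset.univ.filter (fun S : Fin (kk i) → Finset B => wS S = w),
            toK (rename (io e) (τ i (mkV (fun j => decide (j ≠ j0 i)) (liftS e S)))) *
            (toK (Q.KN (mkV (bt (kk i) (j0 i)) S)) / toK (Q.KD (mkV (bt (kk i) (j0 i)) S)))) := by
        intro i
        rw [MT_coeff, sum_types_filter (bt (kk i) (j0 i)) (fun V => ∑ j, lamV (V j) = mu)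
          (fun S => wS S = w) (hiff _ (hbt _ _))]
        · rw [Finset.mul_sum, Finset.mul_sum]
          refine Finset.sum_congr rfl fun S hS => ?_
          have hS' := (Finset.mem_filter.1 hS).2
          have h1 := prod_e_excess Q (mkV (bt (kk i) (j0 i)) S)
          rw [(hiff _ (hbt _ _) S).2 hS'] at h1
          have h2 : toK (Q.KD (mkV (bt (kk i) (j0 i)) S)) ≠ 0 := toK_ne (KD_ne_zero Q _)
          rw [eq_div_of_mul_eq h2 h1, sum_bigT, hS']
          have h3 : (if (fun j => Q.db (S j)) ∈ D i then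
              aeval (yv Q (mkV (bt (kk i) (j0 i)) S)) (q i fun j => Q.db (S j)) *
                aeval (zw Q w) qF else 0) =
              rename (io e) (τ i (mkV (fun j => decide (j ≠ j0 i)) (liftS e S))) *
                aeval (zw Q w) qF := by
            split_ifs with hd
            · congr 1
              rw [hq i (fun j => Q.db (S j)) _ (fun j => none_mem_mkV _ _ _)
                (fun j => by rw [cb_mkV, db_lift he hS'])]
              rw [← AlgHom.comp_apply, comp_aeval]
              congr 2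
              funext p
              exact (rename_pwv he hS' _ _ p).symm
            · have h0 : τ i (mkV (fun j => decide (j ≠ j0 i)) (liftS e S)) = 0 := by
                by_contra h0
                apply hd
                apply Finset.mem_image.2
                refine ⟨_, Finset.mem_filter.2 ⟨Finset.mem_univ _, hKT i _ h0⟩, ?_⟩
                funext j
                rw [cb_mkV, db_lift he hS']
              rw [h0, map_zero, zero_mul]
          rw [h3, toK_mul]
          ring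
        · intro V hV
          refine (hTty i V ?_).1
          intro h
          apply hV
          rw [h, toK_zero, zero_mul]
      rw [Finset.sum_congr rfl fun i _ => hR i, ← Finset.mul_sum, ← Finset.mul_sum]
      congr 2
      exact (transfer m kk (fun i => bt (kk i) (j0 i)) (fun i j => decide (j ≠ j0 i)) τ
        (fun i V hV j => KT_types Q' (hKT i V hV) j) (fun i => count_types (j0 i))
        (fun i a ha => hn _ _ a ha) (fun i a => hs _ _ a) hsum).symm
    · -- both sides vanish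
      have hL : (Q.MT 1 fun V => F (V 0)).coeff mu = 0 := by
        rw [MT_coeff]
        refine Finset.sum_eq_zero fun V hV => ?_
        have hV' := (Finset.mem_filter.1 hV).2
        by_contra h0
        have hF0 : F (V 0) ≠ 0 := by
          intro h; apply h0; rw [h, toK_zero, zero_mul]
        obtain ⟨h1, h2⟩ := hF' _ hF0
        apply hw
        have hV2 : mkV (fun _ => tyF) (fun j => cb (V j)) = V :=
          mkV_cb _ V fun j => by rw [Subsingleton.elim j 0]; exact h1
        refine ⟨wS fun j => cb (V j), fun b => ?_, fun i => ?_⟩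
        · rw [← hV', ← hV2, sum_lamV_mkV, hV2]
          simp [c]
        · rw [← sum_db, Fin.sum_univ_one, h2]
      rw [hL]
      symm
      refine Finset.sum_eq_zero fun i _ => ?_
      rw [MT_coeff]
      refine Finset.sum_eq_zero fun V hV => ?_
      have hV' := (Finset.mem_filter.1 hV).2
      by_contra h0
      have hT0 : (∑ δ ∈ D i, bigT Q (bt (kk i) (j0 i)) (q i) qF δ V) ≠ 0 := by
        intro h; apply h0; rw [h, toK_zero, zero_mul]
      obtain ⟨h1, h2⟩ := hTty i V hT0
      apply hw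
      have hV2 : mkV (bt (kk i) (j0 i)) (fun j => cb (V j)) = V := mkV_cb _ V h1
      refine ⟨wS fun j => cb (V j), fun b => ?_, fun i' => ?_⟩
      · rw [← hV', ← hV2, sum_lamV_mkV, hV2, hbt]
      · rw [← sum_db]
        exact congrFun (hD i _ h2).1 i'
  rw [key]
  refine Submodule.sum_mem _ fun i _ => Submodule.sum_mem _ fun δ hδ => ?_
  have hk : 0 < kk i := Nat.lt_of_le_of_lt (Nat.zero_le _) (j0 i).2
  refine Submodule.span_mono ?_ (MT_types Q hk (bt (kk i) (j0 i)) δ (bigT_mem Q _ _ _ _)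
    (fun V hV j => bigT_types Q _ _ _ _ _ hV j))
  rintro z ⟨G, hG1, hG2, rfl⟩
  obtain ⟨h1, h2, h3⟩ := hD i δ hδ
  exact ⟨kk i, j0 i, G, δ, hG1, hG2, h1, h2, h3, rfl⟩

end main

end R7

variable {I E B Λ : Type*} [Fintype E] [DecidableEq I] [Fintype B] [DecidableEq B] [CommRing Λ]
  [IsDomain Λ]
variable (Q : QD I E B Λ)

/-- (I2+) block `P = V^c`, framed -/
theorem pleth_two [Algebra ℚ Λ] (P : Finset B) (hP : QD.cst 1 ∈ (Q.res P).KS False)
    {F : Finset (Option B) → SS B Λ} (hF : F ∈ Q.Eqv)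
    (hF' : ∀ V, F V ≠ 0 → none ∉ V ∧ Q.db (cb V) = Q.db P) :
    Q.M F ∈ Submodule.span Λ {z | ∃ (k : ℕ) (j0 : Fin k) (G : Fin k → Finset (Option B) → SS B Λ)
      (d : Fin k → I → ℕ), (∀ j, G j ∈ Q.Eqv) ∧ ∑ j ∈ Finset.univ.erase j0, d j ≠ 0 ∧
      (∀ V, G j0 V ≠ 0 → none ∉ V ∧
        Q.db (bx V) = Q.db (Finset.univ \ P) + ∑ j ∈ Finset.univ.erase j0, d j) ∧
      (∀ j, j ≠ j0 → ∀ V, G j V ≠ 0 → none ∈ V ∧ Q.db (cb V) = d j) ∧
      z = ∏ j, Q.M (G j)} := by
  have hdb : (Q.res P).db Finset.univ = Q.db P := by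
    funext i
    rw [QD.db, QD.db, ← Finset.card_map (Function.Embedding.subtype _)]
    congr 1
    ext b
    simp only [Finset.mem_map, Finset.mem_filter (s := P), Function.Embedding.coe_subtype,
      Subtype.exists, exists_prop, exists_and_left]
    constructor
    · rintro ⟨b', hb', h1, rfl⟩
      exact ⟨hb', (Finset.mem_filter.1 h1).2⟩
    · rintro ⟨h1, h2⟩
      exact ⟨b, h1, Finset.mem_filter.2 ⟨Finset.mem_univ _, h2⟩, rfl⟩
  have h := R7.pleth_main (Q.res P) Q (je := id) Function.injective_id (fun _ => rfl)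
    (fun _ => rfl) (fun _ => rfl) (fun k j0 j => decide (j ≠ j0)) false
    (fun k j0 => by rw [R7.count_types]; rfl) (fun _ _ _ _ => rfl)
    (fun _ _ a => Or.inl ⟨a, rfl⟩) hP hF (fun V hV => by
      rw [hdb]
      exact ⟨⟨fun h => absurd h (hF' V hV).1, fun h => absurd h (by simp)⟩, (hF' V hV).2⟩)
  refine Submodule.span_mono ?_ h
  rintro z ⟨k, j0, G, d, hG1, hG2, h1, h2, -, rfl⟩
  rw [hdb] at h1 h2
  have h3 : d j0 + ∑ j ∈ Finset.univ.erase j0, d j = Q.db P := by
    rw [← h1, Finset.add_sum_erase _ _ (Finset.mem_univ j0)]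
  refine ⟨k, j0, G, d, hG1, ?_, ?_, ?_, rfl⟩
  · intro h0
    apply h2
    rw [h0, add_zero] at h3
    exact h3
  · intro V hV
    obtain ⟨h4, h5⟩ := hG2 j0 V hV
    refine ⟨fun h6 => by simpa using h4.1 h6, ?_⟩
    have h6 := R7.db_cb_add Q V
    have h7 : Q.db (Finset.univ \ P) + Q.db P = Q.db Finset.univ := by
      funext i
      simp only [Pi.add_apply, QD.db]
      rw [← Finset.card_union_of_disjoint]
      · congr 1; ext b
        simp only [Finset.mem_union, Finset.mem_filter, Finset.mem_sdiff, Finset.mem_univ,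
          true_and]
        tauto
      · rw [Finset.disjoint_left]
        intro b h8 h9
        simp only [Finset.mem_filter, Finset.mem_sdiff, Finset.mem_univ, true_and] at h8 h9
        exact h8.1 h9.1
    rw [h5] at h6
    have h8 : Q.db (bx V) + d j0 =
        (Q.db (Finset.univ \ P) + ∑ j ∈ Finset.univ.erase j0, d j) + d j0 := by
      rw [h6, ← h7, ← h3]; abel
    exact add_right_cancel h8
  · intro j hj V hV
    obtain ⟨h4, h5⟩ := hG2 j V hV
    exact ⟨h4.2 (by simpa using hj), h5⟩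

/-- (I1-) block `P = V`, unframed -/
theorem pleth_one [Algebra ℚ Λ] (P : Finset B) (hP : QD.cst 1 ∈ (Q.resU P).KS True)
    {F : Finset (Option B) → SS B Λ} (hF : F ∈ Q.Eqv)
    (hF' : ∀ V, F V ≠ 0 → none ∈ V ∧ Q.db (cb V) = Q.db P) :
    Q.M F ∈ Submodule.span Λ {z | ∃ (k : ℕ) (G : Fin k → Finset (Option B) → SS B Λ)
      (d : Fin k → I → ℕ), (∀ j, G j ∈ Q.Eqv) ∧ (∀ j, d j ≠ Q.db P) ∧
      (∀ j V, G j V ≠ 0 → none ∈ V ∧ Q.db (cb V) = d j) ∧ ∑ j, d j = Q.db P ∧
      z = ∏ j, Q.M (G j)} := by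
  have hdb : (Q.resU P).db Finset.univ = Q.db P := by
    funext i
    rw [QD.db, QD.db, ← Finset.card_map (Function.Embedding.subtype _)]
    congr 1
    ext b
    simp only [Finset.mem_map, Finset.mem_filter (s := P), Function.Embedding.coe_subtype,
      Subtype.exists, exists_prop, exists_and_left]
    constructor
    · rintro ⟨b', hb', h1, rfl⟩
      exact ⟨hb', (Finset.mem_filter.1 h1).2⟩
    · rintro ⟨h1, h2⟩
      exact ⟨b, h1, Finset.mem_filter.2 ⟨Finset.mem_univ _, h2⟩, rfl⟩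
  have h := R7.pleth_main (Q.resU P) Q (je := Subtype.val) Subtype.val_injective (fun _ => rfl)
    (fun _ => rfl) (fun _ => rfl) (fun k j0 j => true) true
    (fun k j0 => by simp) (fun _ _ a ha => absurd ha a.2)
    (fun _ _ a => by
      by_cases ha : Q.tgt a = none
      · exact Or.inr ⟨ha, fun _ => rfl⟩
      · exact Or.inl ⟨⟨a, ha⟩, rfl⟩) hP hF (fun V hV => by
      rw [hdb]
      exact ⟨⟨fun _ => rfl, fun _ => (hF' V hV).1⟩, (hF' V hV).2⟩)
  refine Submodule.span_mono ?_ h
  rintro z ⟨k, j0, G, d, hG1, hG2, h1, h2, h2', rfl⟩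
  rw [hdb] at h1 h2
  refine ⟨k, G, d, hG1, ?_, fun j V hV => ⟨(hG2 j V hV).1.2 rfl, (hG2 j V hV).2⟩, h1, rfl⟩
  intro j h3
  by_cases hj : j = j0
  · exact h2 (hj ▸ h3)
  · apply h2' trivial
    rw [← Finset.add_sum_erase _ _ (Finset.mem_univ j), h3] at h1
    have h4 := add_eq_left.1 h1
    funext i
    have h5 := congrFun h4 i
    rw [Finset.sum_apply] at h5
    exact (Finset.sum_eq_zero_iff.1 h5) j0 (Finset.mem_erase.2 ⟨fun h => hj h.symm,
      Finset.mem_univ _⟩)

end Vale.Agent.P291
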