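import Vale.Agent.P291.RCore
import Vale.Agent.P291.H548.Theta

/-!
# P291, regular layer, block R8: the involution (interface form)
-/

set_option linter.unusedSectionVars false

open MvPolynomial

namespace Vale.Agent.P291

variable {I E B Λ : Type*} [Fintype E] [DecidableEq I] [Fintype B] [DecidableEq B] [CommRing Λ]
  [IsDomain Λ]
variable (Q : QD I E B Λ)

theorem theta : ∃ θ : AA B Λ →+* AA B Λ, (∀ f : KK B Λ,
      θ (AddMonoidAlgebra.single 0 f) = AddMonoidAlgebra.single 0 f) ∧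
    ∀ F : Finset (Option B) → SS B Λ, θ (Q.M F) = Q.M (fun V => F Vᶜ) := by
  refine ⟨(TH.theta Q : AA B Λ →ₐ[KK B Λ] AA B Λ).toRingHom, fun f => ?_, fun F => ?_⟩
  · show TH.theta Q (AddMonoidAlgebra.single 0 f) = AddMonoidAlgebra.single 0 f
    rw [TH.theta_single, neg_zero, TH.chr_zero, mul_one]
  · exact TH.theta_M Q F

theorem compl_mem_Eqv {F : Finset (Option B) → SS B Λ} (hF : F ∈ Q.Eqv) :
    (fun V => F Vᶜ) ∈ Q.Eqv := by
  intro σ hσ V
  show F (vact σ V)ᶜ = _
  rw [← TH.vact_compl]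
  exact hF σ hσ Vᶜ

end Vale.Agent.P291
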