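import Vale.Agent.P291.R5Blk
import Vale.Agent.P291.R7Blk
import Vale.Agent.P291.R8Blk
import Vale.Agent.P291.H548.Wall

/-!
# P291, regular layer, block R10: `II ≤ J_ν` for regular `ν`
-/

set_option linter.unusedSectionVars false

open MvPolynomial

namespace Vale.Agent.P291

namespace R10

variable {I E B Λ : Type*} [Fintype E] [DecidableEq I] [Fintype B] [DecidableEq B] [CommRing Λ]
  [IsDomain Λ]
variable (Q : QD I E B Λ)

/-! ### dimension vectors and colourings -/

theorem db_disj {U U' : Finset B} (h : Disjoint U U') : Q.db (U ∪ U') = Q.db U + Q.db U' := by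
  funext i
  simp only [QD.db, Pi.add_apply]
  rw [Finset.filter_union, Finset.card_union_of_disjoint]
  exact Finset.disjoint_filter_filter h

theorem db_sdiff {U U' : Finset B} (h : U ⊆ U') : Q.db U + Q.db (U' \ U) = Q.db U' := by
  rw [← db_disj Q Finset.disjoint_sdiff, Finset.union_sdiff_of_subset h]

theorem db_mono {U U' : Finset B} (h : U ⊆ U') : Q.db U ≤ Q.db U' := by
  intro i
  exact Finset.card_le_card (Finset.filter_subset_filter _ h)

theorem bx_cb (V : Finset (Option B)) : Q.db (bx V) + Q.db (cb V) = Q.db Finset.univ := by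
  have h : cb V = Finset.univ \ bx V := by
    ext b; simp [cb, bx]
  rw [h]
  exact db_sdiff Q (Finset.subset_univ _)

theorem exists_sub (P : Finset B) {d : I → ℕ} (h : d ≤ Q.db P) : ∃ U ⊆ P, Q.db U = d := by
  have h1 : ∀ i, ∃ U ⊆ P.filter (fun b => Q.vx b = i), U.card = d i := fun i =>
    Finset.exists_subset_card_eq (h i)
  choose U hU hd using h1
  refine ⟨P.filter fun b => b ∈ U (Q.vx b), Finset.filter_subset _ _, ?_⟩
  funext i
  rw [← hd i]
  simp only [QD.db]
  congr 1
  ext b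
  simp only [Finset.mem_filter]
  constructor
  · rintro ⟨⟨_, h2⟩, rfl⟩
    exact h2
  · intro h2
    have h3 := Finset.mem_filter.1 (hU i h2)
    refine ⟨⟨h3.1, ?_⟩, h3.2⟩
    rw [h3.2]; exact h2

theorem exists_col (l : Multiset (I → ℕ)) (h : l.sum ≤ Q.db Finset.univ) :
    ∃ g : B → ℕ, Q.db (Finset.univ.filter fun b => g b = 0) + l.sum = Q.db Finset.univ ∧
      ∀ j, j ≠ 0 → (∃ b, g b = j) → Q.db (Finset.univ.filter fun b => g b = j) ∈ l := by
  induction l using Multiset.induction_on with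
  | empty =>
    refine ⟨0, ?_, ?_⟩
    · simp
    · rintro j hj ⟨b, hb⟩
      exact absurd hb.symm hj
  | cons d l ih =>
    rw [Multiset.sum_cons] at h
    obtain ⟨g, hg0, hg⟩ := ih (le_trans le_add_self h)
    have hd : d ≤ Q.db (Finset.univ.filter fun b => g b = 0) := by
      rw [← hg0] at h
      exact le_of_add_le_add_right h
    obtain ⟨U, hU, hUd⟩ := exists_sub Q _ hd
    let m := Finset.univ.sup g + 1
    have hm : ∀ b, g b < m := fun b => Nat.lt_succ_of_le (Finset.le_sup (Finset.mem_univ b))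
    refine ⟨fun b => if b ∈ U then m else g b, ?_, ?_⟩
    · have e1 : (Finset.univ.filter fun b => (if b ∈ U then m else g b) = 0) =
          (Finset.univ.filter fun b => g b = 0) \ U := by
        ext b
        simp only [Finset.mem_filter, Finset.mem_univ, true_and, Finset.mem_sdiff]
        by_cases hb : b ∈ U
        · simp [hb, m]
        · simp [hb]
      have e2 := db_sdiff Q hU
      rw [e1, Multiset.sum_cons, ← hg0, ← e2, hUd]
      abel
    · rintro j hj ⟨b, hb⟩
      simp only at hb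
      by_cases hjm : j = m
      · have e1 : (Finset.univ.filter fun b => (if b ∈ U then m else g b) = j) = U := by
          ext c
          simp only [Finset.mem_filter, Finset.mem_univ, true_and]
          by_cases hc : c ∈ U
          · simp [hc, hjm]
          · have := hm c
            simp only [hc, if_false, iff_false]
            omega
        rw [e1, hUd]
        exact Multiset.mem_cons_self _ _
      · have e1 : (Finset.univ.filter fun b => (if b ∈ U then m else g b) = j) =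
            Finset.univ.filter fun b => g b = j := by
          ext c
          simp only [Finset.mem_filter, Finset.mem_univ, true_and]
          by_cases hc : c ∈ U
          · have h0 := (Finset.mem_filter.1 (hU hc)).2
            simp only [hc, if_true, h0]
            constructor
            · intro h'; exact absurd h'.symm hjm
            · intro h'; exact absurd h'.symm hj
          · simp [hc]
        rw [e1]
        refine Multiset.mem_cons_of_mem (hg j hj ⟨b, ?_⟩)
        by_cases hc : b ∈ U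
        · rw [if_pos hc] at hb
          exact absurd hb.symm hjm
        · rwa [if_neg hc] at hb

/-! ### the sets of generators -/

/-- the pieces: `s = true` positive type, `s = false` negative type -/
def Ps (s : Bool) (d : I → ℕ) : Set Q.A :=
  {x | ∃ F ∈ Q.Eqv, (∀ V, F V ≠ 0 → (none ∈ V ↔ s = false) ∧
    Q.db (cond s (bx V) (cb V)) = d) ∧ (x : AA B Λ) = Q.M F}

/-- `θ` on `A` -/
noncomputable def thA : Q.A →+* Q.A where
  toFun x := ⟨TH.theta Q x, TH.theta_mem_A Q x.2⟩
  map_one' := by ext1; simp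
  map_mul' x y := by ext1; simp
  map_zero' := by ext1; simp
  map_add' x y := by ext1; simp

theorem thA_coe (x : Q.A) : (thA Q x : AA B Λ) = TH.theta Q x := rfl

theorem thA_thA (x : Q.A) : thA Q (thA Q x) = x := by
  apply Subtype.ext
  rw [thA_coe, thA_coe, TH.theta_theta]

theorem bx_compl (V : Finset (Option B)) : bx Vᶜ = cb V := by
  ext b; simp [bx, cb]

theorem cb_compl (V : Finset (Option B)) : cb Vᶜ = bx V := by
  ext b; simp [bx, cb]

theorem thA_Ps {s : Bool} {d : I → ℕ} {x : Q.A} (hx : x ∈ Ps Q s d) : thA Q x ∈ Ps Q (!s) d := by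
  obtain ⟨F, hF, hF', hx⟩ := hx
  refine ⟨TH.cp F, TH.cp_mem Q hF, ?_, ?_⟩
  · intro V hV
    have h := hF' Vᶜ hV
    cases s
    · simp only [Bool.not_false, Bool.cond_true, Bool.cond_false, Finset.mem_compl, iff_true,
        cb_compl] at h ⊢
      exact ⟨by simpa using h.1, h.2⟩
    · simp only [Bool.not_true, Bool.cond_true, Bool.cond_false, Finset.mem_compl,
        bx_compl] at h ⊢
      refine ⟨?_, h.2⟩
      have := h.1
      simp only [Bool.true_eq_false, iff_false, not_not] at this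
      simp [this]
  · rw [thA_coe, hx, TH.theta_M]

/-- the ideal of `A` defined by `J_ν` -/
noncomputable def Jid (ν : I → ℤ) : Ideal Q.A :=
  Submodule.comap (Algebra.linearMap Q.A (AA B Λ)) (Q.JN ν)

theorem mem_Jid {ν : I → ℤ} {x : Q.A} : x ∈ Jid Q ν ↔ (x : AA B Λ) ∈ Q.JN ν := Iff.rfl

theorem wt_neg (ν : I → ℤ) (lam : B → ℤ) : Q.wt ν (-lam) = - Q.wt ν lam := by
  simp [QD.wt, Finset.sum_neg_distrib]

theorem theta_JN {ν : I → ℤ} {z : AA B Λ} (hz : z ∈ Q.JN ν) : TH.theta Q z ∈ Q.JN ν := by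
  refine Submodule.span_induction (p := fun x _ => TH.theta Q x ∈ Q.JN ν) ?_ ?_ ?_ ?_ hz
  · rintro x ⟨F, hF, h1, rfl⟩
    rw [TH.theta_M]
    refine Submodule.subset_span ⟨TH.cp F, TH.cp_mem Q hF, ?_, rfl⟩
    intro V hV
    have h2 := h1 Vᶜ hV
    rw [TH.lamV_compl, wt_neg] at h2
    exact fun h3 => h2 (by rw [h3, neg_zero])
  · rw [map_zero]; exact Submodule.zero_mem _
  · intro x y _ _ hx hy
    rw [map_add]; exact Submodule.add_mem _ hx hy
  · intro a x _ hx
    have h1 : a • x = (a : AA B Λ) * x := rfl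
    rw [h1, map_mul]
    exact Submodule.smul_mem _ (⟨TH.theta Q a, TH.theta_mem_A Q a.2⟩ : Q.A) hx

theorem thA_Jid {ν : I → ℤ} {x : Q.A} (hx : x ∈ Jid Q ν) : thA Q x ∈ Jid Q ν :=
  theta_JN Q hx

theorem sum_db [Fintype I] (ν : I → ℤ) (U : Finset B) :
    ∑ b ∈ U, ν (Q.vx b) = ∑ i, ν i * (Q.db U i : ℤ) := by
  rw [← Finset.sum_fiberwise U Q.vx]
  refine Finset.sum_congr rfl fun i _ => ?_
  rw [QD.db, Finset.sum_congr rfl (g := fun _ => ν i)
    (fun b hb => by rw [(Finset.mem_filter.1 hb).2]), Finset.sum_const, nsmul_eq_mul, mul_comm]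

theorem wt_lamV [Fintype I] (ν : I → ℤ) (s : Bool) (V : Finset (Option B))
    (h : none ∈ V ↔ s = false) :
    Q.wt ν (lamV V) = cond s 1 (-1) * ∑ i, ν i * (Q.db (cond s (bx V) (cb V)) i : ℤ) := by
  rw [← sum_db]
  unfold QD.wt
  cases s
  · have h1 : none ∈ V := by simpa using h
    simp only [Bool.cond_false, cb]
    rw [Finset.sum_filter, neg_one_mul, ← Finset.sum_neg_distrib]
    refine Finset.sum_congr rfl fun b _ => ?_
    by_cases hb : some b ∈ V <;> simp [lamV, h1, hb]
  · have h1 : none ∉ V := by simpa using h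
    simp only [Bool.cond_true, bx, one_mul]
    rw [Finset.sum_filter]
    refine Finset.sum_congr rfl fun b _ => ?_
    by_cases hb : some b ∈ V <;> simp [lamV, h1, hb]

theorem Ps_Jid [Fintype I] (ν : I → ℤ) (s : Bool) (d : I → ℕ)
    (hd : ¬ ∑ i, ν i * (d i : ℤ) = 0) (x : Q.A) (hx : x ∈ Ps Q s d) : x ∈ Jid Q ν := by
  obtain ⟨F, hF, hF', hx⟩ := hx
  rw [mem_Jid, hx]
  refine Submodule.subset_span ⟨F, hF, ?_, rfl⟩
  intro V hV
  obtain ⟨h1, h2⟩ := hF' V hV
  rw [wt_lamV Q ν s V h1, h2]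
  cases s
  · simpa using hd
  · simpa using hd

/-! ### the two transfers inside the ring `A` -/

/-- exceptional dimension vectors of unframed pieces -/
def GG (d : I → ℕ) : Prop := ∃ P : Finset B, Q.db P = d ∧
  (1 : SS {b // b ∈ P} Λ) ∈ (Q.resU P).JHU

/-- exceptional charges for the framed piece -/
def HH (d : I → ℕ) : Prop := ∃ P : Finset B, Q.db P + d = Q.db Finset.univ ∧
  (1 : SS {b // b ∈ P} Λ) ∈ (Q.res P).JH

theorem span_le_ideal {Z : Set (AA B Λ)} {J : Ideal Q.A}
    (h : ∀ z ∈ Z, ∃ y : Q.A, (y : AA B Λ) = z ∧ y ∈ J) {x : Q.A}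
    (hx : (x : AA B Λ) ∈ Submodule.span Λ Z) : x ∈ J := by
  have key : ∀ z ∈ Submodule.span Λ Z, ∃ y : Q.A, (y : AA B Λ) = z ∧ y ∈ J := by
    intro z hz
    refine Submodule.span_induction
      (p := fun z _ => ∃ y : Q.A, (y : AA B Λ) = z ∧ y ∈ J) h ?_ ?_ ?_ hz
    · exact ⟨0, rfl, J.zero_mem⟩
    · rintro a b _ _ ⟨y, rfl, hy⟩ ⟨y', rfl, hy'⟩
      exact ⟨y + y', rfl, J.add_mem hy hy'⟩
    · rintro c a _ ⟨y, rfl, hy⟩
      refine ⟨c • y, rfl, ?_⟩
      rw [Algebra.smul_def]
      exact J.mul_mem_left _ hy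
  obtain ⟨y, hy, hyJ⟩ := key _ hx
  rwa [← Subtype.ext hy]

/-- splitting off the factors of dimension zero -/
theorem split_prod {k : ℕ} (S : Finset (Fin k)) (s : Bool) (G : Fin k → Finset (Option B) → SS B Λ)
    (d : Fin k → I → ℕ) (hG : ∀ j ∈ S, G j ∈ Q.Eqv)
    (hG' : ∀ j ∈ S, ∀ V, G j V ≠ 0 → (none ∈ V ↔ s = false) ∧
      Q.db (cond s (bx V) (cb V)) = d j) :
    ∃ c : Q.A, ∃ l : Multiset ((I → ℕ) × Q.A),
      (∀ a ∈ l, (a.1 ≠ 0 ∧ a.2 ∈ Ps Q s a.1) ∧ ∃ j ∈ S, a.1 = d j) ∧
      (l.map Prod.fst).sum = ∑ j ∈ S, d j ∧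
      ∏ j ∈ S, Q.M (G j) = (c * (l.map Prod.snd).prod : Q.A) := by
  classical
  let m : Fin k → Q.A := fun j => if h : j ∈ S then ⟨Q.M (G j), TB.M_mem Q (hG j h)⟩ else 1
  have hm : ∀ j ∈ S, (m j : AA B Λ) = Q.M (G j) := fun j hj => by simp [m, hj]
  refine ⟨∏ j ∈ S.filter (fun j => d j = 0), m j,
    (S.filter fun j => ¬ d j = 0).val.map (fun j => (d j, m j)), ?_, ?_, ?_⟩
  · intro a ha
    obtain ⟨j, hj, rfl⟩ := Multiset.mem_map.1 ha
    have hj' := Finset.mem_filter.1 (show j ∈ S.filter fun j => ¬ d j = 0 from hj)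
    exact ⟨⟨hj'.2, G j, hG j hj'.1, hG' j hj'.1, hm j hj'.1⟩, j, hj'.1, rfl⟩
  · rw [Multiset.map_map]
    have h1 : ((S.filter fun j => ¬ d j = 0).val.map (Prod.fst ∘ fun j => (d j, m j))).sum =
        ∑ j ∈ S.filter (fun j => ¬ d j = 0), d j := rfl
    rw [h1]
    exact Finset.sum_filter_ne_zero S
  · rw [Multiset.map_map]
    have h1 : ((S.filter fun j => ¬ d j = 0).val.map (Prod.snd ∘ fun j => (d j, m j))).prod =
        ∏ j ∈ S.filter (fun j => ¬ d j = 0), m j := rfl
    rw [h1, Finset.prod_filter_mul_prod_filter_not S (fun j => d j = 0) m]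
    have h2 : ((∏ j ∈ S, m j : Q.A) : AA B Λ) = ∏ j ∈ S, (m j : AA B Λ) :=
      map_prod Q.A.val m S
    rw [h2]
    exact Finset.prod_congr rfl fun j hj => (hm j hj).symm

theorem h1_neg [Algebra ℚ Λ] (d : I → ℕ) (hd : d ≠ 0) (hG : GG Q d) (x : Q.A)
    (hx : x ∈ Ps Q false d) :
    x ∈ Ideal.span {y | ∃ l : Multiset ((I → ℕ) × Q.A), 2 ≤ Multiset.card l ∧
      (∀ a ∈ l, a.1 ≠ 0 ∧ a.2 ∈ Ps Q false a.1) ∧ (l.map Prod.fst).sum = d ∧
        y = (l.map Prod.snd).prod} := by
  obtain ⟨P, hP, h1⟩ := hG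
  obtain ⟨F, hF, hF', hx⟩ := hx
  have hU : (Q.resU P).Unframed := fun a => a.2
  have h2 := pleth_one Q P (by
    have := JHU_KS (Q.resU P) hU h1
    exact this) hF (fun V hV => by
      have := hF' V hV
      simp only [iff_true, Bool.cond_false] at this
      rw [hP]; exact this)
  rw [← hx] at h2
  refine span_le_ideal Q ?_ h2
  rintro z ⟨k, G, e, hG, he, hG', hs, rfl⟩
  obtain ⟨c, l, hl, hl', hz⟩ := split_prod Q Finset.univ false G e (fun j _ => hG j)
    (fun j _ V hV => by simpa using hG' j V hV)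
  rw [hs, hP] at hl'
  refine ⟨_, hz.symm, Ideal.mul_mem_left _ _
    (Ideal.subset_span ⟨l, ?_, fun a ha => (hl a ha).1, hl', rfl⟩)⟩
  by_contra hlt
  push Not at hlt
  have h3 : Multiset.card l = 0 ∨ Multiset.card l = 1 := by omega
  rcases h3 with h3 | h3
  · rw [Multiset.card_eq_zero] at h3
    rw [h3, Multiset.map_zero, Multiset.sum_zero] at hl'
    exact hd hl'.symm
  · obtain ⟨a, rfl⟩ := Multiset.card_eq_one.1 h3
    rw [Multiset.map_singleton, Multiset.sum_singleton] at hl'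
    obtain ⟨j, _, hj⟩ := (hl a (Multiset.mem_singleton_self a)).2
    exact he j (by rw [← hj, hl', hP])

theorem h2_pos [Algebra ℚ Λ] (d : I → ℕ) (hH : HH Q d) (x : Q.A)
    (hx : x ∈ Ps Q true d) :
    x ∈ Ideal.span {y | ∃ l : Multiset ((I → ℕ) × Q.A), ∃ x0 : Q.A,
      (∀ a ∈ l, a.1 ≠ 0 ∧ a.2 ∈ Ps Q false a.1) ∧ (l.map Prod.fst).sum ≠ 0 ∧
      d + (l.map Prod.fst).sum ≤ Q.db Finset.univ ∧ x0 ∈ Ps Q true (d + (l.map Prod.fst).sum) ∧
      y = x0 * (l.map Prod.snd).prod} := by
  obtain ⟨P, hP, h1⟩ := hH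
  obtain ⟨F, hF, hF', hx⟩ := hx
  have hPc : Q.db (Finset.univ \ P) = d := by
    have := db_sdiff Q (Finset.subset_univ P)
    rw [← hP] at this
    exact add_left_cancel this
  have h2 := pleth_two Q P (by
    have := JH_KS (Q.res P) h1
    exact this) hF (fun V hV => by
      have h3 := hF' V hV
      simp only [Bool.true_eq_false, iff_false, Bool.cond_true] at h3
      refine ⟨h3.1, ?_⟩
      have h4 := bx_cb Q V
      rw [h3.2, ← hP, add_comm] at h4
      exact add_right_cancel h4)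
  rw [← hx] at h2
  refine span_le_ideal Q ?_ h2
  rintro z ⟨k, j0, G, e, hG, he, hG0, hG', rfl⟩
  rw [hPc] at hG0
  obtain ⟨c, l, hl, hsum, hz⟩ := split_prod Q (Finset.univ.erase j0) false G e (fun j _ => hG j)
    (fun j hj V hV => by simpa using hG' j (Finset.ne_of_mem_erase hj) V hV)
  rw [← Finset.mul_prod_erase Finset.univ _ (Finset.mem_univ j0)]
  by_cases h0 : ∃ V, G j0 V ≠ 0
  · obtain ⟨V, hV⟩ := h0
    refine ⟨⟨Q.M (G j0), TB.M_mem Q (hG j0)⟩ * (c * (l.map Prod.snd).prod), ?_, ?_⟩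
    · rw [MulMemClass.coe_mul, ← hz]
    · rw [mul_left_comm]
      refine Ideal.mul_mem_left _ _ (Ideal.subset_span
        ⟨l, ⟨Q.M (G j0), TB.M_mem Q (hG j0)⟩, fun a ha => (hl a ha).1, ?_, ?_, ?_, rfl⟩)
      · rw [hsum]; exact he
      · rw [hsum, ← (hG0 V hV).2]
        exact db_mono Q (Finset.subset_univ _)
      · rw [hsum]
        exact ⟨G j0, hG j0, fun V hV => by simpa using hG0 V hV, rfl⟩
  · push Not at h0
    refine ⟨0, ?_, Ideal.zero_mem _⟩
    have : G j0 = 0 := funext h0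
    rw [this]
    have h3 : Q.M (0 : Finset (Option B) → SS B Λ) = 0 := by
      simp [QD.M]
    rw [h3, zero_mul]
    rfl

theorem map_mem_span {S S' : Set Q.A} (h : ∀ y ∈ S, thA Q y ∈ S') {x : Q.A}
    (hx : x ∈ Ideal.span S) : thA Q x ∈ Ideal.span S' := by
  have h1 : Ideal.span S ≤ (Ideal.span S').comap (thA Q) :=
    Ideal.span_le.2 fun y hy => Ideal.subset_span (h y hy)
  exact h1 hx

theorem map_snd_prod (l : Multiset ((I → ℕ) × Q.A)) :
    thA Q (l.map Prod.snd).prod =
      ((l.map fun a => (a.1, thA Q a.2)).map Prod.snd).prod := by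
  rw [map_multiset_prod, Multiset.map_map, Multiset.map_map]
  rfl

theorem map_fst_sum (l : Multiset ((I → ℕ) × Q.A)) :
    ((l.map fun a => (a.1, thA Q a.2)).map Prod.fst) = l.map Prod.fst := by
  rw [Multiset.map_map]
  rfl

theorem h1_all [Algebra ℚ Λ] (s : Bool) (d : I → ℕ) (hd : d ≠ 0) (hG : GG Q d) (x : Q.A)
    (hx : x ∈ Ps Q s d) :
    x ∈ Ideal.span {y | ∃ l : Multiset ((I → ℕ) × Q.A), 2 ≤ Multiset.card l ∧
      (∀ a ∈ l, a.1 ≠ 0 ∧ a.2 ∈ Ps Q s a.1) ∧ (l.map Prod.fst).sum = d ∧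
        y = (l.map Prod.snd).prod} := by
  cases s
  · exact h1_neg Q d hd hG x hx
  · have h1 := h1_neg Q d hd hG (thA Q x) (thA_Ps Q hx)
    rw [← thA_thA Q x]
    refine map_mem_span Q ?_ h1
    rintro y ⟨l, hc, hl, hs, rfl⟩
    refine ⟨l.map fun a => (a.1, thA Q a.2), by rwa [Multiset.card_map], ?_, ?_, ?_⟩
    · intro a ha
      obtain ⟨b, hb, rfl⟩ := Multiset.mem_map.1 ha
      exact ⟨(hl b hb).1, thA_Ps Q (hl b hb).2⟩
    · rw [map_fst_sum, hs]
    · rw [map_snd_prod]

theorem h2_all [Algebra ℚ Λ] (s : Bool) (d : I → ℕ) (hH : HH Q d) (x : Q.A)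
    (hx : x ∈ Ps Q s d) :
    x ∈ Ideal.span {y | ∃ l : Multiset ((I → ℕ) × Q.A), ∃ x0 : Q.A,
      (∀ a ∈ l, a.1 ≠ 0 ∧ a.2 ∈ Ps Q (!s) a.1) ∧ (l.map Prod.fst).sum ≠ 0 ∧
      d + (l.map Prod.fst).sum ≤ Q.db Finset.univ ∧ x0 ∈ Ps Q s (d + (l.map Prod.fst).sum) ∧
      y = x0 * (l.map Prod.snd).prod} := by
  cases s
  · have h1 := h2_pos Q d hH (thA Q x) (thA_Ps Q hx)
    rw [← thA_thA Q x]
    refine map_mem_span Q ?_ h1
    rintro y ⟨l, x0, hl, hs, hle, hx0, rfl⟩
    refine ⟨l.map fun a => (a.1, thA Q a.2), thA Q x0, ?_, ?_, ?_, ?_, ?_⟩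
    · intro a ha
      obtain ⟨b, hb, rfl⟩ := Multiset.mem_map.1 ha
      exact ⟨(hl b hb).1, thA_Ps Q (hl b hb).2⟩
    · rw [map_fst_sum]; exact hs
    · rw [map_fst_sum]; exact hle
    · rw [map_fst_sum]; exact thA_Ps Q hx0
    · rw [map_mul, map_snd_prod]
  · exact h2_pos Q d hH x hx

/-! ### the regularity hypothesis -/

theorem hreg_aux [Fintype I] {ν : I → ℤ} (h : Q.Reg ν) (l : Multiset (I → ℕ)) (hl0 : l ≠ 0)
    (hl : ∀ d ∈ l, d ≠ 0 ∧ ∑ i, ν i * (d i : ℤ) = 0) (hle : l.sum ≤ Q.db Finset.univ) :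
    (∃ d ∈ l, GG Q d) ∨ HH Q l.sum := by
  obtain ⟨g, hg0, hg⟩ := exists_col Q l hle
  have hgne : g ≠ 0 := by
    rintro rfl
    simp only [Pi.zero_apply, Finset.filter_true] at hg0
    have hs : l.sum = 0 := by
      have : Q.db Finset.univ + l.sum = Q.db Finset.univ + 0 := by rw [hg0, add_zero]
      exact add_left_cancel this
    obtain ⟨d, hd⟩ := Multiset.exists_mem_of_ne_zero hl0
    apply (hl d hd).1
    obtain ⟨l', rfl⟩ := Multiset.exists_cons_of_mem hd
    rw [Multiset.sum_cons] at hs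
    funext i
    have := congrFun hs i
    simp only [Pi.add_apply, Pi.zero_apply] at this ⊢
    omega
  have hsum : ∀ j, j ≠ 0 → ∑ b ∈ Finset.univ.filter (fun b => g b = j), ν (Q.vx b) = 0 := by
    intro j hj
    by_cases hb : ∃ b, g b = j
    · rw [sum_db]
      exact (hl _ (hg j hj hb)).2
    · push Not at hb
      rw [Finset.filter_false_of_mem fun b _ => hb b, Finset.sum_empty]
  rcases h g hgne hsum with h1 | ⟨j, hj, hb, h1⟩
  · exact Or.inr ⟨_, hg0, h1⟩
  · exact Or.inl ⟨_, hg j hj hb, _, rfl, h1⟩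

/-! ### assembly -/

theorem Ps_all [Fintype I] [Algebra ℚ Λ] (ν : I → ℤ) (h : Q.Reg ν) (s : Bool) (d : I → ℕ)
    (hd : d ≤ Q.db Finset.univ) (hd0 : d ≠ 0) {x : Q.A} (hx : x ∈ Ps Q s d) : x ∈ Jid Q ν := by
  let sz : (I → ℕ) →+ ℕ :=
    { toFun := fun d => ∑ i, d i
      map_zero' := by simp
      map_add' := fun a b => by simp [Finset.sum_add_distrib] }
  refine Wall.wall (Jid Q ν) (fun d => d ≤ Q.db Finset.univ)
    (fun a b hab => le_trans le_self_add hab) sz ?_ (∑ i, Q.db Finset.univ i) ?_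
    (fun d => ∑ i, ν i * (d i : ℤ) = 0) (Ps Q) ?_ (GG Q) (HH Q) ?_ ?_ ?_ s d hd hd0 hx
  · intro d _ hs
    funext i
    have h1 : ∑ i, d i = 0 := hs
    exact (Finset.sum_eq_zero_iff.1 h1) i (Finset.mem_univ i)
  · intro d hd
    exact Finset.sum_le_sum fun i _ => hd i
  · intro s d _ hd x hx
    exact Ps_Jid Q ν s d hd x hx
  · intro s d _ hd0 hG x hx
    exact Submodule.mem_sup_right (h1_all Q s d hd0 hG x hx)
  · intro s d _ hH x hx
    exact Submodule.mem_sup_right (h2_all Q s d hH x hx)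
  · intro l hl0 hl hle
    exact hreg_aux Q h l hl0 hl hle

/-- type and dimension of a set -/
def key (V : Finset (Option B)) : Bool × (I → ℕ) :=
  (decide (none ∉ V), Q.db (cond (decide (none ∉ V)) (bx V) (cb V)))

theorem bx_vact {σ : Equiv.Perm B} (hσ : σ ∈ Q.W) (V : Finset (Option B)) :
    Q.db (bx (vact σ V)) = Q.db (bx V) := by
  funext i
  simp only [QD.db]
  refine Finset.card_bij (fun b _ => σ⁻¹ b) ?_ ?_ ?_
  · intro b hb
    simp only [bx, Finset.mem_filter, Finset.mem_univ, true_and, mem_vact_some] at hb ⊢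
    refine ⟨hb.1, ?_⟩
    rw [← hb.2, (mem_W Q).1 (inv_mem hσ)]
  · intro a _ b _ hab
    exact σ⁻¹.injective hab
  · intro b hb
    simp only [bx, Finset.mem_filter, Finset.mem_univ, true_and] at hb
    refine ⟨σ b, ?_, by simp⟩
    simp only [bx, Finset.mem_filter, Finset.mem_univ, true_and, mem_vact_some]
    refine ⟨?_, by rw [(mem_W Q).1 hσ, hb.2]⟩
    have : σ⁻¹ (σ b) = b := by simp
    rw [this]; exact hb.1

theorem cb_vact {σ : Equiv.Perm B} (hσ : σ ∈ Q.W) (V : Finset (Option B)) :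
    Q.db (cb (vact σ V)) = Q.db (cb V) := by
  rw [← bx_compl, ← bx_compl, ← TH.vact_compl, bx_vact Q hσ]

theorem key_vact {σ : Equiv.Perm B} (hσ : σ ∈ Q.W) (V : Finset (Option B)) :
    key Q (vact σ V) = key Q V := by
  unfold key
  by_cases h : none ∈ V
  · have h' : none ∈ vact σ V := (mem_vact_none σ V).2 h
    simp [h, h', cb_vact Q hσ]
  · have h' : none ∉ vact σ V := fun h' => h ((mem_vact_none σ V).1 h')
    simp [h, h', bx_vact Q hσ]

theorem M_mem_JN [Fintype I] [Algebra ℚ Λ] (ν : I → ℤ) (h : Q.Reg ν)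
    {F : Finset (Option B) → SS B Λ} (hF : F ∈ Q.Eqv) (h0 : F ∅ = 0) (h1 : F Finset.univ = 0) :
    Q.M F ∈ Q.JN ν := by
  classical
  let Fk : Bool × (I → ℕ) → Finset (Option B) → SS B Λ := fun a V =>
    if key Q V = a then F V else 0
  have hFk : ∀ a, Fk a ∈ Q.Eqv := by
    intro a σ hσ V
    simp only [Fk, key_vact Q hσ]
    split_ifs
    · exact hF σ hσ V
    · simp
  have hsum : Q.M F = ∑ a ∈ Finset.univ.image (key Q), Q.M (Fk a) := by
    unfold QD.M
    rw [Finset.sum_comm]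
    refine Finset.sum_congr rfl fun V _ => ?_
    rw [Finset.sum_eq_single (key Q V)]
    · simp [Fk]
    · intro a _ ha
      simp [Fk, Ne.symm ha]
    · intro ha
      exact absurd (Finset.mem_image_of_mem _ (Finset.mem_univ V)) ha
  rw [hsum]
  refine Submodule.sum_mem _ fun a ha => ?_
  obtain ⟨V0, _, rfl⟩ := Finset.mem_image.1 ha
  by_cases hz : (key Q V0).2 = 0
  · -- the dimension zero pieces vanish
    have : Fk (key Q V0) = 0 := by
      funext V
      simp only [Fk, Pi.zero_apply]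
      split_ifs with hk
      · have hd : (key Q V).2 = 0 := by rw [hk, hz]
        by_cases hn : none ∈ V
        · have hV : V = Finset.univ := by
            ext o
            simp only [Finset.mem_univ, iff_true]
            cases o with
            | none => exact hn
            | some b =>
              by_contra hb
              have h3 : Q.db (cb V) = 0 := by simpa [key, hn] using hd
              have h4 := congrFun h3 (Q.vx b)
              simp only [QD.db, Pi.zero_apply, Finset.card_eq_zero] at h4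
              have h5 : b ∈ (cb V).filter fun b' => Q.vx b' = Q.vx b := by
                simp [cb, hb]
              rw [h4] at h5
              exact absurd h5 (Finset.notMem_empty b)
          rw [hV, h1]
        · have hV : V = ∅ := by
            ext o
            simp only [Finset.notMem_empty, iff_false]
            cases o with
            | none => exact hn
            | some b =>
              intro hb
              have h3 : Q.db (bx V) = 0 := by simpa [key, hn] using hd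
              have h4 := congrFun h3 (Q.vx b)
              simp only [QD.db, Pi.zero_apply, Finset.card_eq_zero] at h4
              have h5 : b ∈ (bx V).filter fun b' => Q.vx b' = Q.vx b := by
                simp [bx, hb]
              rw [h4] at h5
              exact absurd h5 (Finset.notMem_empty b)
          rw [hV, h0]
      · rfl
    rw [this]
    have h3 : Q.M (0 : Finset (Option B) → SS B Λ) = 0 := by
      simp [QD.M]
    rw [h3]
    exact Submodule.zero_mem _
  · have hle : (key Q V0).2 ≤ Q.db Finset.univ := db_mono Q (Finset.subset_univ _)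
    have := Ps_all Q ν h (key Q V0).1 (key Q V0).2 hle hz
      (x := ⟨Q.M (Fk (key Q V0)), TB.M_mem Q (hFk _)⟩) ⟨Fk (key Q V0), hFk _, ?_, rfl⟩
    · exact this
    · intro V hV
      have hk : key Q V = key Q V0 := by
        by_contra hne
        exact hV (by simp [Fk, hne])
      rw [← hk]
      refine ⟨?_, rfl⟩
      simp [key]

end R10

variable {I E B Λ : Type*} [Fintype E] [DecidableEq I] [Fintype B] [DecidableEq B] [CommRing Λ]
  [IsDomain Λ]
variable (Q : QD I E B Λ)

theorem II_le_JN [Fintype I] [Algebra ℚ Λ] (ν : I → ℤ) (h : Q.Reg ν) : Q.II ≤ Q.JN ν := by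
  refine Submodule.span_le.2 ?_
  rintro z ⟨F, hF, h0, h1, rfl⟩
  exact R10.M_mem_JN Q ν h hF h0 h1

end Vale.Agent.P291
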