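import Vale.Agent.P291.HCore

/-!
# P291, block HG2: eigenvectors with eigenvalues `2 ^ d`
-/

open MvPolynomial

namespace Vale.Agent.P291

namespace HG2

variable {k : Type*} [Field k] [CharZero k] {V : Type*} [AddCommGroup V] [Module k V]

theorem two_zpow_inj {d e : ℤ} (h : (2 : k) ^ d = 2 ^ e) : d = e := by
  have h2 : (((2 : ℚ) ^ d : ℚ) : k) = (((2 : ℚ) ^ e : ℚ) : k) := by
    push_cast; exact h
  exact zpow_right_injective₀ (by norm_num : (0 : ℚ) < 2) (by norm_num) (Rat.cast_injective h2)

/-- homogeneous components of a finite sum -/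
theorem comp_mem_finset (s : V →ₗ[k] V) (M : Submodule k V) (hM : ∀ x ∈ M, s x ∈ M)
    (T : Finset ℤ) : ∀ F : ℤ → V, (∀ d ∈ T, s (F d) = (2 : k) ^ d • F d) →
      (∑ d ∈ T, F d) ∈ M → ∀ d ∈ T, F d ∈ M := by
  classical
  induction T using Finset.induction_on with
  | empty => intro F _ _ d hd; simp at hd
  | insert a T ha ih =>
    intro F hF h
    have h1 : s (∑ d ∈ insert a T, F d) - (2 : k) ^ a • ∑ d ∈ insert a T, F d ∈ M :=
      M.sub_mem (hM _ h) (M.smul_mem _ h)
    have h2 : s (∑ d ∈ insert a T, F d) - (2 : k) ^ a • ∑ d ∈ insert a T, F d =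
        ∑ d ∈ T, ((2 : k) ^ d - (2 : k) ^ a) • F d := by
      rw [map_sum, Finset.smul_sum, ← Finset.sum_sub_distrib, Finset.sum_insert ha,
        hF a (Finset.mem_insert_self a T), sub_self, zero_add]
      refine Finset.sum_congr rfl fun d hd => ?_
      rw [hF d (Finset.mem_insert_of_mem hd), sub_smul]
    rw [h2] at h1
    have h3 := ih (fun d => ((2 : k) ^ d - (2 : k) ^ a) • F d) (fun d hd => by
      rw [map_smul, hF d (Finset.mem_insert_of_mem hd), smul_comm]) h1
    have h4 : ∀ d ∈ T, F d ∈ M := by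
      intro d hd
      have hne : (2 : k) ^ d - (2 : k) ^ a ≠ 0 := by
        intro h0
        have := two_zpow_inj (sub_eq_zero.1 h0)
        subst this
        exact ha hd
      have := M.smul_mem ((2 : k) ^ d - (2 : k) ^ a)⁻¹ (h3 d hd)
      rwa [smul_smul, inv_mul_cancel₀ hne, one_smul] at this
    intro d hd
    rcases Finset.mem_insert.1 hd with rfl | hd
    · have h5 : F d = ∑ e ∈ insert d T, F e - ∑ e ∈ T, F e := by
        rw [Finset.sum_insert ha, add_sub_cancel_right]
      rw [h5]
      exact M.sub_mem h (M.sum_mem h4)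
    · exact h4 d hd

end HG2

variable {k : Type*} [Field k] [CharZero k]

/-- homogeneous components of an element of a stable submodule stay in the submodule -/
theorem comp_mem {V : Type*} [AddCommGroup V] [Module k V] (s : V →ₗ[k] V) (M : Submodule k V)
    (hM : ∀ x ∈ M, s x ∈ M) (F : ℤ →₀ V) (hF : ∀ d, s (F d) = (2 : k) ^ d • F d)
    (h : (F.sum fun _ x => x) ∈ M) : ∀ d, F d ∈ M := by
  intro d
  by_cases hd : d ∈ F.support
  · exact HG2.comp_mem_finset s M hM F.support F (fun d _ => hF d) h d hd
  · rw [Finsupp.notMem_support_iff.1 hd]; exact M.zero_mem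

/-- dimension of the homogeneous pieces of a space with a homogeneous basis -/
theorem count_basis {V : Type*} [AddCommGroup V] [Module k V] (s : V →ₗ[k] V)
    {ι : Type*} (b : ι → V) (hb : LinearIndependent k b) (deg : ι → ℤ)
    (hs : ∀ i, s (b i) = (2 : k) ^ deg i • b i) (d : ℤ) (hd : {i | deg i = d}.Finite) :
    Module.finrank k ↥(Submodule.span k (Set.range b) ⊓
      LinearMap.ker (s - (2 : k) ^ d • LinearMap.id)) = Nat.card {i // deg i = d} := by
  classical
  have h1 : Submodule.span k (Set.range b) ⊓ LinearMap.ker (s - (2 : k) ^ d • LinearMap.id) =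
      Submodule.span k (Set.range fun i : {i // deg i = d} => b i.1) := by
    apply le_antisymm
    · rintro x ⟨hx, hk⟩
      obtain ⟨c, rfl⟩ := (Finsupp.mem_span_range_iff_exists_finsupp).1 hx
      have hk : (s - (2 : k) ^ d • (LinearMap.id : V →ₗ[k] V)) (c.sum fun i a => a • b i) = 0 := hk
      rw [LinearMap.sub_apply, LinearMap.smul_apply, LinearMap.id_apply,
        Finsupp.sum, map_sum, Finset.smul_sum, ← Finset.sum_sub_distrib] at hk
      have h2 : ∑ i ∈ c.support, (((2 : k) ^ deg i - 2 ^ d) * c i) • b i = 0 := by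
        rw [← hk]
        refine Finset.sum_congr rfl fun i _ => ?_
        rw [map_smul, hs, smul_smul, smul_smul, ← sub_smul]
        congr 1; ring
      have h3 := linearIndependent_iff'.1 hb c.support _ h2
      refine Submodule.sum_mem _ fun i hi => Submodule.smul_mem _ _ (Submodule.subset_span ?_)
      have h4 := h3 i hi
      have h5 : (2 : k) ^ deg i - 2 ^ d = 0 := by
        rcases mul_eq_zero.1 h4 with h | h
        · exact h
        · exact absurd h (Finsupp.mem_support_iff.1 hi)
      exact ⟨⟨i, HG2.two_zpow_inj (sub_eq_zero.1 h5)⟩, rfl⟩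
    · rw [Submodule.span_le]
      rintro _ ⟨i, rfl⟩
      refine ⟨Submodule.subset_span ⟨i.1, rfl⟩, ?_⟩
      have h2 : (s - (2 : k) ^ d • (LinearMap.id : V →ₗ[k] V)) (b i.1) = 0 := by
        rw [LinearMap.sub_apply, LinearMap.smul_apply, LinearMap.id_apply, hs, i.2, sub_self]
      exact h2
  rw [h1]
  have hli : LinearIndependent k fun i : {i // deg i = d} => b i.1 :=
    hb.comp _ Subtype.val_injective
  have : Finite {i // deg i = d} := hd.to_subtype
  have : Fintype {i // deg i = d} := Fintype.ofFinite _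
  rw [finrank_span_eq_card hli, Nat.card_eq_fintype_card]

end Vale.Agent.P291
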