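import Vale.Agent.P291.HG1Blk
import Vale.Agent.P291.HG2Blk

/-!
# P291, block H4, part a: homogeneity over `k[t]` in terms of coefficients
-/

open MvPolynomial

namespace Vale.Agent.P291

namespace H4

variable {B Λ k : Type*} [CommRing Λ] [Field k] [CharZero k] [Algebra k Λ]

/-- total degree of an exponent -/
def wt (m : B →₀ ℕ) : ℕ := m.sum fun _ n => n

theorem sS_monomial (S : Scal k Λ) (m : B →₀ ℕ) (c : Λ) :
    S.sS B (monomial m c) = monomial m (2 ^ wt m * S.θ c) := by
  rw [MvPolynomial.monomial_eq, map_mul, Scal.sS_C, MvPolynomial.monomial_eq (a := 2 ^ wt m * S.θ c),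
    C_mul, C_pow]
  have h2 : (C (2 : Λ) : SS B Λ) = 2 := map_ofNat C 2
  have h3 : S.sS B (m.prod fun n e => X n ^ e) = 2 ^ wt m * m.prod fun n e => X n ^ e := by
    rw [Finsupp.prod, map_prod, wt, Finsupp.sum, ← Finset.prod_pow_eq_pow_sum,
      ← Finset.prod_mul_distrib]
    refine Finset.prod_congr rfl fun b _ => ?_
    rw [map_pow, Scal.sS_X, mul_pow]
  rw [h2, h3]; ring

theorem coeff_sS (S : Scal k Λ) (f : SS B Λ) (m : B →₀ ℕ) :
    coeff m (S.sS B f) = 2 ^ wt m * S.θ (coeff m f) := by
  classical
  induction f using MvPolynomial.induction_on' with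
  | monomial m' c =>
    rw [sS_monomial, coeff_monomial, coeff_monomial]
    split_ifs with h
    · rw [h]
    · rw [map_zero, mul_zero]
  | add p q hp hq => rw [map_add, coeff_add, hp, hq, coeff_add, map_add, mul_add]

end H4

namespace H4

variable {B k : Type*} [Field k] [CharZero k]

theorem theta_coeff (c : Polynomial k) (n : ℕ) :
    ((scalPoly k).θ c).coeff n = 2 ^ n * c.coeff n := by
  have h : ∀ c : Polynomial k, (scalPoly k).θ c = Polynomial.aeval (2 * Polynomial.X) c :=
    fun c => rfl
  induction c using Polynomial.induction_on' with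
  | add p q hp hq => rw [map_add, Polynomial.coeff_add, hp, hq, Polynomial.coeff_add, mul_add]
  | monomial m a =>
    have h2 : ((2 : Polynomial k) * Polynomial.X) ^ m = Polynomial.C (2 ^ m) * Polynomial.X ^ m := by
      rw [mul_pow, Polynomial.C_pow]; rfl
    rw [h, Polynomial.aeval_monomial, h2, Polynomial.algebraMap_eq, ← mul_assoc,
      ← Polynomial.C_mul, Polynomial.C_mul_X_pow_eq_monomial, Polynomial.coeff_monomial,
      Polynomial.coeff_monomial]
    split_ifs with h'
    · rw [h']; ring
    · rw [mul_zero]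

theorem coeff_sS_coeff (f : SS B (Polynomial k)) (m : B →₀ ℕ) (n : ℕ) :
    (coeff m ((scalPoly k).sS B f)).coeff n = 2 ^ (wt m + n) * (coeff m f).coeff n := by
  have h2 : (2 : Polynomial k) ^ wt m = Polynomial.C (2 ^ wt m) := by
    rw [Polynomial.C_pow]; rfl
  rw [coeff_sS, h2, Polynomial.coeff_C_mul, theta_coeff, ← mul_assoc, ← pow_add]

theorem two_pow_mul_coeff (N : ℕ) (f : SS B (Polynomial k)) (m : B →₀ ℕ) (n : ℕ) :
    (coeff m ((2 : SS B (Polynomial k)) ^ N * f)).coeff n = 2 ^ N * (coeff m f).coeff n := by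
  have h2 : (2 : SS B (Polynomial k)) ^ N = C (Polynomial.C ((2 : k) ^ N)) := by
    rw [Polynomial.C_pow, C_pow]; rfl
  rw [h2, coeff_C_mul, Polynomial.coeff_C_mul]

theorem toK_inj {f g : SS B (Polynomial k)} (h : toK f = toK g) : f = g :=
  IsFractionRing.injective (SS B (Polynomial k)) (KK B (Polynomial k)) h

/-- homogeneity over `k[t]`, in terms of coefficients -/
theorem hom_iff (d : ℤ) (f : SS B (Polynomial k)) : (scalPoly k).Hom d (toK f) ↔
    ∀ m n, (coeff m f).coeff n ≠ 0 → ((wt m + n : ℕ) : ℤ) = d := by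
  rw [HG1.hom_toK_iff]
  constructor
  · intro h m n hn
    obtain ⟨N, D, hND⟩ : ∃ N D : ℕ, d + N = D := by
      refine ⟨d.natAbs, (d + d.natAbs).toNat, ?_⟩
      omega
    have h2 := HG1.two_ne k (B := B) (Λ := Polynomial k)
    have h3 : toK ((2 : SS B (Polynomial k)) ^ N * (scalPoly k).sS B f) =
        toK ((2 : SS B (Polynomial k)) ^ D * f) := by
      rw [HG1.toK_mul, HG1.toK_mul, HG1.toK_pow, HG1.toK_pow, HG1.toK_two, h, ← mul_assoc]
      congr 1
      rw [← zpow_natCast, ← zpow_natCast, ← zpow_add₀ h2, ← hND, add_comm]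
    have h4 := congrArg (fun f : SS B (Polynomial k) => (coeff m f).coeff n) (toK_inj h3)
    simp only [two_pow_mul_coeff, coeff_sS_coeff] at h4
    rw [← mul_assoc, ← pow_add] at h4
    have h5 : (2 : k) ^ ((N + (wt m + n) : ℕ) : ℤ) = 2 ^ (D : ℤ) := by
      rw [zpow_natCast, zpow_natCast]
      exact mul_right_cancel₀ hn h4
    have h6 := HG2.two_zpow_inj h5
    push_cast at h6 ⊢
    omega
  · intro h
    by_cases h0 : f = 0
    · subst h0; simp
    · obtain ⟨m, hm⟩ := MvPolynomial.ne_zero_iff.1 h0
      obtain ⟨n, hn⟩ : ∃ n, (coeff m f).coeff n ≠ 0 := by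
        by_contra hcon
        push Not at hcon
        exact hm (Polynomial.ext fun n => by rw [hcon n, Polynomial.coeff_zero])
      have hd := h m n hn
      rw [← hd, zpow_natCast]
      have h3 : (scalPoly k).sS B f = 2 ^ (wt m + n) * f := by
        refine MvPolynomial.ext _ _ fun m' => Polynomial.ext fun n' => ?_
        rw [two_pow_mul_coeff, coeff_sS_coeff]
        by_cases h4 : (coeff m' f).coeff n' = 0
        · rw [h4, mul_zero, mul_zero]
        · have := h m' n' h4
          rw [← hd] at this
          have h5 : wt m' + n' = wt m + n := by exact_mod_cast this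
          rw [h5]
      rw [h3, HG1.toK_mul, HG1.toK_pow, HG1.toK_two]

theorem hom_neg {d : ℤ} (hd : d < 0) {f : SS B (Polynomial k)}
    (hf : (scalPoly k).Hom d (toK f)) : f = 0 := by
  rw [hom_iff] at hf
  refine MvPolynomial.ext _ _ fun m => Polynomial.ext fun n => ?_
  by_contra h
  have := hf m n (by simpa using h)
  omega

/-- the homogeneous pieces are finite dimensional -/
theorem finite_homS [Finite B] (d : ℤ) : Module.Finite k ((scalPoly k).homS B d) := by
  classical
  have hfin : {m : B →₀ ℕ | Finsupp.degree m ≤ d.toNat}.Finite := Finsupp.finite_of_degree_le _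
  have : Finite {m : B →₀ ℕ // Finsupp.degree m ≤ d.toNat} := hfin.to_subtype
  let L : ↥((scalPoly k).homS B d) →ₗ[k] ({m : B →₀ ℕ // Finsupp.degree m ≤ d.toNat} → k) :=
    { toFun := fun f m => (coeff m.1 f.1).coeff (d.toNat - wt m.1)
      map_add' := fun f g => by
        funext m
        simp
      map_smul' := fun c f => by
        funext m
        simp [MvPolynomial.coeff_smul] }
  refine Module.Finite.of_injective L ?_
  intro f g hfg
  have key : ∀ f : ↥((scalPoly k).homS B d), (L f = 0) → f = 0 := by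
    intro f hf
    have h1 : (scalPoly k).Hom d (toK f.1) := f.2
    rw [hom_iff] at h1
    apply Subtype.ext
    refine MvPolynomial.ext _ _ fun m => Polynomial.ext fun n => ?_
    by_contra h
    have hne : (coeff m f.1).coeff n ≠ 0 := by simpa using h
    have h2 := h1 m n hne
    have hdeg : Finsupp.degree m = wt m := rfl
    have h3 : wt m ≤ d.toNat := by omega
    have h4 : d.toNat - wt m = n := by omega
    have h5 := congrFun hf ⟨m, by rw [hdeg]; exact h3⟩
    have h6 : (coeff m f.1).coeff (d.toNat - wt m) = 0 := h5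
    rw [h4] at h6
    exact hne h6
  have := key (f - g) (by rw [map_sub, hfg, sub_self])
  exact sub_eq_zero.1 this

end H4

end Vale.Agent.P291
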