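import Vale.Agent.P291.H4a
import Vale.Agent.P291.Main

/-!
# P291, block H4, part b: specialisation `t = 0` and multiplication by `t`
-/

open MvPolynomial

namespace Vale.Agent.P291

namespace H4

section general

variable {I E B Λ : Type*} [Fintype E] [DecidableEq I] [Fintype B] [DecidableEq B] [CommRing Λ]
  [IsDomain Λ]
variable (Q : QD I E B Λ)

theorem JC_zero : (0 : SS B Λ) ∈ Q.JC := by
  refine ⟨Q.R.zero_mem, ?_⟩
  have : QD.cst (0 : SS B Λ) = 0 := by simp [QD.cst]
  rw [this]; exact Q.II.zero_mem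

theorem JC_add {f g : SS B Λ} (hf : f ∈ Q.JC) (hg : g ∈ Q.JC) : f + g ∈ Q.JC := by
  refine ⟨Q.R.add_mem hf.1 hg.1, ?_⟩
  rw [cst_add]; exact Q.II.add_mem hf.2 hg.2

theorem JC_smul (c : Λ) {f : SS B Λ} (hf : f ∈ Q.JC) : c • f ∈ Q.JC := by
  refine ⟨Q.R.smul_mem hf.1 c, ?_⟩
  have h1 : QD.cst (c • f) = algebraMap Λ (AA B Λ) c * QD.cst f := by
    rw [algebraMap_AA, MvPolynomial.smul_eq_C_mul, cst_mul]
    rfl
  rw [h1]
  exact Q.II.smul_mem (algebraMap Λ Q.A c) hf.2

variable {k : Type*} [Field k] [CharZero k] [Algebra k Λ] (S : Scal k Λ)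

theorem sS_D : S.sS B Q.D = 2 ^ (Q.Prs.filter fun p => p.1 ≠ p.2).card * Q.D := by
  unfold QD.D
  rw [map_prod, ← Finset.prod_const, ← Finset.prod_mul_distrib]
  refine Finset.prod_congr rfl fun p _ => ?_
  rw [map_sub, Scal.sS_X, Scal.sS_X]; ring

theorem sS_xi (hS : Q.Lin S) (p : E × B × Option B) : S.sS B (Q.xi p) = 2 * Q.xi p := by
  unfold QD.xi
  have h1 : S.sS B (xo Λ p.2.2) = 2 * xo Λ p.2.2 := by
    rcases p.2.2 with _ | b
    · simp [xo]
    · exact Scal.sS_X S B b
  have h2 : (C (2 : Λ) : SS B Λ) = 2 := map_ofNat C 2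
  rw [map_add, map_sub, h1, Scal.sS_X, Scal.sS_C, hS p.1, C_mul, h2]
  ring

theorem sS_cut (hS : Q.Lin S) (U : Finset B) : S.sS B (Q.cut U) =
    2 ^ (Q.Wt.filter (fun p => ¬ (p.2.1 ∈ U ↔ ∃ b ∈ U, p.2.2 = some b))).card * Q.cut U := by
  unfold QD.cut
  rw [map_prod, ← Finset.prod_const, ← Finset.prod_mul_distrib]
  exact Finset.prod_congr rfl fun p _ => sS_xi Q S hS p

theorem sS_IT (hS : Q.Lin S) {f : SS B Λ} (hf : f ∈ Q.IT) : S.sS B f ∈ Q.IT := by
  have h : Q.IT ≤ Q.IT.comap (S.sS B : SS B Λ →+* SS B Λ) := by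
    conv_lhs => rw [QD.IT]
    rw [Ideal.span_le]
    rintro _ ⟨U, hU, rfl⟩
    show S.sS B (Q.cut U) ∈ Q.IT
    rw [sS_cut Q S hS]
    exact Ideal.mul_mem_left _ _ (Ideal.subset_span ⟨U, hU, rfl⟩)
  exact h hf

theorem half_pow (N : ℕ) : (C (algebraMap k Λ ((1 / 2) ^ N)) : SS B Λ) * 2 ^ N = 1 := by
  have h2 : (2 : SS B Λ) ^ N = C (algebraMap k Λ (2 ^ N)) := by
    rw [map_pow, C_pow, map_ofNat]; rfl
  rw [h2, ← map_mul, ← map_mul, ← mul_pow]
  norm_num

theorem sS_JD (hS : Q.Lin S) {f : SS B Λ} (hf : f ∈ Q.JD) : S.sS B f ∈ Q.JD := by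
  refine ⟨fun σ hσ => ?_, ?_⟩
  · rw [← HG1.sS_rename, hf.1 σ hσ]
  · have h1 := sS_IT Q S hS hf.2
    rw [map_mul, sS_D] at h1
    have h2 := Ideal.mul_mem_left Q.IT
      (C (algebraMap k Λ ((1 / 2) ^ (Q.Prs.filter fun p => p.1 ≠ p.2).card))) h1
    rw [← mul_assoc, ← mul_assoc, half_pow, one_mul] at h2
    exact h2

/-- scaling as a `k`-linear map -/
noncomputable def sL : SS B Λ →ₗ[k] SS B Λ where
  toFun := S.sS B
  map_add' := map_add _
  map_smul' := fun c f => by
    have h1 : ∀ f : SS B Λ, c • f = C (algebraMap k Λ c) * f := by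
      intro f
      rw [Algebra.smul_def, IsScalarTower.algebraMap_apply k Λ (SS B Λ)]
      rfl
    rw [RingHom.id_apply, h1, h1, map_mul, Scal.sS_C, S.θ.commutes]

/-- homogeneous components of elements of `J_D` are in `J_D` -/
theorem JD_comp (hS : Q.Lin S) (F : ℕ →₀ SS B Λ) (hF : ∀ d : ℕ, S.Hom (d : ℤ) (toK (F d)))
    (h : (F.sum fun _ x => x) ∈ Q.JD) (n : ℕ) : F n ∈ Q.JD := by
  classical
  by_cases hn : n ∈ F.support
  · have hF' : ∀ d : ℕ, S.sS B (F d) = 2 ^ d * F d := by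
      intro d
      have h1 := (HG1.hom_toK_iff S _ _).1 (hF d)
      have h2 : toK (S.sS B (F d)) = toK (2 ^ d * F d) := by
        rw [h1, zpow_natCast, HG1.toK_mul, HG1.toK_pow, HG1.toK_two]
      exact IsFractionRing.injective (SS B Λ) (KK B Λ) h2
    have h3 := HG2.comp_mem_finset (sL S) (Q.JDs.restrictScalars k)
      (fun x hx => sS_JD Q S hS hx) (F.support.image (Nat.cast : ℕ → ℤ))
      (fun d => F d.toNat) (by
        intro d hd
        obtain ⟨m, -, rfl⟩ := Finset.mem_image.1 hd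
        show S.sS B (F m) = (2 : k) ^ (m : ℤ) • F m
        rw [hF' m, zpow_natCast, Algebra.smul_def, map_pow, map_ofNat])
      (by
        rw [Finset.sum_image (fun a _ b _ hab => by exact_mod_cast hab)]
        exact h) (n : ℤ) (Finset.mem_image_of_mem _ hn)
    exact h3
  · rw [Finsupp.notMem_support_iff.1 hn]
    exact Q.JDs.zero_mem

end general

variable {I E B k : Type*} [Fintype E] [DecidableEq I] [Fintype B] [DecidableEq B] [Field k]
  [CharZero k]
variable (Q : QD I E B k)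

theorem line_lin : Q.line.Lin (scalPoly k) := fun a => by
  show (scalPoly k).θ Polynomial.X = 2 * Polynomial.X
  exact Polynomial.aeval_X _

theorem line_loops : Q.line.NonzeroLoops := fun _ _ => Polynomial.X_ne_zero

/-- evaluation at `t = 0` -/
noncomputable def ev0 (k : Type*) [Field k] : Polynomial k →+* k :=
  ((Polynomial.aeval (0 : k) : Polynomial k →ₐ[k] k) : Polynomial k →+* k)

theorem ev0_apply (c : Polynomial k) : ev0 k c = c.coeff 0 := by
  show Polynomial.aeval (0 : k) c = _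
  rw [Polynomial.coe_aeval_eq_eval, ← Polynomial.coeff_zero_eq_eval_zero]

theorem ev0_C (a : k) : ev0 k (Polynomial.C a) = a := by
  rw [ev0_apply, Polynomial.coeff_C_zero]

theorem ev0_surj : Function.Surjective (ev0 k) := fun a => ⟨Polynomial.C a, ev0_C a⟩

theorem line_rel (h0 : ∀ a, Q.t a = 0) : Q.src = Q.line.src ∧ Q.tgt = Q.line.tgt ∧
    Q.vx = Q.line.vx ∧ ∀ a, Q.t a = ev0 k (Q.line.t a) := by
  refine ⟨rfl, rfl, rfl, fun a => ?_⟩
  rw [h0, ev0_apply]
  exact (Polynomial.coeff_X_zero).symm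

/-- specialisation `t = 0` -/
noncomputable def spz (B : Type*) (k : Type*) [Field k] : SS B (Polynomial k) →ₗ[k] SS B k :=
  (MvPolynomial.mapAlgHom (σ := B) (Polynomial.aeval (0 : k) : Polynomial k →ₐ[k] k)).toLinearMap

theorem spz_apply (f : SS B (Polynomial k)) : spz B k f = MvPolynomial.map (ev0 k) f := rfl

theorem coeff_spz (f : SS B (Polynomial k)) (m : B →₀ ℕ) :
    coeff m (spz B k f) = (coeff m f).coeff 0 := by
  rw [spz_apply, coeff_map, ev0_apply]

theorem spz_eq_zero {f : SS B (Polynomial k)} (h : spz B k f = 0) :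
    ∃ g, f = C Polynomial.X * g := by
  have h1 : (C Polynomial.X : SS B (Polynomial k)) ∣ f := by
    rw [MvPolynomial.C_dvd_iff_dvd_coeff]
    intro m
    rw [Polynomial.X_dvd_iff, ← coeff_spz, h, coeff_zero]
  exact h1

/-- multiplication by `t` -/
noncomputable def mt (B : Type*) (k : Type*) [Field k] :
    SS B (Polynomial k) →ₗ[k] SS B (Polynomial k) :=
  LinearMap.mulLeft k (C Polynomial.X)

theorem mt_apply (f : SS B (Polynomial k)) : mt B k f = C Polynomial.X * f := rfl

theorem spz_mt (f : SS B (Polynomial k)) : spz B k (mt B k f) = 0 := by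
  rw [spz_apply, mt_apply, map_mul, MvPolynomial.map_C, ev0_apply, Polynomial.coeff_X_zero,
    C_0, zero_mul]

theorem hom_t : (scalPoly k).Hom 1 (toK (C Polynomial.X : SS B (Polynomial k))) := by
  have h : (scalPoly k).θ Polynomial.X = 2 ^ 1 * Polynomial.X := by
    rw [pow_one]; exact Polynomial.aeval_X _
  exact HG1.hom_C (scalPoly k) h

theorem CX_ne : (C Polynomial.X : SS B (Polynomial k)) ≠ 0 := by
  rw [Ne, MvPolynomial.C_eq_zero]; exact Polynomial.X_ne_zero

theorem mt_inj {f g : SS B (Polynomial k)} (h : mt B k f = mt B k g) : f = g :=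
  mul_left_cancel₀ CX_ne h

theorem hom_mt {d : ℤ} (f : SS B (Polynomial k)) :
    (scalPoly k).Hom d (toK (mt B k f)) ↔ (scalPoly k).Hom (d - 1) (toK f) := by
  rw [mt_apply, HG1.toK_mul]
  constructor
  · intro h
    have h1 := hom_div (scalPoly k) h (hom_t (B := B) (k := k))
    have h2 : toK (C Polynomial.X : SS B (Polynomial k)) ≠ 0 := toK_ne_zero CX_ne
    rwa [mul_div_cancel_left₀ _ h2] at h1
  · intro h
    have h1 := hom_mul (scalPoly k) (hom_t (B := B) (k := k)) h
    rwa [add_sub_cancel] at h1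

theorem R_mt {f : SS B (Polynomial k)} : mt B k f ∈ Q.line.R ↔ f ∈ Q.line.R := by
  constructor
  · intro h σ hσ
    have h1 : rename σ (mt B k f) = mt B k f := h σ hσ
    rw [mt_apply, map_mul, rename_C] at h1
    exact mul_left_cancel₀ CX_ne h1
  · intro h
    exact Q.line.R.mul_mem (Q.line.R.algebraMap_mem _) h

theorem spz_R {f : SS B (Polynomial k)} (hf : f ∈ Q.line.R) : spz B k f ∈ Q.R := by
  intro σ hσ
  rw [spz_apply, ← MvPolynomial.map_rename, hf σ hσ]

theorem spz_homog {f : SS B (Polynomial k)} {n : ℕ} (hf : (scalPoly k).Hom (n : ℤ) (toK f)) :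
    spz B k f ∈ homogeneousSubmodule B k n := by
  rw [hom_iff] at hf
  rw [mem_homogeneousSubmodule]
  intro m hm
  rw [coeff_spz] at hm
  have h1 := hf m 0 hm
  have h2 : wt m = n := by omega
  rw [← h2, Finsupp.weight_apply, wt]
  simp

theorem homog_split {F : ℕ →₀ SS B (Polynomial k)}
    (hF : ∀ d : ℕ, (scalPoly k).Hom (d : ℤ) (toK (F d))) {g : SS B k} {n : ℕ}
    (hg : g ∈ homogeneousSubmodule B k n) (h : spz B k (F.sum fun _ x => x) = g) :
    spz B k (F n) = g := by
  classical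
  have h1 : homogeneousComponent n g = g := by
    rw [homogeneousComponent_of_mem hg, if_pos rfl]
  rw [← h1, ← h, Finsupp.sum, map_sum, map_sum]
  have h2 : ∀ m ∈ F.support, homogeneousComponent n (spz B k (F m)) =
      if m = n then spz B k (F m) else 0 := by
    intro m _
    rw [homogeneousComponent_of_mem (spz_homog (hF m))]
    by_cases hmn : m = n
    · rw [if_pos hmn.symm, if_pos hmn]
    · rw [if_neg (fun h => hmn h.symm), if_neg hmn]
  rw [Finset.sum_congr rfl h2, Finset.sum_ite_eq' F.support n fun m => spz B k (F m)]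
  split_ifs with h3
  · rfl
  · rw [Finsupp.notMem_support_iff.1 h3, map_zero]

theorem mem_span_JC {f : SS B k} (h : f ∈ Submodule.span k Q.JC) : f ∈ Q.JC := by
  refine Submodule.span_induction (p := fun f _ => f ∈ Q.JC) (fun _ h => h) (JC_zero Q)
    (fun _ _ _ _ h1 h2 => JC_add Q h1 h2) (fun c _ _ h => JC_smul Q c h) h

/-- multiplication by `t` on the graded pieces of `R / J_D` -/
noncomputable def al (d : ℤ) :
    (↥(Q.line.Rd (scalPoly k) (d - 1)) ⧸
      (Q.line.Jd (scalPoly k) (d - 1)).submoduleOf (Q.line.Rd (scalPoly k) (d - 1))) →ₗ[k]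
    (↥(Q.line.Rd (scalPoly k) d) ⧸
      (Q.line.Jd (scalPoly k) d).submoduleOf (Q.line.Rd (scalPoly k) d)) :=
  Submodule.mapQ _ _
    ((mt B k).restrict (p := Q.line.Rd (scalPoly k) (d - 1)) (q := Q.line.Rd (scalPoly k) d)
      fun f hf => ⟨(R_mt Q).2 hf.1, (hom_mt f).2 hf.2⟩)
    (by
      rintro ⟨f, hfR⟩ hf
      refine ⟨?_, (hom_mt f).2 hf.2⟩
      exact Q.line.JDs.smul_mem Polynomial.X hf.1 |> fun h => by
        have h1 : mt B k f = (Polynomial.X : Polynomial k) • f := by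
          rw [mt_apply, MvPolynomial.smul_eq_C_mul]
        show mt B k f ∈ Q.line.JDs
        rw [h1]; exact h)

theorem al_inj (hsat : ∀ {f : SS B (Polynomial k)}, C Polynomial.X * f ∈ Q.line.JD →
    f ∈ Q.line.JD) (d : ℤ) : Function.Injective (al Q d) := by
  rw [injective_iff_map_eq_zero]
  intro x hx
  obtain ⟨f, rfl⟩ := Submodule.Quotient.mk_surjective _ x
  have h1 : (al Q d) (Submodule.Quotient.mk f) = Submodule.Quotient.mk
    ((mt B k).restrict (p := Q.line.Rd (scalPoly k) (d - 1)) (q := Q.line.Rd (scalPoly k) d)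
      (fun f hf => ⟨(R_mt Q).2 hf.1, (hom_mt f).2 hf.2⟩) f) := rfl
  rw [h1, Submodule.Quotient.mk_eq_zero] at hx
  rw [Submodule.Quotient.mk_eq_zero]
  exact ⟨hsat hx.1, f.2.2⟩

theorem spz_mem_RC (d : ℤ) {f : SS B (Polynomial k)} (hf : f ∈ Q.line.Rd (scalPoly k) d) :
    spz B k f ∈ Q.RC d := by
  refine ⟨spz_R Q hf.1, ?_⟩
  split_ifs with h
  · have h1 : (scalPoly k).Hom (d.toNat : ℤ) (toK f) := by
      rw [Int.toNat_of_nonneg h]; exact hf.2
    exact spz_homog h1
  · rw [hom_neg (by omega) hf.2, map_zero]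
    exact Submodule.zero_mem _

/-- specialisation on the graded pieces -/
noncomputable def be (h0 : ∀ a, Q.t a = 0) (d : ℤ) :
    (↥(Q.line.Rd (scalPoly k) d) ⧸
      (Q.line.Jd (scalPoly k) d).submoduleOf (Q.line.Rd (scalPoly k) d)) →ₗ[k]
    (↥(Q.RC d) ⧸ (Q.JCd d).submoduleOf (Q.RC d)) :=
  Submodule.mapQ _ _
    ((spz B k).restrict (p := Q.line.Rd (scalPoly k) d) (q := Q.RC d)
      fun f hf => spz_mem_RC Q d hf)
    (by
      rintro ⟨f, hfR⟩ hf
      refine ⟨Submodule.subset_span ?_, (spz_mem_RC Q d hfR).2⟩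
      have h1 : f ∈ Q.line.JC := by
        rw [JC_eq_JD Q.line (line_loops Q)]; exact hf.1
      exact JC_map Q Q.line (ev0 k) (line_rel Q h0) h1)

theorem be_mk (h0 : ∀ a, Q.t a = 0) (d : ℤ) (f : Q.line.Rd (scalPoly k) d) :
    be Q h0 d (Submodule.Quotient.mk f) =
      Submodule.Quotient.mk ⟨spz B k f.1, spz_mem_RC Q d f.2⟩ := rfl

theorem be_surj (h0 : ∀ a, Q.t a = 0) (d : ℤ) : Function.Surjective (be Q h0 d) := by
  intro x
  obtain ⟨⟨g, hg⟩, rfl⟩ := Submodule.Quotient.mk_surjective _ x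
  by_cases hd : 0 ≤ d
  · have h2 : g ∈ homogeneousSubmodule B k d.toNat := by
      have := hg.2; rwa [if_pos hd] at this
    have hgR : g ∈ Q.R := hg.1
    set f : SS B (Polynomial k) := MvPolynomial.map Polynomial.C g with hf
    have h3 : f ∈ Q.line.Rd (scalPoly k) d := by
      refine ⟨fun σ hσ => ?_, ?_⟩
      · rw [hf, ← MvPolynomial.map_rename, hgR σ hσ]
      · show (scalPoly k).Hom d (toK f)
        rw [hom_iff]
        intro m n hmn
        rw [hf, coeff_map, Polynomial.coeff_C] at hmn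
        have hn : n = 0 := by
          by_contra h
          rw [if_neg h] at hmn; exact hmn rfl
        rw [if_pos hn] at hmn
        rw [mem_homogeneousSubmodule] at h2
        have h4 := h2 hmn
        rw [Finsupp.weight_apply] at h4
        have h5 : wt m = d.toNat := by rw [← h4, wt]; simp
        omega
    refine ⟨Submodule.Quotient.mk ⟨f, h3⟩, ?_⟩
    rw [be_mk]
    congr 1
    apply Subtype.ext
    show spz B k f = g
    refine MvPolynomial.ext _ _ fun m => ?_
    rw [coeff_spz, hf, coeff_map, Polynomial.coeff_C_zero]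
  · refine ⟨0, ?_⟩
    rw [map_zero]
    have h2 : g = 0 := by
      have := hg.2
      rw [if_neg hd] at this
      simpa using this
    subst h2
    rfl

theorem be_al (h0 : ∀ a, Q.t a = 0) (d : ℤ) : LinearMap.range (al Q d) =
    LinearMap.ker (be Q h0 d) := by
  apply le_antisymm
  · rintro _ ⟨x, rfl⟩
    obtain ⟨f, rfl⟩ := Submodule.Quotient.mk_surjective _ x
    show be Q h0 d (al Q d (Submodule.Quotient.mk f)) = 0
    have h1 : (al Q d) (Submodule.Quotient.mk f) = Submodule.Quotient.mk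
      ((mt B k).restrict (p := Q.line.Rd (scalPoly k) (d - 1)) (q := Q.line.Rd (scalPoly k) d)
        (fun f hf => ⟨(R_mt Q).2 hf.1, (hom_mt f).2 hf.2⟩) f) := rfl
    rw [h1, be_mk]
    have h2 : spz B k (mt B k f.1) = 0 := spz_mt f.1
    rw [Submodule.Quotient.mk_eq_zero]
    show spz B k (mt B k f.1) ∈ Q.JCd d
    rw [h2]; exact Submodule.zero_mem _
  · intro x hx
    obtain ⟨⟨f, hf⟩, rfl⟩ := Submodule.Quotient.mk_surjective _ x
    have hx' : be Q h0 d (Submodule.Quotient.mk ⟨f, hf⟩) = 0 := hx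
    rw [be_mk, Submodule.Quotient.mk_eq_zero] at hx'
    have h1 : spz B k f ∈ Q.JC := mem_span_JC Q hx'.1
    by_cases hd : 0 ≤ d
    · obtain ⟨f', hf', hff⟩ := JC_lift Q Q.line (line_loops Q) (ev0 k) ev0_surj
        (line_rel Q h0) h1
      rw [JC_eq_JD Q.line (line_loops Q)] at hf'
      obtain ⟨F, hF, hFs⟩ := exists_dec (scalPoly k) f'
      rw [hFs] at hf'
      have hFJ := JD_comp Q.line (scalPoly k) (line_lin Q) F hF hf' d.toNat
      have hfd : (scalPoly k).Hom (d.toNat : ℤ) (toK f) := by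
        rw [Int.toNat_of_nonneg hd]; exact hf.2
      have h2 : spz B k (F d.toNat) = spz B k f := by
        refine homog_split hF (spz_homog hfd) ?_
        rw [← hFs]; exact hff
      obtain ⟨g, hg⟩ := spz_eq_zero (f := f - F d.toNat) (by rw [map_sub, h2, sub_self])
      have hFd : (scalPoly k).Hom d (toK (F d.toNat)) := by
        have := hF d.toNat
        rwa [Int.toNat_of_nonneg hd] at this
      have hgm : mt B k g = f - F d.toNat := hg.symm
      have hgR : g ∈ Q.line.R := by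
        rw [← R_mt Q, hgm]
        exact Q.line.R.sub_mem hf.1 hFJ.1
      have hgh : (scalPoly k).Hom (d - 1) (toK g) := by
        rw [← hom_mt, hgm, HG1.toK_sub]
        exact HG1.hom_sub _ hf.2 hFd
      refine ⟨Submodule.Quotient.mk ⟨g, ⟨hgR, hgh⟩⟩, ?_⟩
      show Submodule.Quotient.mk _ = _
      rw [Submodule.Quotient.eq]
      show mt B k g - f ∈ Q.line.Jd (scalPoly k) d
      rw [hgm, sub_sub_cancel_left]
      exact Submodule.neg_mem _ ⟨hFJ, hFd⟩
    · have h2 : f = 0 := hom_neg (by omega) hf.2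
      subst h2
      exact Submodule.zero_mem _

theorem hH_line' (hsat : ∀ {f : SS B (Polynomial k)}, C Polynomial.X * f ∈ Q.line.JD →
    f ∈ Q.line.JD) (h0 : ∀ a, Q.t a = 0) (d : ℤ) :
    Q.line.hH (scalPoly k) d = Q.line.hH (scalPoly k) (d - 1) + Q.hC d := by
  have hfin : Module.Finite k ↥(Q.line.Rd (scalPoly k) d) := by
    have := finite_homS (B := B) (k := k) d
    have hle : Q.line.Rd (scalPoly k) d ≤ (scalPoly k).homS B d := inf_le_right
    exact Submodule.finiteDimensional_of_le hle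
  have h1 := LinearMap.finrank_range_add_finrank_ker (be Q h0 d)
  rw [LinearMap.range_eq_top.2 (be_surj Q h0 d), finrank_top, ← be_al,
    LinearMap.finrank_range_of_inj (al_inj Q hsat d)] at h1
  unfold QD.hH QD.hC
  omega

theorem hH_neg {Q : QD I E B k} {d : ℤ} (hd : d < 0) : Q.line.hH (scalPoly k) d = 0 := by
  have h : ∀ x : ↥(Q.line.Rd (scalPoly k) d), x = 0 := fun x =>
    Subtype.ext (hom_neg hd x.2.2)
  have : Subsingleton ↥(Q.line.Rd (scalPoly k) d) := ⟨fun a b => by rw [h a, h b]⟩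
  unfold QD.hH
  have : Subsingleton (↥(Q.line.Rd (scalPoly k) d) ⧸
      (Q.line.Jd (scalPoly k) d).submoduleOf (Q.line.Rd (scalPoly k) d)) :=
    (Submodule.Quotient.mk_surjective _).subsingleton
  exact Module.finrank_zero_of_subsingleton

end H4

end Vale.Agent.P291
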