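import Vale.Agent.P291.H4b

/-!
# P291, block H4, part c: taking differences of Hilbert series
-/

open MvPolynomial

namespace Vale.Agent.P291

namespace H4

section idx

variable {I E B Λ : Type*} [Fintype E] [DecidableEq I] [Fintype B] [DecidableEq B] [CommRing Λ]
  [IsDomain Λ]
variable (Q : QD I E B Λ)

theorem card_step {X : Type*} (g : X → ℤ) (hfin : ∀ e : ℤ, {x | g x = e}.Finite)
    (hbdd : ∃ c : ℤ, ∀ x, c ≤ g x) (d : ℤ) :
    Nat.card {p : ℕ × X // (p.1 : ℤ) + g p.2 = d} =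
      Nat.card {p : ℕ × X // (p.1 : ℤ) + g p.2 = d - 1} + Nat.card {x // g x = d} := by
  obtain ⟨c, hc⟩ := hbdd
  have hF : ∀ d : ℤ, Finite {p : ℕ × X // (p.1 : ℤ) + g p.2 = d} := by
    intro d
    have h1 : {p : ℕ × X | (p.1 : ℤ) + g p.2 = d} ⊆
        (Finset.range ((d - c).toNat + 1) : Set ℕ) ×ˢ
          (⋃ e ∈ Finset.Icc c d, {x | g x = e}) := by
      rintro ⟨n, x⟩ hnx
      have hnx : (n : ℤ) + g x = d := hnx
      have h2 := hc x
      refine ⟨?_, ?_⟩
      · simp only [Finset.coe_range, Set.mem_Iio]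
        omega
      · refine Set.mem_iUnion₂.2 ⟨g x, Finset.mem_Icc.2 ⟨h2, by omega⟩, rfl⟩
    have h3 : ((Finset.range ((d - c).toNat + 1) : Set ℕ) ×ˢ
          (⋃ e ∈ Finset.Icc c d, {x | g x = e})).Finite :=
      (Finset.finite_toSet _).prod
        (Set.Finite.biUnion (Finset.finite_toSet _) fun e _ => hfin e)
    exact (h3.subset h1).to_subtype
  have hF1 := hF (d - 1)
  have hF2 : Finite {x // g x = d} := (hfin d).to_subtype
  rw [← Nat.card_sum]
  refine Nat.card_congr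
    { toFun := fun p => match p with
        | ⟨(0, x), h⟩ => Sum.inr ⟨x, by simpa using h⟩
        | ⟨(n + 1, x), h⟩ => Sum.inl ⟨(n, x), by
            have h : ((n + 1 : ℕ) : ℤ) + g x = d := h
            show (n : ℤ) + g x = d - 1
            push_cast at h; omega⟩
      invFun := fun q => match q with
        | Sum.inl ⟨(n, x), h⟩ => ⟨(n + 1, x), by
            have h : (n : ℤ) + g x = d - 1 := h
            show ((n + 1 : ℕ) : ℤ) + g x = d
            push_cast; omega⟩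
        | Sum.inr ⟨x, h⟩ => ⟨(0, x), by simpa using h⟩
      left_inv := by
        rintro ⟨⟨_ | n, x⟩, h⟩ <;> rfl
      right_inv := by
        rintro (⟨⟨n, x⟩, h⟩ | ⟨x, h⟩) <;> rfl }

theorem mul_eq_zero_of_lt {c : ℤ} (hc : ∀ x : Q.Idx, c ≤ Q.degI x) {e : ℤ} (he : e < c) :
    Q.mul e = 0 := by
  unfold QD.mul
  have : IsEmpty {x : Q.Idx // Q.degI x = e} := ⟨fun x => by
    have := hc x.1
    have := x.2
    omega⟩
  exact Nat.card_of_isEmpty

end idx

variable {I E B k : Type*} [Fintype E] [DecidableEq I] [Fintype B] [DecidableEq B] [Field k]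
  [CharZero k]
variable (Q : QD I E B k)

/-- the recursion, from the identity of Hilbert series for the line -/
theorem recursion_of (T : Finset (Finset B))
    (hsat : ∀ U ∈ T, ∀ {f : SS {b // b ∈ Uᶜ} (Polynomial k)},
      C Polynomial.X * f ∈ (Q.rst Uᶜ).line.JD → f ∈ (Q.rst Uᶜ).line.JD)
    (h0 : ∀ a, Q.t a = 0)
    (hfin : ∀ e : ℤ, {x : Q.Idx | Q.degI x = e}.Finite)
    (hbdd : ∃ c : ℤ, ∀ x : Q.Idx, c ≤ Q.degI x)
    (hbddU : ∀ U ∈ T, ∃ c : ℤ, ∀ x : (Q.rst U).unf.Idx, c ≤ (Q.rst U).unf.degI x)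
    (hpbw : ∀ d : ℤ, Nat.card {p : ℕ × Q.Idx // (p.1 : ℤ) + Q.degI p.2 = d} =
      ∑ U ∈ T, ∑ᶠ e : ℤ, (Q.rst U).unf.mul e *
        (Q.rst Uᶜ).line.hH (scalPoly k) (d - Q.degK (QD.ind U) - e)) (d : ℤ) :
    Q.mul d = ∑ U ∈ T, ∑ᶠ e : ℤ, (Q.rst U).unf.mul e *
      (Q.rst Uᶜ).hC (d - Q.degK (QD.ind U) - e) := by
  have h1 := card_step Q.degI hfin hbdd d
  rw [hpbw d, hpbw (d - 1)] at h1
  have h2 : ∀ U ∈ T, (∑ᶠ e : ℤ, (Q.rst U).unf.mul e *
        (Q.rst Uᶜ).line.hH (scalPoly k) (d - Q.degK (QD.ind U) - e)) =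
      (∑ᶠ e : ℤ, (Q.rst U).unf.mul e *
        (Q.rst Uᶜ).line.hH (scalPoly k) (d - 1 - Q.degK (QD.ind U) - e)) +
      ∑ᶠ e : ℤ, (Q.rst U).unf.mul e * (Q.rst Uᶜ).hC (d - Q.degK (QD.ind U) - e) := by
    intro U hU
    obtain ⟨c, hc⟩ := hbddU U hU
    have hline : ∀ x : ℤ, (Q.rst Uᶜ).line.hH (scalPoly k) x =
        (Q.rst Uᶜ).line.hH (scalPoly k) (x - 1) + (Q.rst Uᶜ).hC x := fun x =>
      hH_line' (Q.rst Uᶜ) (hsat U hU) (fun a => h0 a) x
    have hC0 : ∀ x : ℤ, x < 0 → (Q.rst Uᶜ).hC x = 0 := by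
      intro x hx
      have := hline x
      rw [hH_neg hx] at this
      omega
    have hs : ∀ (F : ℤ → ℕ) (y : ℤ), (∀ x, x < 0 → F x = 0) →
        (Function.support fun e : ℤ => (Q.rst U).unf.mul e * F (y - e)).Finite := by
      intro F y hF
      refine (Set.finite_Icc c y).subset fun e he => ?_
      rw [Function.mem_support] at he
      constructor
      · by_contra h
        exact he (by rw [mul_eq_zero_of_lt _ hc (not_le.1 h), zero_mul])
      · by_contra h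
        exact he (by rw [hF _ (by omega), mul_zero])
    rw [← finsum_add_distrib
      (hs (fun x => (Q.rst Uᶜ).line.hH (scalPoly k) x) (d - 1 - Q.degK (QD.ind U))
        fun x hx => hH_neg hx)
      (hs (fun x => (Q.rst Uᶜ).hC x) (d - Q.degK (QD.ind U)) hC0)]
    refine finsum_congr fun e => ?_
    rw [hline (d - Q.degK (QD.ind U) - e), mul_add]
    congr 3
    ring
  rw [Finset.sum_congr rfl h2, Finset.sum_add_distrib] at h1
  have h3 : Q.mul d = Nat.card {x // Q.degI x = d} := rfl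
  rw [h3]
  omega

end H4

end Vale.Agent.P291
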