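import Vale.Agent.P291.HCore

/-!
# P291, block N2a: factorisation of `kap` and the Hall product
-/

set_option linter.unusedSectionVars false

open MvPolynomial

namespace Vale.Agent.P291

variable {I E B Λ : Type*} [Fintype E] [DecidableEq I] [Fintype B] [DecidableEq B] [CommRing Λ]
  [IsDomain Λ]
variable (Q : QD I E B Λ)

namespace N2a

/-! ### the action -/

theorem act_mul (σ τ : Equiv.Perm B) (f : KK B Λ) : act (σ * τ) f = act σ (act τ f) := by
  have h : (act (σ * τ) : KK B Λ ≃+* KK B Λ).toRingHom =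
      ((act σ : KK B Λ ≃+* KK B Λ).toRingHom).comp (act τ : KK B Λ ≃+* KK B Λ).toRingHom := by
    refine IsLocalization.ringHom_ext (nonZeroDivisors (SS B Λ)) ?_
    refine RingHom.ext fun x => ?_
    show act (σ * τ) (toK x) = act σ (act τ (toK x))
    rw [act_toK, act_toK, act_toK, rename_rename]
    rfl
  exact congrArg (fun φ : KK B Λ →+* KK B Λ => φ f) h

theorem act_one (f : KK B Λ) : act (1 : Equiv.Perm B) f = f := by
  have h : (act (1 : Equiv.Perm B) : KK B Λ ≃+* KK B Λ).toRingHom = RingHom.id _ := by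
    refine IsLocalization.ringHom_ext (nonZeroDivisors (SS B Λ)) ?_
    refine RingHom.ext fun x => ?_
    show act (1 : Equiv.Perm B) (toK x) = toK x
    rw [act_toK]
    have : ((1 : Equiv.Perm B) : B → B) = id := rfl
    rw [this, rename_id]
    rfl
  exact congrArg (fun φ : KK B Λ →+* KK B Λ => φ f) h

theorem rename_of_fix {s : Set B} {r : SS B Λ} (hr : r ∈ supported Λ s) {σ : Equiv.Perm B}
    (hσ : ∀ b ∈ s, σ b = b) : rename σ r = r := by
  rw [supported_eq_range_rename] at hr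
  obtain ⟨r', rfl⟩ := hr
  show rename σ (rename Subtype.val r') = rename Subtype.val r'
  rw [rename_rename]
  congr 1
  congr 1
  funext b
  exact hσ b.1 b.2

theorem rename_mem_supported {s t : Set B} {r : SS B Λ} (hr : r ∈ supported Λ s)
    {σ : Equiv.Perm B} (hσ : ∀ b ∈ s, σ b ∈ t) : rename σ r ∈ supported Λ t := by
  rw [mem_supported] at hr ⊢
  intro b hb
  have h1 := vars_rename σ r hb
  obtain ⟨b', h2, rfl⟩ := Finset.mem_image.1 h1
  exact hσ b' (hr h2)

/-- every polynomial is in the span of the products of polynomials in the variables of `U` and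
of its complement -/
theorem mem_span_prod (U : Finset B) (s : SS B Λ) :
    s ∈ Submodule.span Λ {f | ∃ s1 ∈ supported Λ (U : Set B),
      ∃ s2 ∈ supported Λ ((Uᶜ : Finset B) : Set B), f = s1 * s2} := by
  classical
  induction s using MvPolynomial.induction_on' with
  | monomial u a =>
    by_cases ha : a = 0
    · rw [ha, monomial_zero]
      exact Submodule.zero_mem _
    · nontriviality Λ
      refine Submodule.subset_span ⟨monomial (u.filter (· ∈ U)) a, ?_,
        monomial (u.filter (fun b => ¬ b ∈ U)) 1, ?_, ?_⟩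
      · rw [mem_supported, vars_monomial ha]
        intro b hb
        simp only [Finset.mem_coe, Finsupp.support_filter, Finset.mem_filter] at hb
        exact hb.2
      · rw [mem_supported, vars_monomial one_ne_zero]
        intro b hb
        simp only [Finset.mem_coe, Finsupp.support_filter, Finset.mem_filter] at hb
        simpa using hb.2
      · rw [monomial_mul, mul_one, Finsupp.filter_add_filter_not]
  | add p q hp hq => exact Submodule.add_mem _ hp hq

/-! ### products over pairs -/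

open scoped Classical in
/-- product of the weights and inverse roots at the pairs in a relation -/
noncomputable def gk (P : B → Option B → Prop) : KK B Λ :=
  toK (∏ p ∈ Q.Wt.filter (fun p => P p.2.1 p.2.2), Q.xi p) /
    toK (∏ p ∈ Q.Prs.filter (fun p => P p.1 (some p.2)), (X p.1 - X p.2 : SS B Λ))

theorem gk_congr {P P' : B → Option B → Prop} (h : ∀ r s, P r s ↔ P' r s) :
    gk Q P = gk Q P' := by
  have : P = P' := by
    funext r s
    exact propext (h r s)
  rw [this]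

theorem gk_split {P P1 P2 : B → Option B → Prop} (h : ∀ r s, P r s ↔ P1 r s ∨ P2 r s)
    (h' : ∀ r s, P1 r s → ¬ P2 r s) : gk Q P = gk Q P1 * gk Q P2 := by
  classical
  have e1 : ∏ p ∈ Q.Wt.filter (fun p => P p.2.1 p.2.2), Q.xi p =
      (∏ p ∈ Q.Wt.filter (fun p => P1 p.2.1 p.2.2), Q.xi p) *
        ∏ p ∈ Q.Wt.filter (fun p => P2 p.2.1 p.2.2), Q.xi p := by
    rw [← Finset.prod_union]
    · refine Finset.prod_congr ?_ fun _ _ => rfl
      rw [← Finset.filter_or]
      exact Finset.filter_congr fun p _ => h _ _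
    · rw [Finset.disjoint_filter]
      exact fun p _ => h' _ _
  have e2 : ∏ p ∈ Q.Prs.filter (fun p => P p.1 (some p.2)), (X p.1 - X p.2 : SS B Λ) =
      (∏ p ∈ Q.Prs.filter (fun p => P1 p.1 (some p.2)), (X p.1 - X p.2 : SS B Λ)) *
        ∏ p ∈ Q.Prs.filter (fun p => P2 p.1 (some p.2)), (X p.1 - X p.2 : SS B Λ) := by
    rw [← Finset.prod_union]
    · refine Finset.prod_congr ?_ fun _ _ => rfl
      rw [← Finset.filter_or]
      exact Finset.filter_congr fun p _ => h _ _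
    · rw [Finset.disjoint_filter]
      exact fun p _ => h' _ _
  unfold gk
  rw [e1, e2]
  simp only [toK, map_mul]
  rw [div_mul_div_comm]

theorem act_gk {σ : Equiv.Perm B} (hσ : σ ∈ Q.W) (P : B → Option B → Prop) :
    act σ (gk Q P) = gk Q (fun r s => P (σ⁻¹ r) (s.map (σ⁻¹ : Equiv.Perm B))) := by
  classical
  unfold gk
  rw [map_div₀, act_toK, act_toK, map_prod, map_prod]
  have h0 : ∀ o : Option B, (Option.map σ o).map (σ⁻¹ : Equiv.Perm B) = o := by
    intro o
    cases o <;> simp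
  congr 2
  · refine Finset.prod_equiv (wtEquiv σ) (fun p => ?_) (fun p _ => rename_xi Q σ p)
    rw [Finset.mem_filter, Finset.mem_filter, wtEquiv_mem Q hσ]
    refine and_congr_right fun _ => ?_
    show P p.2.1 p.2.2 ↔ P (σ⁻¹ (σ p.2.1)) ((Option.map σ p.2.2).map (σ⁻¹ : Equiv.Perm B))
    rw [h0]
    simp
  · refine Finset.prod_equiv (Equiv.prodCongr σ σ) (fun p => ?_) (fun p _ => ?_)
    · simp [QD.Prs, (mem_W Q).1 hσ]
    · simp

theorem kap_eq (g : B → ℕ) : Q.kap g = gk Q (fun r s => g r ≠ s.elim 0 g) := by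
  unfold QD.kap QD.numG QD.denG gk
  congr!

theorem kapN_eq (U : Finset B) (g : B → ℕ) :
    Q.kapN U g = gk Q (fun r s => r ∈ U ∧ (∃ b ∈ U, s = some b) ∧ g r ≠ s.elim 0 g) := by
  unfold QD.kapN gk
  congr! 5 with p
  simp

theorem kapF_eq (U : Finset B) (g : B → ℕ) :
    Q.kapF U g = gk Q (fun r s => r ∉ U ∧ (∀ b ∈ U, s ≠ some b) ∧ g r ≠ s.elim 0 g) := by
  classical
  have e : ∀ c : B, (∀ b ∈ U, some c ≠ some b) ↔ c ∉ U := by
    intro c
    constructor
    · intro h h'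
      exact h _ h' rfl
    · rintro h b hb hcb
      rw [Option.some_injective _ hcb] at h
      exact h hb
  unfold QD.kapF gk
  congr 2
  · congr!
  · congr 1
    ext p
    simp only [Finset.mem_filter, e, Option.elim_some]

/-! ### recolourings -/

theorem kapN_congr (U : Finset B) {g g' : B → ℕ}
    (h : ∀ b ∈ U, ∀ c ∈ U, g b = g c ↔ g' b = g' c) : Q.kapN U g = Q.kapN U g' := by
  rw [kapN_eq, kapN_eq]
  refine gk_congr Q fun r s => ?_
  refine and_congr_right fun hr => and_congr_right fun hs => ?_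
  obtain ⟨b, hb, rfl⟩ := hs
  exact not_congr (h r hr b hb)

theorem kapF_congr (U : Finset B) {g g' : B → ℕ}
    (h : ∀ b ∉ U, ∀ c ∉ U, g b = g c ↔ g' b = g' c) (h0 : ∀ b ∉ U, g b = 0 ↔ g' b = 0) :
    Q.kapF U g = Q.kapF U g' := by
  rw [kapF_eq, kapF_eq]
  refine gk_congr Q fun r s => ?_
  refine and_congr_right fun hr => and_congr_right fun hs => ?_
  cases s with
  | none => exact not_congr (h0 r hr)
  | some b => exact not_congr (h r hr b fun hb => hs b hb rfl)

theorem kapF_one (U : Finset B) {g : B → ℕ} (h : ∀ b ∉ U, g b = 0) : Q.kapF U g = 1 := by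
  classical
  have h1 : Q.kapF U g = gk Q (fun _ _ => False) := by
    rw [kapF_eq]
    refine gk_congr Q fun r s => ?_
    simp only [iff_false]
    rintro ⟨h1, h2, h3⟩
    apply h3
    cases s with
    | none => exact h r h1
    | some b => exact (h r h1).trans (h b fun hb => h2 b hb rfl).symm
  rw [h1]
  unfold gk
  simp

theorem act_kap {σ : Equiv.Perm B} (hσ : σ ∈ Q.W) (g : B → ℕ) :
    act σ (Q.kap g) = Q.kap (fun b => g (σ⁻¹ b)) := by
  rw [kap_eq, act_gk Q hσ, kap_eq]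
  refine gk_congr Q fun r s => ?_
  cases s <;> simp

theorem act_kapN {σ : Equiv.Perm B} (hσ : σ ∈ Q.W) (U : Finset B) (g : B → ℕ) :
    act σ (Q.kapN U g) = Q.kapN (U.map σ.toEmbedding) (fun b => g (σ⁻¹ b)) := by
  rw [kapN_eq, act_gk Q hσ, kapN_eq]
  refine gk_congr Q fun r s => ?_
  cases s with
  | none => simp
  | some c => simp [Finset.mem_map_equiv, Equiv.Perm.inv_def]

theorem act_kapF {σ : Equiv.Perm B} (hσ : σ ∈ Q.W) (U : Finset B) (g : B → ℕ) :
    act σ (Q.kapF U g) = Q.kapF (U.map σ.toEmbedding) (fun b => g (σ⁻¹ b)) := by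
  rw [kapF_eq, act_gk Q hσ, kapF_eq]
  refine gk_congr Q fun r s => ?_
  have e1 : σ⁻¹ r ∈ U ↔ r ∈ U.map σ.toEmbedding := by
    rw [Finset.mem_map_equiv]; rfl
  refine and_congr (not_congr e1) (and_congr ?_ ?_)
  · constructor
    · rintro h b hb rfl
      rw [Finset.mem_map_equiv] at hb
      exact h _ hb rfl
    · rintro h b hb hs
      refine h (σ b) (Finset.mem_map_of_mem _ hb) ?_
      cases s with
      | none => simp at hs
      | some c =>
        simp only [Option.map_some, Option.some.injEq] at hs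
        rw [← hs]
        simp
  · cases s <;> simp

end N2a

/-! ### (N2a) -/

theorem kap_split (U : Finset B) (g : B → ℕ) (hg : ∀ b ∈ U, ∀ c ∉ U, g b ≠ g c)
    (h0 : ∀ b ∈ U, g b ≠ 0) : Q.kap g = Q.kap (QD.ind U) * Q.kapN U g * Q.kapF U g := by
  classical
  rw [N2a.kap_eq, N2a.kap_eq, N2a.kapN_eq, N2a.kapF_eq]
  have hi : ∀ s : Option B, s.elim 0 (QD.ind U) = if (∃ b ∈ U, s = some b) then 1 else 0 := by
    intro s
    cases s with
    | none => simp
    | some c => simp [QD.ind]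
  have hn : ∀ s : Option B, (∀ b ∈ U, s ≠ some b) ↔ ¬ ∃ b ∈ U, s = some b := by
    intro s
    push Not
    rfl
  rw [N2a.gk_split Q (P := fun r s => g r ≠ s.elim 0 g)
    (P1 := fun r s => (QD.ind U r ≠ s.elim 0 (QD.ind U)) ∨
      (r ∈ U ∧ (∃ b ∈ U, s = some b) ∧ g r ≠ s.elim 0 g))
    (P2 := fun r s => r ∉ U ∧ (∀ b ∈ U, s ≠ some b) ∧ g r ≠ s.elim 0 g),
    N2a.gk_split Q (P := fun r s => (QD.ind U r ≠ s.elim 0 (QD.ind U)) ∨
      (r ∈ U ∧ (∃ b ∈ U, s = some b) ∧ g r ≠ s.elim 0 g)) (fun r s => Iff.rfl)]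
  · intro r s h1 h2
    apply h1
    rw [hi, if_pos h2.2.1, QD.ind, if_pos h2.1]
  · intro r s
    rw [hi, hn]
    by_cases hr : r ∈ U <;> by_cases hs : ∃ b ∈ U, s = some b
    · simp [QD.ind, hr, hs]
    · have h1 : g r ≠ s.elim 0 g := by
        cases s with
        | none => exact h0 r hr
        | some c => exact hg r hr c fun hc => hs ⟨c, hc, rfl⟩
      simp [QD.ind, hr, hs, h1]
    · have h1 : g r ≠ s.elim 0 g := by
        obtain ⟨c, hc, rfl⟩ := hs
        exact (hg c hc r hr).symm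
      simp [QD.ind, hr, hs, h1]
    · simp [QD.ind, hr, hs]
  · intro r s h1 h2
    rw [hi, hn] at *
    rcases h1 with h1 | h1
    · apply h1
      rw [if_neg h2.2.1, QD.ind, if_neg h2.1]
    · exact h2.1 h1.1

namespace N2a

theorem mem_WU {U : Finset B} {σ : Equiv.Perm B} :
    σ ∈ Q.WU U ↔ σ ∈ Q.W ∧ ∀ b ∉ U, σ b = b := by
  unfold QD.WU
  rw [Finset.mem_filter, mem_Wf]

theorem mem_WU_compl {U : Finset B} {σ : Equiv.Perm B} :
    σ ∈ Q.WU Uᶜ ↔ σ ∈ Q.W ∧ ∀ b ∈ U, σ b = b := by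
  rw [mem_WU]
  simp only [Finset.mem_compl, not_not]

theorem one_mem_WU (U : Finset B) : 1 ∈ Q.WU U :=
  (mem_WU Q).2 ⟨Q.W.one_mem, fun _ _ => rfl⟩

theorem map_of_fix {U : Finset B} {σ : Equiv.Perm B} (h : ∀ b ∈ U, σ b = b) :
    U.map σ.toEmbedding = U := by
  ext b
  rw [Finset.mem_map]
  constructor
  · rintro ⟨c, hc, rfl⟩
    show σ c ∈ U
    rw [h c hc]
    exact hc
  · intro hb
    exact ⟨b, hb, h b hb⟩

theorem map_of_fix_compl {U : Finset B} {σ : Equiv.Perm B} (h : ∀ b ∉ U, σ b = b) :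
    U.map σ.toEmbedding = U := by
  ext b
  rw [Finset.mem_map_equiv]
  by_cases hb : b ∈ U
  · refine iff_of_true ?_ hb
    by_contra h1
    have h2 := h _ h1
    rw [Equiv.apply_symm_apply] at h2
    rw [← h2] at h1
    exact h1 hb
  · refine iff_of_false ?_ hb
    have h1 : σ.symm b = b := by
      rw [Equiv.symm_apply_eq]
      exact (h b hb).symm
    rw [h1]
    exact hb

theorem inv_fix {P : B → Prop} {σ : Equiv.Perm B} (h : ∀ b, P b → σ b = b) :
    ∀ b, P b → σ⁻¹ b = b := by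
  intro b hb
  rw [Equiv.Perm.inv_eq_iff_eq]
  exact (h b hb).symm

theorem act_kap_ind {σ : Equiv.Perm B} (hσ : σ ∈ Q.W) {U : Finset B}
    (h : U.map σ.toEmbedding = U) : act σ (Q.kap (QD.ind U)) = Q.kap (QD.ind U) := by
  rw [act_kap Q hσ]
  congr 1
  funext b
  unfold QD.ind
  have h1 : σ⁻¹ b ∈ U ↔ b ∈ U := by
    conv_rhs => rw [← h]
    rw [Finset.mem_map_equiv]
    rfl
  simp only [h1]

/-- near part -/
noncomputable def NF (U : Finset B) (g : B → ℕ) (s : SS B Λ) : KK B Λ :=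
  ∑ σ ∈ Q.WU U, act σ (toK s * Q.kapN U g)

/-- far part -/
noncomputable def FF (U : Finset B) (g : B → ℕ) (s : SS B Λ) : KK B Λ :=
  ∑ σ ∈ Q.WU Uᶜ, act σ (toK s * Q.kapF U g)

theorem fixN {U : Finset B} (g : B → ℕ) {s : SS B Λ} (hs : s ∈ supported Λ (U : Set B))
    {σ : Equiv.Perm B} (hσ : σ ∈ Q.W) (h : ∀ b ∈ U, σ b = b) :
    act σ (toK s * Q.kapN U g) = toK s * Q.kapN U g := by
  rw [map_mul, act_toK, rename_of_fix hs h, act_kapN Q hσ, map_of_fix h]
  congr 1
  refine kapN_congr Q U fun b hb c hc => ?_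
  rw [inv_fix h b hb, inv_fix h c hc]

theorem fixF {U : Finset B} (g : B → ℕ) {s : SS B Λ}
    (hs : s ∈ supported Λ ((Uᶜ : Finset B) : Set B))
    {σ : Equiv.Perm B} (hσ : σ ∈ Q.W) (h : ∀ b ∉ U, σ b = b) :
    act σ (toK s * Q.kapF U g) = toK s * Q.kapF U g := by
  have h' : ∀ b ∈ ((Uᶜ : Finset B) : Set B), σ b = b := by
    intro b hb
    exact h b (by simpa using hb)
  rw [map_mul, act_toK, rename_of_fix hs h', act_kapF Q hσ, map_of_fix_compl h]
  congr 1
  refine kapF_congr Q U (fun b hb c hc => ?_) fun b hb => ?_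
  · rw [inv_fix (P := fun b => b ∉ U) h b hb, inv_fix (P := fun b => b ∉ U) h c hc]
  · rw [inv_fix (P := fun b => b ∉ U) h b hb]

theorem act_mul3 (σ : Equiv.Perm B) (a b c : KK B Λ) :
    act σ (a * b * c) = act σ a * act σ b * act σ c := by
  rw [map_mul, map_mul]

theorem sum_act_act (F : KK B Λ) {τ : Equiv.Perm B} (hτ : τ ∈ Q.W) :
    ∑ σ ∈ Q.Wf, act σ (act τ F) = ∑ σ ∈ Q.Wf, act σ F := by
  refine Finset.sum_equiv (Equiv.mulRight τ) (fun σ => ?_) (fun σ _ => ?_)
  · rw [mem_Wf, mem_Wf, Equiv.coe_mulRight]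
    constructor
    · exact fun h => Q.W.mul_mem h hτ
    · intro h
      have := Q.W.mul_mem h (Q.W.inv_mem hτ)
      simpa using this
  · rw [Equiv.coe_mulRight, act_mul]

/-- the key computation -/
theorem star_NF_FF (U : Finset B) (g : B → ℕ) (hg : ∀ b ∈ U, ∀ c ∉ U, g b ≠ g c)
    (h0 : ∀ b ∈ U, g b ≠ 0) {s1 s2 : SS B Λ} (hs1 : s1 ∈ supported Λ (U : Set B))
    (hs2 : s2 ∈ supported Λ ((Uᶜ : Finset B) : Set B)) :
    Q.star U (NF Q U g s1 * FF Q U g s2) =
      ((Q.WU U).card * (Q.WU Uᶜ).card : ℕ) • Q.hall g (s1 * s2) := by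
  classical
  have h1 : NF Q U g s1 * FF Q U g s2 * Q.kap (QD.ind U) =
      ∑ σ ∈ Q.WU U, ∑ τ ∈ Q.WU Uᶜ, act (σ * τ) (toK (s1 * s2) * Q.kap g) := by
    unfold NF FF
    rw [Finset.sum_mul_sum, Finset.sum_mul]
    refine Finset.sum_congr rfl fun σ hσ => ?_
    rw [Finset.sum_mul]
    refine Finset.sum_congr rfl fun τ hτ => ?_
    rw [mem_WU] at hσ
    rw [mem_WU_compl] at hτ
    have e1 : toK (s1 * s2) * Q.kap g =
        (toK s1 * Q.kapN U g) * (toK s2 * Q.kapF U g) * Q.kap (QD.ind U) := by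
      rw [kap_split Q U g hg h0]
      simp only [toK, map_mul]
      ring
    have hs2' : rename τ s2 ∈ supported Λ ((Uᶜ : Finset B) : Set B) := by
      refine rename_mem_supported hs2 fun b hb => ?_
      simp only [Finset.coe_compl, Set.mem_compl_iff, Finset.mem_coe] at hb ⊢
      intro h2
      have h3 := hτ.2 _ h2
      have h4 := τ.injective h3
      rw [h4] at h2
      exact hb h2
    have e2 : act τ (toK s2 * Q.kapF U g) =
        toK (rename τ s2) * Q.kapF U (fun b => g (τ⁻¹ b)) := by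
      rw [map_mul, act_toK, act_kapF Q hτ.1, map_of_fix hτ.2]
    rw [e1, act_mul, act_mul3 τ, fixN Q g hs1 hτ.1 hτ.2,
      act_kap_ind Q hτ.1 (map_of_fix hτ.2), act_mul3 σ,
      act_kap_ind Q hσ.1 (map_of_fix_compl hσ.2), e2, fixF Q _ hs2' hσ.1 hσ.2]
  unfold QD.star QD.hall
  rw [h1]
  simp only [map_sum]
  rw [Finset.sum_comm]
  have h2 : ∀ σ ∈ Q.WU U, ∑ ρ ∈ Q.Wf, ∑ τ ∈ Q.WU Uᶜ,
      act ρ (act (σ * τ) (toK (s1 * s2) * Q.kap g)) =
      (Q.WU Uᶜ).card • ∑ ρ ∈ Q.Wf, act ρ (toK (s1 * s2) * Q.kap g) := by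
    intro σ hσ
    rw [Finset.sum_comm]
    rw [Finset.sum_congr rfl fun τ hτ => sum_act_act Q _
      (Q.W.mul_mem ((mem_WU Q).1 hσ).1 ((mem_WU_compl Q).1 hτ).1), Finset.sum_const]
  rw [Finset.sum_congr rfl h2, Finset.sum_const, mul_smul]

theorem card_inv [Algebra ℚ Λ] (n : ℕ) (hn : n ≠ 0) : ∃ c : Λ, ∀ x : KK B Λ, c • (n • x) = x := by
  refine ⟨algebraMap ℚ Λ (n : ℚ)⁻¹, fun x => ?_⟩
  have h1 : (n • x : KK B Λ) = (algebraMap ℚ Λ (n : ℚ)) • x := by
    rw [map_natCast, Nat.cast_smul_eq_nsmul]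
  rw [h1, smul_smul, ← map_mul, inv_mul_cancel₀ (Nat.cast_ne_zero.2 hn), map_one, one_smul]

theorem card_ne_zero (U : Finset B) : (Q.WU U).card * (Q.WU Uᶜ).card ≠ 0 :=
  mul_ne_zero (Finset.card_ne_zero_of_mem (one_mem_WU Q U))
    (Finset.card_ne_zero_of_mem (one_mem_WU Q Uᶜ))

theorem NF_congr (U : Finset B) {g g' : B → ℕ} (s : SS B Λ)
    (h : ∀ b ∈ U, ∀ c ∈ U, g b = g c ↔ g' b = g' c) : NF Q U g s = NF Q U g' s := by
  unfold NF
  rw [kapN_congr Q U h]

theorem FF_congr (U : Finset B) {g g' : B → ℕ} (s : SS B Λ)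
    (h : ∀ b ∉ U, ∀ c ∉ U, g b = g c ↔ g' b = g' c) (h0 : ∀ b ∉ U, g b = 0 ↔ g' b = 0) :
    FF Q U g s = FF Q U g' s := by
  unfold FF
  rw [kapF_congr Q U h h0]

/-- the joint colouring -/
def joint (U : Finset B) (g1 g2 : B → ℕ) : B → ℕ := fun b => if b ∈ U then 2 * g1 b + 1 else 2 * g2 b

theorem star_NF_FF' (U : Finset B) (g1 g2 : B → ℕ) {s1 s2 : SS B Λ}
    (hs1 : s1 ∈ supported Λ (U : Set B)) (hs2 : s2 ∈ supported Λ ((Uᶜ : Finset B) : Set B)) :
    Q.star U (NF Q U g1 s1 * FF Q U g2 s2) =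
      ((Q.WU U).card * (Q.WU Uᶜ).card : ℕ) • Q.hall (joint U g1 g2) (s1 * s2) := by
  rw [← star_NF_FF Q U (joint U g1 g2) ?_ ?_ hs1 hs2, NF_congr Q U s1 (g' := joint U g1 g2) ?_,
    FF_congr Q U s2 (g' := joint U g1 g2) ?_ ?_]
  · intro b hb c hc
    simp only [joint, if_neg hb, if_neg hc]
    omega
  · intro b hb
    simp only [joint, if_neg hb]
    omega
  · intro b hb c hc
    simp only [joint, if_pos hb, if_pos hc]
    omega
  · intro b hb c hc
    simp only [joint, if_pos hb, if_neg hc]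
    omega
  · intro b hb
    simp only [joint, if_pos hb]
    omega

/-- polynomials invariant under `WU Uᶜ` are far parts of the zero colouring -/
theorem toK_eq_FF [Algebra ℚ Λ] (U : Finset B) {r : SS B Λ}
    (hr : ∀ σ ∈ Q.WU Uᶜ, rename σ r = r) :
    FF Q U (fun _ => 0) r = (Q.WU Uᶜ).card • toK r := by
  unfold FF
  rw [kapF_one Q U fun _ _ => rfl]
  have h : ∀ σ ∈ Q.WU Uᶜ, act σ (toK r * 1) = toK r := by
    intro σ hσ
    rw [mul_one, act_toK, hr σ hσ]
  rw [Finset.sum_congr rfl h, Finset.sum_const]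

theorem star_smul (U : Finset B) (c : Λ) (f : KK B Λ) : Q.star U (c • f) = c • Q.star U f :=
  (Q.starL U).map_smul c f

theorem star_nsmul (U : Finset B) (n : ℕ) (f : KK B Λ) : Q.star U (n • f) = n • Q.star U f :=
  map_nsmul (Q.starL U) n f

/-- generators of `LN U * RF U` -/
theorem star_gen [Algebra ℚ Λ] (U : Finset B) (g : B → ℕ) {s r : SS B Λ}
    (hs : s ∈ supported Λ (U : Set B)) (hr : r ∈ supported Λ ((Uᶜ : Finset B) : Set B))
    (hr' : ∀ σ ∈ Q.WU Uᶜ, rename σ r = r) :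
    ∃ c : Λ, Q.star U (NF Q U g s * toK r) = c • Q.hall (joint U g fun _ => 0) (s * r) := by
  obtain ⟨c, hc⟩ := card_inv (B := B) (Λ := Λ) (Q.WU Uᶜ).card
    (Finset.card_ne_zero_of_mem (one_mem_WU Q Uᶜ))
  refine ⟨c * ((Q.WU U).card * (Q.WU Uᶜ).card : ℕ), ?_⟩
  rw [mul_smul, Nat.cast_smul_eq_nsmul, ← star_NF_FF' Q U g (fun _ => 0) hs hr,
    toK_eq_FF Q U hr', mul_smul_comm, star_nsmul, hc]

theorem LN_RF (U : Finset B) : Q.LN U * Q.RF U = Submodule.span Λ
    {f | ∃ (g : B → ℕ) (s r : SS B Λ), s ∈ supported Λ (U : Set B) ∧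
      r ∈ supported Λ ((Uᶜ : Finset B) : Set B) ∧ (∀ σ ∈ Q.WU Uᶜ, rename σ r = r) ∧
      f = NF Q U g s * toK r} := by
  unfold QD.LN QD.RF
  rw [Submodule.span_mul_span]
  congr 1
  ext f
  rw [Set.mem_mul]
  constructor
  · rintro ⟨_, ⟨g, s, hs, rfl⟩, _, ⟨r, hr, hr', rfl⟩, rfl⟩
    exact ⟨g, s, r, hs, hr, hr', rfl⟩
  · rintro ⟨g, s, r, hs, hr, hr', rfl⟩
    exact ⟨_, ⟨g, s, hs, rfl⟩, _, ⟨r, hr, hr', rfl⟩, rfl⟩

theorem LN_UF (U : Finset B) : Q.LN U * Q.UF U = Submodule.span Λ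
    {f | ∃ (g1 g2 : B → ℕ) (s1 s2 : SS B Λ), s1 ∈ supported Λ (U : Set B) ∧
      s2 ∈ supported Λ ((Uᶜ : Finset B) : Set B) ∧ (∃ b ∉ U, g2 b ≠ 0) ∧
      f = NF Q U g1 s1 * FF Q U g2 s2} := by
  unfold QD.LN QD.UF
  rw [Submodule.span_mul_span]
  congr 1
  ext f
  rw [Set.mem_mul]
  constructor
  · rintro ⟨_, ⟨g1, s1, hs1, rfl⟩, _, ⟨g2, s2, hs2, h, rfl⟩, rfl⟩
    exact ⟨g1, g2, s1, s2, hs1, hs2, h, rfl⟩
  · rintro ⟨g1, g2, s1, s2, hs1, hs2, h, rfl⟩
    exact ⟨_, ⟨g1, s1, hs1, rfl⟩, _, ⟨g2, s2, hs2, h, rfl⟩, rfl⟩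

end N2a

theorem hall_mem (g : B → ℕ) (s : SS B Λ) [Algebra ℚ Λ] :
    Q.hall g s ∈ Submodule.map (Q.starL (Finset.univ.filter fun b => g b ≠ 0))
      (Q.LN (Finset.univ.filter fun b => g b ≠ 0) * Q.RF (Finset.univ.filter fun b => g b ≠ 0)) := by
  classical
  set U := Finset.univ.filter fun b => g b ≠ 0 with hU
  have hmem : ∀ b, b ∈ U ↔ g b ≠ 0 := by
    intro b
    simp [hU]
  have hg : ∀ b ∈ U, ∀ c ∉ U, g b ≠ g c := by
    intro b hb c hc
    rw [hmem] at hb hc
    push Not at hc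
    rw [hc]
    exact hb
  have h0 : ∀ b ∈ U, g b ≠ 0 := fun b hb => (hmem b).1 hb
  have hz : ∀ b ∉ U, g b = 0 := by
    intro b hb
    rw [hmem] at hb
    push Not at hb
    exact hb
  have key : ∀ s1 ∈ supported Λ (U : Set B), ∀ s2 ∈ supported Λ ((Uᶜ : Finset B) : Set B),
      Q.hall g (s1 * s2) ∈ Submodule.map (Q.starL U) (Q.LN U * Q.RF U) := by
    intro s1 hs1 s2 hs2
    obtain ⟨c, hc⟩ := N2a.card_inv (B := B) (Λ := Λ) _ (N2a.card_ne_zero Q U)
    rw [← hc (Q.hall g (s1 * s2)), ← N2a.star_NF_FF Q U g hg h0 hs1 hs2]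
    refine Submodule.smul_mem _ _ (Submodule.mem_map_of_mem (f := Q.starL U) ?_)
    refine Submodule.mul_mem_mul (Submodule.subset_span ⟨g, s1, hs1, rfl⟩)
      (Submodule.subset_span ⟨∑ σ ∈ Q.WU Uᶜ, rename σ s2, ?_, ?_, ?_⟩)
    · refine Subalgebra.sum_mem _ fun σ hσ => N2a.rename_mem_supported hs2 fun b hb => ?_
      rw [N2a.mem_WU_compl] at hσ
      simp only [Finset.coe_compl, Set.mem_compl_iff, Finset.mem_coe] at hb ⊢
      intro h2
      have h4 := σ.injective (hσ.2 _ h2)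
      rw [h4] at h2
      exact hb h2
    · intro τ hτ
      rw [map_sum]
      rw [N2a.mem_WU_compl] at hτ
      refine Finset.sum_equiv (Equiv.mulLeft τ) (fun σ => ?_) (fun σ _ => ?_)
      · rw [N2a.mem_WU_compl, N2a.mem_WU_compl, Equiv.coe_mulLeft]
        constructor
        · rintro ⟨h1, h2⟩
          refine ⟨Q.W.mul_mem hτ.1 h1, fun b hb => ?_⟩
          rw [Equiv.Perm.mul_apply, h2 b hb, hτ.2 b hb]
        · rintro ⟨h1, h2⟩
          refine ⟨?_, fun b hb => ?_⟩
          · have := Q.W.mul_mem (Q.W.inv_mem hτ.1) h1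
            simpa using this
          · have h3 := h2 b hb
            rw [Equiv.Perm.mul_apply] at h3
            have h4 : τ (σ b) = τ b := by rw [h3, hτ.2 b hb]
            exact τ.injective h4
      · rw [rename_rename]
        rfl
    · unfold N2a.FF
      rw [N2a.kapF_one Q U hz]
      simp only [mul_one, act_toK]
      exact (map_sum _ _ _).symm
  have hs := N2a.mem_span_prod U s
  induction hs using Submodule.span_induction with
  | mem x hx =>
    obtain ⟨s1, hs1, s2, hs2, rfl⟩ := hx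
    exact key s1 hs1 s2 hs2
  | zero =>
    have : Q.hall g 0 = 0 := by simp [QD.hall, toK]
    rw [this]
    exact Submodule.zero_mem _
  | add x y _ _ hx hy =>
    have : Q.hall g (x + y) = Q.hall g x + Q.hall g y := by
      unfold QD.hall
      rw [← Finset.sum_add_distrib]
      refine Finset.sum_congr rfl fun σ _ => ?_
      rw [← map_add, ← add_mul]
      simp only [toK, map_add]
    rw [this]
    exact Submodule.add_mem _ hx hy
  | smul a x _ hx =>
    have : Q.hall g (a • x) = a • Q.hall g x := by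
      unfold QD.hall
      rw [Finset.smul_sum]
      refine Finset.sum_congr rfl fun σ _ => ?_
      rw [← QD.act_smul']
      congr 1
      simp only [toK]
      rw [Algebra.smul_def a x, map_mul, ← IsScalarTower.algebraMap_apply, ← Algebra.smul_def,
        smul_mul_assoc]
    rw [this]
    exact Submodule.smul_mem _ _ hx

theorem star_mem_LL [Algebra ℚ Λ] (U : Finset B) {f : KK B Λ} (hf : f ∈ Q.LN U * Q.RF U) :
    Q.star U f ∈ Q.LL := by
  rw [N2a.LN_RF] at hf
  refine Submodule.span_induction (p := fun f _ => Q.star U f ∈ Q.LL) ?_ ?_ ?_ ?_ hf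
  · rintro x ⟨g, s, r, hs, hr, hr', rfl⟩
    obtain ⟨c, hc⟩ := N2a.star_gen Q U g hs hr hr'
    rw [hc]
    exact Submodule.smul_mem _ _ (Submodule.subset_span ⟨_, _, rfl⟩)
  · have : Q.star U 0 = 0 := (Q.starL U).map_zero
    rw [this]
    exact Submodule.zero_mem _
  · intro x y _ _ hx hy
    have : Q.star U (x + y) = Q.star U x + Q.star U y := (Q.starL U).map_add x y
    rw [this]
    exact Submodule.add_mem _ hx hy
  · intro a x _ hx
    rw [N2a.star_smul]
    exact Submodule.smul_mem _ _ hx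

theorem star_mem_UU [Algebra ℚ Λ] {U : Finset B} (hU : U.Nonempty) {f : KK B Λ}
    (hf : f ∈ Q.LN U * Q.RF U) : Q.star U f ∈ Q.UU := by
  rw [N2a.LN_RF] at hf
  refine Submodule.span_induction (p := fun f _ => Q.star U f ∈ Q.UU) ?_ ?_ ?_ ?_ hf
  · rintro x ⟨g, s, r, hs, hr, hr', rfl⟩
    obtain ⟨c, hc⟩ := N2a.star_gen Q U g hs hr hr'
    rw [hc]
    refine Submodule.smul_mem _ _ (Submodule.subset_span ⟨_, _, ?_, rfl⟩)
    obtain ⟨b, hb⟩ := hU
    intro h
    have h1 := congrFun h b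
    simp only [N2a.joint, if_pos hb, Pi.zero_apply] at h1
    omega
  · have : Q.star U 0 = 0 := (Q.starL U).map_zero
    rw [this]
    exact Submodule.zero_mem _
  · intro x y _ _ hx hy
    have : Q.star U (x + y) = Q.star U x + Q.star U y := (Q.starL U).map_add x y
    rw [this]
    exact Submodule.add_mem _ hx hy
  · intro a x _ hx
    rw [N2a.star_smul]
    exact Submodule.smul_mem _ _ hx

/-- (N2b) -/
theorem star_UF [Algebra ℚ Λ] (U : Finset B) {f : KK B Λ} (hf : f ∈ Q.LN U * Q.UF U) :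
    Q.star U f ∈ ⨆ M : {M : Finset B // U ⊂ M},
      Submodule.map (Q.starL M.1) (Q.LN M.1 * Q.RF M.1) := by
  classical
  rw [N2a.LN_UF] at hf
  refine Submodule.span_induction (p := fun f _ => Q.star U f ∈ ⨆ M : {M : Finset B // U ⊂ M},
      Submodule.map (Q.starL M.1) (Q.LN M.1 * Q.RF M.1)) ?_ ?_ ?_ ?_ hf
  · rintro x ⟨g1, g2, s1, s2, hs1, hs2, ⟨b, hb, hg2⟩, rfl⟩
    rw [N2a.star_NF_FF' Q U g1 g2 hs1 hs2]
    refine Submodule.smul_of_tower_mem _ _ ?_
    have hM : U ⊂ Finset.univ.filter fun b => N2a.joint U g1 g2 b ≠ 0 := by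
      rw [Finset.ssubset_iff_of_subset]
      · refine ⟨b, ?_, hb⟩
        rw [Finset.mem_filter]
        refine ⟨Finset.mem_univ _, ?_⟩
        unfold N2a.joint
        rw [if_neg hb]
        omega
      · intro c hc
        rw [Finset.mem_filter]
        refine ⟨Finset.mem_univ _, ?_⟩
        unfold N2a.joint
        rw [if_pos hc]
        omega
    exact Submodule.mem_iSup_of_mem (p := fun M : {M : Finset B // U ⊂ M} =>
      Submodule.map (Q.starL M.1) (Q.LN M.1 * Q.RF M.1)) ⟨_, hM⟩ (hall_mem Q _ _)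
  · have : Q.star U 0 = 0 := (Q.starL U).map_zero
    rw [this]
    exact Submodule.zero_mem _
  · intro x y _ _ hx hy
    have : Q.star U (x + y) = Q.star U x + Q.star U y := (Q.starL U).map_add x y
    rw [this]
    exact Submodule.add_mem _ hx hy
  · intro a x _ hx
    rw [N2a.star_smul]
    exact Submodule.smul_mem _ _ hx

/-- (N2c) conjugation -/
theorem star_conj (σ : Equiv.Perm B) (hσ : σ ∈ Q.W) (U : Finset B) (f : KK B Λ) :
    Q.star (U.map σ.toEmbedding) (act σ f) = Q.star U f := by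
  unfold QD.star
  rw [← N2a.sum_act_act Q (f * Q.kap (QD.ind U)) hσ]
  refine Finset.sum_congr rfl fun τ _ => ?_
  have h1 : Q.kap (QD.ind (U.map σ.toEmbedding)) = act σ (Q.kap (QD.ind U)) := by
    rw [N2a.act_kap Q hσ]
    congr 1
    funext b
    unfold QD.ind
    simp only [Finset.mem_map_equiv]
    rfl
  rw [h1, ← map_mul (act σ)]

namespace N2a

theorem conj_fix {σ τ : Equiv.Perm B} {s : Set B} (h : ∀ b ∈ s, τ b = b) :
    ∀ b, σ⁻¹ b ∈ s → (σ * τ * σ⁻¹) b = b := by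
  intro b hb
  rw [Equiv.Perm.mul_apply, Equiv.Perm.mul_apply, h _ hb]
  simp

theorem act_sum_conj {σ : Equiv.Perm B} (hσ : σ ∈ Q.W) (U : Finset B) (F : KK B Λ) :
    act σ (∑ τ ∈ Q.WU U, act τ F) = ∑ τ ∈ Q.WU (U.map σ.toEmbedding), act τ (act σ F) := by
  rw [map_sum]
  refine Finset.sum_equiv (MulAut.conj σ).toEquiv (fun τ => ?_) (fun τ _ => ?_)
  · rw [mem_WU, mem_WU]
    show _ ↔ σ * τ * σ⁻¹ ∈ Q.W ∧ ∀ b ∉ U.map σ.toEmbedding, (σ * τ * σ⁻¹) b = b
    have hm : ∀ b, b ∈ U.map σ.toEmbedding ↔ σ⁻¹ b ∈ U := by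
      intro b
      rw [Finset.mem_map_equiv]
      rfl
    constructor
    · rintro ⟨h1, h2⟩
      refine ⟨Q.W.mul_mem (Q.W.mul_mem hσ h1) (Q.W.inv_mem hσ), fun b hb => ?_⟩
      rw [hm] at hb
      exact conj_fix (s := {b | b ∉ U}) h2 b hb
    · rintro ⟨h1, h2⟩
      refine ⟨?_, fun b hb => ?_⟩
      · have := Q.W.mul_mem (Q.W.mul_mem (Q.W.inv_mem hσ) h1) hσ
        simpa [mul_assoc] using this
      · have h3 := h2 (σ b) (by rw [hm]; simpa using hb)
        rw [Equiv.Perm.mul_apply, Equiv.Perm.mul_apply] at h3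
        simpa using h3
  · show act σ (act τ F) = act (σ * τ * σ⁻¹) (act σ F)
    rw [← act_mul, ← act_mul]
    congr 1
    group

theorem act_LN {σ : Equiv.Perm B} (hσ : σ ∈ Q.W) (U : Finset B) {f : KK B Λ} (hf : f ∈ Q.LN U) :
    act σ f ∈ Q.LN (U.map σ.toEmbedding) := by
  unfold QD.LN at hf
  refine Submodule.span_induction
    (p := fun f _ => act σ f ∈ Q.LN (U.map σ.toEmbedding)) ?_ ?_ ?_ ?_ hf
  · rintro x ⟨g, s, hs, rfl⟩
    refine Submodule.subset_span ⟨fun b => g (σ⁻¹ b), rename σ s, ?_, ?_⟩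
    · refine rename_mem_supported hs fun b hb => ?_
      exact Finset.mem_map_of_mem _ hb
    · rw [act_sum_conj Q hσ, map_mul, act_toK, act_kapN Q hσ]
  · rw [map_zero]; exact Submodule.zero_mem _
  · intro x y _ _ hx hy
    rw [map_add]; exact Submodule.add_mem _ hx hy
  · intro a x _ hx
    rw [QD.act_smul']; exact Submodule.smul_mem _ _ hx

theorem map_compl_eq (σ : Equiv.Perm B) (U : Finset B) :
    (U.map σ.toEmbedding)ᶜ = Uᶜ.map σ.toEmbedding := by
  ext b
  simp [Finset.mem_map_equiv]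

theorem act_RF {σ : Equiv.Perm B} (hσ : σ ∈ Q.W) (U : Finset B) {f : KK B Λ} (hf : f ∈ Q.RF U) :
    act σ f ∈ Q.RF (U.map σ.toEmbedding) := by
  unfold QD.RF at hf
  refine Submodule.span_induction
    (p := fun f _ => act σ f ∈ Q.RF (U.map σ.toEmbedding)) ?_ ?_ ?_ ?_ hf
  · rintro x ⟨r, hr, hr', rfl⟩
    refine Submodule.subset_span ⟨rename σ r, ?_, ?_, ?_⟩
    · refine rename_mem_supported hr fun b hb => ?_
      rw [map_compl_eq]
      exact Finset.mem_map_of_mem _ hb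
    · intro τ hτ
      rw [mem_WU_compl] at hτ
      have h1 : σ⁻¹ * τ * σ ∈ Q.WU Uᶜ := by
        rw [mem_WU_compl]
        refine ⟨Q.W.mul_mem (Q.W.mul_mem (Q.W.inv_mem hσ) hτ.1) hσ, fun b hb => ?_⟩
        rw [Equiv.Perm.mul_apply, Equiv.Perm.mul_apply,
          hτ.2 (σ b) (Finset.mem_map_of_mem _ hb)]
        simp
      have h2 := hr' _ h1
      conv_rhs => rw [← h2]
      rw [rename_rename, rename_rename]
      congr 1
      congr 1
      funext b
      simp
    · rw [act_toK]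
  · rw [map_zero]; exact Submodule.zero_mem _
  · intro x y _ _ hx hy
    rw [map_add]; exact Submodule.add_mem _ hx hy
  · intro a x _ hx
    rw [QD.act_smul']; exact Submodule.smul_mem _ _ hx

end N2a

theorem act_LN_RF (σ : Equiv.Perm B) (hσ : σ ∈ Q.W) (U : Finset B) {f : KK B Λ}
    (hf : f ∈ Q.LN U * Q.RF U) :
    act σ f ∈ Q.LN (U.map σ.toEmbedding) * Q.RF (U.map σ.toEmbedding) := by
  refine Submodule.mul_induction_on hf ?_ ?_
  · intro m hm n hn
    rw [map_mul]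
    exact Submodule.mul_mem_mul (N2a.act_LN Q hσ U hm) (N2a.act_RF Q hσ U hn)
  · intro x y hx hy
    rw [map_add]
    exact Submodule.add_mem _ hx hy

end Vale.Agent.P291
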