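import Vale.Agent.P291.H276.Theta2
import Vale.Agent.P291.H276.SymW

/-!
# P291, block N2d: independence of the Hall pieces
-/

set_option linter.unusedSectionVars false

open MvPolynomial

namespace Vale.Agent.P291

namespace N2d

variable {I E B Λ : Type*} [Fintype E] [DecidableEq I] [Fintype B] [DecidableEq B] [CommRing Λ]
  [IsDomain Λ]
variable (Q : QD I E B Λ)

theorem act_mul' (σ τ : Equiv.Perm B) (x : KK B Λ) : act (σ * τ) x = act σ (act τ x) := by
  obtain ⟨p, q, hq, rfl⟩ := IsFractionRing.div_surjective (A := SS B Λ) x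
  rw [map_div₀, map_div₀, map_div₀, act_toK, act_toK, act_toK, act_toK, act_toK, act_toK,
    rename_rename, rename_rename]
  rfl

theorem act_one' (x : KK B Λ) : act (1 : Equiv.Perm B) x = x := by
  obtain ⟨p, q, hq, rfl⟩ := IsFractionRing.div_surjective (A := SS B Λ) x
  have h : (rename (⇑(1 : Equiv.Perm B)) : SS B Λ →ₐ[Λ] SS B Λ) = AlgHom.id _ _ := by
    rw [Equiv.Perm.coe_one]; exact rename_id
  rw [map_div₀, act_toK, act_toK, h]
  rfl

theorem smul_eq (c : Λ) (x : KK B Λ) : c • x = toK (C c) * x := by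
  rw [Algebra.smul_def, IsScalarTower.algebraMap_apply Λ (SS B Λ) (KK B Λ)]
  rfl

/-- symmetrisation over the stabiliser of `U` -/
noncomputable def symL (U : Finset B) : KK B Λ →ₗ[Λ] KK B Λ where
  toFun f := ∑ σ ∈ WS Q U, act σ f
  map_add' f g := by simp [Finset.sum_add_distrib]
  map_smul' c f := by
    simp only [RingHom.id_apply, Finset.smul_sum, QD.act_smul']

theorem symL_apply (U : Finset B) (f : KK B Λ) : symL Q U f = ∑ σ ∈ WS Q U, act σ f := rfl

/-- symmetrised products of near and far terms, the far one in `UU` -/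
noncomputable def NU (U : Finset B) : Submodule Λ (KK B Λ) :=
  Submodule.span Λ {f | ∃ (g : B → ℕ) (s : SS B Λ), (∃ b ∉ U, g b ≠ 0) ∧
    f = symL Q U (toK s * (Q.kapN U g * Q.kapF U g))}

/-- unsymmetrised Hall terms with unframed part `M` -/
noncomputable def GM (M : Finset B) : Submodule Λ (KK B Λ) :=
  Submodule.span Λ {f | ∃ (g : B → ℕ) (s : SS B Λ), (∀ b, g b ≠ 0 ↔ b ∈ M) ∧
    f = toK s * Q.kap g}

theorem LN_mul_ind {U : Finset B} {f : KK B Λ} (hf : f ∈ Q.LN U * Q.RF U) :
    f * Q.kap (QD.ind U) ∈ GM Q U := by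
  induction hf using Submodule.mul_induction_on' with
  | mem_mul_mem a ha b hb =>
    induction hb using Submodule.span_induction with
    | mem b hb =>
      obtain ⟨r, hr, hr', rfl⟩ := hb
      induction ha using Submodule.span_induction with
      | mem a ha =>
        obtain ⟨g, s, hs, rfl⟩ := ha
        rw [Finset.sum_mul, Finset.sum_mul]
        refine Submodule.sum_mem _ fun σ hσ => ?_
        refine Submodule.subset_span ⟨fun b => if b ∈ U then g (σ⁻¹ b) + 1 else 0,
          rename σ s * r, fun b => by by_cases h : b ∈ U <;> simp [h], ?_⟩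
        have h1 := (mem_WU Q).1 hσ
        rw [map_mul, act_toK, act_kapN Q h1.1, map_eq_of_pres (WU_pres Q hσ),
          kap_split Q U (fun b => if b ∈ U then g (σ⁻¹ b) + 1 else 0),
          kapF_zero Q U (fun r hr => if_neg hr), H216.toK_mul]
        · rw [kapN_congr Q U (g := fun b => if b ∈ U then g (σ⁻¹ b) + 1 else 0)
            (h := fun b => g (σ⁻¹ b)) (fun r hr s hs => by simp [hr, hs])]
          ring
        · intro b hb c hc
          simp [hb, hc]
        · intro b hb
          simp [hb]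
      | zero => simp
      | add x y _ _ hx hy => rw [add_mul, add_mul]; exact Submodule.add_mem _ hx hy
      | smul c x _ hx =>
        rw [smul_mul_assoc, smul_mul_assoc]; exact Submodule.smul_mem _ _ hx
    | zero => simp
    | add x y _ _ hx hy => rw [mul_add, add_mul]; exact Submodule.add_mem _ hx hy
    | smul c x _ hx =>
      rw [mul_smul_comm, smul_mul_assoc]; exact Submodule.smul_mem _ _ hx
  | add x _ y _ hx hy => rw [add_mul]; exact Submodule.add_mem _ hx hy

theorem act_GM {σ : Equiv.Perm B} (hσ : σ ∈ Q.W) {M : Finset B} {f : KK B Λ}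
    (hf : f ∈ GM Q M) : act σ f ∈ GM Q (M.map σ.toEmbedding) := by
  induction hf using Submodule.span_induction with
  | mem f hf =>
    obtain ⟨g, s, hg, rfl⟩ := hf
    refine Submodule.subset_span ⟨fun b => g (σ⁻¹ b), rename σ s, fun b => ?_, ?_⟩
    · rw [hg]
      constructor
      · intro h
        exact Finset.mem_map.2 ⟨σ⁻¹ b, h, by simp⟩
      · intro h
        obtain ⟨c, hc, rfl⟩ := Finset.mem_map.1 h
        simpa using hc
    · rw [map_mul, act_toK, act_kap Q hσ]
  | zero => simp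
  | add x y _ _ hx hy => rw [map_add]; exact Submodule.add_mem _ hx hy
  | smul c x _ hx => rw [QD.act_smul']; exact Submodule.smul_mem _ _ hx

theorem Theta_smul (U : Finset B) (c : Λ) (x : KK B Λ) (m : ℤ) :
    (Theta U (c • x)).coeff m = c • (Theta U x).coeff m := by
  rw [smul_eq, map_mul, Theta_toK, thetaS_C, C_mul_coeff, smul_eq]

theorem Theta_sym (U : Finset B) (f : KK B Λ) (m : ℤ) :
    (Theta U (symL Q U f)).coeff m = symL Q U ((Theta U f).coeff m) := by
  rw [symL_apply, symL_apply, map_sum, HahnSeries.coeff_sum]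
  refine Finset.sum_congr rfl fun σ hσ => ?_
  rw [Theta_act ((mem_WS Q).1 hσ).2, hmap_coeff]

theorem CIn_GM {U M : Finset B} (hM : ∃ b ∈ M, b ∉ U) {f : KK B Λ} (hf : f ∈ GM Q M) (m : ℤ) :
    (Theta U (symL Q U f)).coeff m ∈ NU Q U := by
  induction hf using Submodule.span_induction with
  | mem f hf =>
    obtain ⟨g, s, hg, rfl⟩ := hf
    rw [Theta_sym]
    obtain ⟨t, ht⟩ := CIn_term Q U g s m
    refine Submodule.subset_span ⟨g, t, ?_, ?_⟩
    · obtain ⟨b, hb, hb'⟩ := hM
      exact ⟨b, hb', (hg b).2 hb⟩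
    · rw [← ht]
      rfl
  | zero => simp
  | add x y _ _ hx hy =>
    rw [map_add, map_add, HahnSeries.coeff_add]; exact Submodule.add_mem _ hx hy
  | smul c x _ hx =>
    rw [map_smul, Theta_smul]; exact Submodule.smul_mem _ _ hx

theorem sum_sym (U : Finset B) (F : KK B Λ) :
    ∑ σ ∈ Q.Wf, symL Q U (act σ F) = (WS Q U).card • ∑ σ ∈ Q.Wf, act σ F := by
  simp only [symL_apply]
  rw [Finset.sum_comm]
  rw [← Finset.sum_const]
  refine Finset.sum_congr rfl fun τ hτ => ?_
  have h1 := ((mem_WS Q).1 hτ).1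
  refine Finset.sum_equiv (Equiv.mulLeft τ) (fun σ => ?_) (fun σ _ => ?_)
  · rw [mem_Wf, mem_Wf]
    constructor
    · intro h; exact Q.W.mul_mem h1 h
    · intro h
      have := Q.W.mul_mem (Q.W.inv_mem h1) h
      simpa using this
  · rw [Equiv.coe_mulLeft, act_mul']

theorem ind_inv {U : Finset B} {σ : Equiv.Perm B} (hσ : σ ∈ WS Q U) :
    act σ (Q.kap (QD.ind U)) = Q.kap (QD.ind U) := by
  have h := (mem_WS Q).1 hσ
  rw [act_kap Q h.1]
  congr 1
  funext b
  simp only [QD.ind, pres_inv h.2]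

theorem sym_mul_ind (U : Finset B) (f : KK B Λ) :
    symL Q U (f * Q.kap (QD.ind U)) = symL Q U f * Q.kap (QD.ind U) := by
  rw [symL_apply, symL_apply, Finset.sum_mul]
  refine Finset.sum_congr rfl fun σ hσ => ?_
  rw [map_mul, ind_inv Q hσ]

theorem NU_mul {U : Finset B} {v : SS B Λ} (hv : ∀ σ ∈ WS Q U, rename σ v = v) {x : KK B Λ}
    (hx : x ∈ NU Q U) : toK v * x ∈ NU Q U := by
  induction hx using Submodule.span_induction with
  | mem x hx =>
    obtain ⟨g, s, hg, rfl⟩ := hx
    refine Submodule.subset_span ⟨g, v * s, hg, ?_⟩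
    rw [symL_apply, symL_apply, Finset.mul_sum]
    refine Finset.sum_congr rfl fun σ hσ => ?_
    rw [H216.toK_mul, mul_assoc, map_mul (act σ) (toK v), act_toK, hv σ hσ]
  | zero => simp
  | add x y _ _ hx hy => rw [mul_add]; exact Submodule.add_mem _ hx hy
  | smul c x _ hx => rw [mul_smul_comm]; exact Submodule.smul_mem _ _ hx

/-- invariance of the elements of `LN U * RF U` -/
theorem LN_inv {U : Finset B} {f : KK B Λ} (hf : f ∈ Q.LN U * Q.RF U) {σ : Equiv.Perm B}
    (hσ : σ ∈ WS Q U) : act σ f = f := by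
  have h := (mem_WS Q).1 hσ
  induction hf using Submodule.mul_induction_on' with
  | mem_mul_mem a ha b hb =>
    rw [map_mul]
    congr 1
    · induction ha using Submodule.span_induction with
      | mem a ha =>
        obtain ⟨g, s, hs, rfl⟩ := ha
        have hsup : SupK U (toK s * Q.kapN U g) := (SupK_toK hs).mul (SupK_kapN Q U g)
        rw [map_sum]
        have h1 : ∀ τ ∈ Q.WU U, act σ (act τ (toK s * Q.kapN U g)) =
            act (rho' U σ * τ) (toK s * Q.kapN U g) := by
          intro τ hτ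
          rw [← act_mul']
          refine act_congr' (fun b hb => ?_) hsup
          rw [Equiv.Perm.mul_apply, Equiv.Perm.mul_apply, rho'_mem h.2]
          exact (WU_pres Q hτ b).2 hb
        rw [Finset.sum_congr rfl h1]
        have hρ := rho'_WU Q h.1 h.2
        refine Finset.sum_equiv (Equiv.mulLeft (rho' U σ)) (fun τ => ?_) (fun τ _ => rfl)
        rw [mem_WU, mem_WU, Equiv.coe_mulLeft]
        have hρ' := (mem_WU Q).1 hρ
        constructor
        · rintro ⟨h2, h3⟩
          exact ⟨Q.W.mul_mem hρ'.1 h2, fun b hb => by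
            rw [Equiv.Perm.mul_apply, h3 b hb, hρ'.2 b hb]⟩
        · rintro ⟨h2, h3⟩
          refine ⟨by simpa using Q.W.mul_mem (Q.W.inv_mem hρ'.1) h2, fun b hb => ?_⟩
          have h4 := h3 b hb
          rw [Equiv.Perm.mul_apply] at h4
          have h5 := hρ'.2 b hb
          exact (rho' U σ).injective (h4.trans h5.symm)
      | zero => simp
      | add x y _ _ hx hy => rw [map_add, hx, hy]
      | smul c x _ hx => rw [QD.act_smul', hx]
    · induction hb using Submodule.span_induction with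
      | mem b hb =>
        obtain ⟨r, hr, hr', rfl⟩ := hb
        rw [act_toK]
        congr 1
        rw [← hr' _ (rho'_WU Q h.1 (pres_compl h.2))]
        conv_rhs => rw [hr' _ (rho'_WU Q h.1 (pres_compl h.2))]
        have h2 : rename σ r = rename (rho' Uᶜ σ) r := by
          refine rename_congr' (U := Uᶜ) (fun b hb => ?_) hr
          rw [rho'_mem (pres_compl h.2) hb]
        rw [hr' _ (rho'_WU Q h.1 (pres_compl h.2)), h2, hr' _ (rho'_WU Q h.1 (pres_compl h.2))]
      | zero => simp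
      | add x y _ _ hx hy => rw [map_add, hx, hy]
      | smul c x _ hx => rw [QD.act_smul', hx]
  | add x _ y _ hx hy => rw [map_add, hx, hy]

theorem sym_LN {U : Finset B} {f : KK B Λ} (hf : f ∈ Q.LN U * Q.RF U) :
    symL Q U f = (WS Q U).card • f := by
  rw [symL_apply, ← Finset.sum_const]
  exact Finset.sum_congr rfl fun σ hσ => LN_inv Q hf hσ

theorem thetaS_far {U : Finset B} {r : SS B Λ}
    (hr : r ∈ supported Λ ((Uᶜ : Finset B) : Set B)) : thetaS U r = HahnSeries.C (toK r) := by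
  rw [mem_supported] at hr
  refine hom_congr_vars (f₁ := thetaS U) (f₂ := (HahnSeries.C : KK B Λ →+* _).comp
    (algebraMap (SS B Λ) (KK B Λ))) ?_ ?_ rfl
  · ext1 c
    rw [RingHom.comp_apply, thetaS_C]
    rfl
  · intro b hb _
    have h1 : b ∉ U := by
      have := hr hb
      simpa using this
    rw [thetaS_X]
    have : (dl U (some b) : SS B Λ) = 0 := by
      rw [dl, if_neg]; rw [inU_some]; exact h1
    rw [this, toK_zero, map_zero, add_zero]
    rfl

/-- constant coefficient -/
theorem Theta_coeff_zero {U : Finset B} {f : KK B Λ} (hf : f ∈ Q.LN U * Q.RF U) :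
    (Theta U f).coeff 0 = f := by
  induction hf using Submodule.mul_induction_on' with
  | mem_mul_mem a ha b hb =>
    induction hb using Submodule.span_induction with
    | mem b hb =>
      obtain ⟨r, hr, hr', rfl⟩ := hb
      induction ha using Submodule.span_induction with
      | mem a ha =>
        obtain ⟨g, s, hs, rfl⟩ := ha
        rw [Finset.sum_mul, map_sum, HahnSeries.coeff_sum]
        refine Finset.sum_congr rfl fun σ hσ => ?_
        have h1 := (mem_WU Q).1 hσ
        rw [map_mul (act σ), act_toK, act_kapN Q h1.1, map_eq_of_pres (WU_pres Q hσ)]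
        rw [map_mul, map_mul, Theta_toK, Theta_toK, Theta_kapN, thetaS_far hr]
        have h2 : thetaS U (rename σ s) * HahnSeries.C (Q.kapN U fun b => g (σ⁻¹ b)) *
            HahnSeries.C (toK r) = HahnSeries.C ((Q.kapN U fun b => g (σ⁻¹ b)) * toK r) *
            thetaS U (rename σ s) := by
          rw [map_mul]; ring
        rw [h2, C_mul_coeff, thetaS_coeff_zero]
        ring
      | zero => simp
      | add x y _ _ hx hy => rw [add_mul, map_add, HahnSeries.coeff_add, hx, hy]
      | smul c x _ hx => rw [smul_mul_assoc, Theta_smul, hx]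
    | zero => simp
    | add x y _ _ hx hy => rw [mul_add, map_add, HahnSeries.coeff_add, hx, hy]
    | smul c x _ hx => rw [mul_smul_comm, Theta_smul, hx]
  | add x _ y _ hx hy => rw [map_add, HahnSeries.coeff_add, hx, hy]

theorem symL_mul {U : Finset B} {x y : KK B Λ} (hx : SupK U x) (hy : SupK Uᶜ y) :
    symL Q U (x * y) = (∑ σ ∈ Q.WU U, act σ x) * ∑ τ ∈ Q.WU Uᶜ, act τ y := by
  rw [Finset.sum_mul_sum, ← sum_WS Q U (fun σ τ => act σ x * act τ y), symL_apply]
  refine Finset.sum_congr rfl fun σ hσ => ?_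
  have h := (mem_WS Q).1 hσ
  rw [map_mul]
  congr 1
  · exact act_congr' (fun b hb => (rho'_mem h.2 hb).symm) hx
  · exact act_congr' (fun b hb => (rho'_mem (pres_compl h.2) hb).symm) hy

theorem NU_le (U : Finset B) : NU Q U ≤ Q.LN U * Q.UF U := by
  rw [NU, Submodule.span_le]
  rintro f ⟨g, s, hg, rfl⟩
  refine split_induction (P := fun s => symL Q U (toK s * (Q.kapN U g * Q.kapF U g)) ∈
    Q.LN U * Q.UF U) U (fun s hs t ht => ?_) (fun s t h1 h2 => ?_) s
  · have h3 : toK (s * t) * (Q.kapN U g * Q.kapF U g) =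
        (toK s * Q.kapN U g) * (toK t * Q.kapF U g) := by
      rw [H216.toK_mul]; ring
    rw [h3, symL_mul Q ((SupK_toK hs).mul (SupK_kapN Q U g))
      ((SupK_toK ht).mul (SupK_kapF Q U g))]
    exact Submodule.mul_mem_mul (Submodule.subset_span ⟨g, s, hs, rfl⟩)
      (Submodule.subset_span ⟨g, t, ht, hg, rfl⟩)
  · have h3 : toK (s + t) * (Q.kapN U g * Q.kapF U g) =
        toK s * (Q.kapN U g * Q.kapF U g) + toK t * (Q.kapN U g * Q.kapF U g) := by
      rw [show toK (s + t) = toK s + toK t from map_add _ _ _]; ring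
    rw [h3, map_add]
    exact Submodule.add_mem _ h1 h2

theorem nsmul_cancel [Algebra ℚ Λ] (N : Submodule Λ (KK B Λ)) {n : ℕ} (hn : n ≠ 0)
    {x : KK B Λ} (h : n • x ∈ N) : x ∈ N := by
  have h1 : x = (algebraMap ℚ Λ (1 / (n : ℚ))) • (n • x) := by
    rw [← Nat.cast_smul_eq_nsmul Λ n x, smul_smul]
    have h2 : algebraMap ℚ Λ (1 / (n : ℚ)) * (n : Λ) = 1 := by
      have h3 : (n : Λ) = algebraMap ℚ Λ (n : ℚ) := by simp
      rw [h3, ← map_mul, one_div, inv_mul_cancel₀ (by exact_mod_cast hn), map_one]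
    rw [h2, one_smul]
  rw [h1]
  exact Submodule.smul_mem _ _ h

/-- invariant polynomials of the stabiliser -/
noncomputable def PI (U : Finset B) : AddSubgroup (KK B Λ) where
  carrier := {x | ∃ v : SS B Λ, (∀ σ ∈ WS Q U, rename σ v = v) ∧ toK v = x}
  zero_mem' := ⟨0, fun σ _ => map_zero _, map_zero _⟩
  add_mem' := by
    rintro _ _ ⟨v, hv, rfl⟩ ⟨w, hw, rfl⟩
    exact ⟨v + w, fun σ hσ => by rw [map_add, hv σ hσ, hw σ hσ], map_add _ _ _⟩
  neg_mem' := by
    rintro _ ⟨v, hv, rfl⟩
    exact ⟨-v, fun σ hσ => by rw [map_neg, hv σ hσ], map_neg _ _⟩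

theorem CIn_inv (U : Finset B) : CIn (PI Q U) (Theta U (Q.kap (QD.ind U)))⁻¹ := by
  intro m
  have h1 : UnS (Theta U (Q.kap (QD.ind U))) := by
    rw [kap_ind]; exact Theta_kapC Q U _
  obtain ⟨v, hv⟩ := h1.inv.1 m
  refine ⟨v, fun σ hσ => ?_, hv⟩
  have h2 : hmap σ (Theta U (Q.kap (QD.ind U)))⁻¹ = (Theta U (Q.kap (QD.ind U)))⁻¹ := by
    rw [map_inv₀, ← Theta_act ((mem_WS Q).1 hσ).2, ind_inv Q hσ]
  have h3 := congrArg (fun F => HahnSeries.coeff F m) h2
  simp only [hmap_coeff] at h3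
  rw [← hv] at h3
  have h4 : act σ (toK v) = toK v := h3
  rw [act_toK, H216.toK_inj] at h4
  exact h4

theorem one_mem_WS (U : Finset B) : (1 : Equiv.Perm B) ∈ WS Q U :=
  (mem_WS Q).2 ⟨Q.W.one_mem, fun _ => Iff.rfl⟩

end N2d

variable {I E B Λ : Type*} [Fintype E] [DecidableEq I] [Fintype B] [DecidableEq B] [CommRing Λ]
  [IsDomain Λ]
variable (Q : QD I E B Λ)

open N2d in
/-- (N2d) independence of the pieces, by `x_U ↦ x_U + y`, `y → ∞` -/
theorem star_indep [Algebra ℚ Λ] (T : Finset (Finset B)) (f : Finset B → KK B Λ)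
    (hf : ∀ M ∈ T, f M ∈ Q.LN M * Q.RF M) (h0 : ∑ M ∈ T, Q.star M (f M) = 0) (U : Finset B)
    (hU : U ∈ T) (hmin : ∀ M ∈ T, U.card ≤ M.card)
    (hconj : ∀ M ∈ T, M ≠ U → ∀ σ ∈ Q.W, M.map σ.toEmbedding ≠ U) :
    f U ∈ Q.LN U * Q.UF U := by
  classical
  set n := (WS Q U).card with hn
  have hn0 : n ≠ 0 := Finset.card_ne_zero.2 ⟨1, one_mem_WS Q U⟩
  -- the total sum
  have h1 : ∑ M ∈ T, ∑ σ ∈ Q.Wf, symL Q U (act σ (f M * Q.kap (QD.ind M))) = 0 := by
    have : ∀ M ∈ T, ∑ σ ∈ Q.Wf, symL Q U (act σ (f M * Q.kap (QD.ind M))) =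
        n • Q.star M (f M) := fun M _ => sum_sym Q U _
    have h0' := Finset.sum_nsmul T n (fun M => Q.star M (f M))
    rw [h0, nsmul_zero] at h0'
    exact (Finset.sum_congr rfl this).trans h0'
  -- every term outside the diagonal
  have h2 : ∀ M ∈ T, ∀ σ ∈ Q.Wf, ¬ (M = U ∧ σ ∈ WS Q U) → ∀ m,
      (Theta U (symL Q U (act σ (f M * Q.kap (QD.ind M))))).coeff m ∈ NU Q U := by
    intro M hM σ hσ hne m
    have hσ' := (mem_Wf Q).1 hσ
    refine CIn_GM Q (M := M.map σ.toEmbedding) ?_ (act_GM Q hσ' (LN_mul_ind Q (hf M hM))) m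
    by_contra hcon
    push Not at hcon
    have hsub : M.map σ.toEmbedding ⊆ U := hcon
    have hcard : U.card ≤ (M.map σ.toEmbedding).card := by
      rw [Finset.card_map]; exact hmin M hM
    have heq := Finset.eq_of_subset_of_card_le hsub hcard
    by_cases hMU : M = U
    · apply hne
      refine ⟨hMU, (mem_WS Q).2 ⟨hσ', fun b => ?_⟩⟩
      subst hMU
      constructor
      · intro hb
        rw [← heq] at hb
        obtain ⟨c, hc, hcb⟩ := Finset.mem_map.1 hb
        have : c = b := σ.injective hcb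
        rwa [← this]
      · intro hb
        rw [← heq]
        exact Finset.mem_map.2 ⟨b, hb, rfl⟩
    · exact hconj M hM hMU σ hσ' heq
  -- the diagonal terms
  have h3 : ∀ σ ∈ WS Q U, symL Q U (act σ (f U * Q.kap (QD.ind U))) =
      n • (f U * Q.kap (QD.ind U)) := by
    intro σ hσ
    rw [map_mul, LN_inv Q (hf U hU) hσ, ind_inv Q hσ, sym_mul_ind, sym_LN Q (hf U hU),
      smul_mul_assoc]
  have h4 : ∑ σ ∈ Q.Wf, symL Q U (act σ (f U * Q.kap (QD.ind U))) =
      n • n • (f U * Q.kap (QD.ind U)) +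
      ∑ σ ∈ Q.Wf.filter (fun σ => σ ∉ WS Q U), symL Q U (act σ (f U * Q.kap (QD.ind U))) := by
    rw [← Finset.sum_filter_add_sum_filter_not Q.Wf (fun σ => σ ∈ WS Q U)]
    congr 1
    have h5 : Q.Wf.filter (fun σ => σ ∈ WS Q U) = WS Q U := by
      ext σ
      rw [Finset.mem_filter]
      exact ⟨fun h => h.2, fun h => ⟨(Finset.mem_filter.1 h).1, h⟩⟩
    rw [h5, Finset.sum_congr rfl h3, Finset.sum_const]
  have h6 : n • n • (f U * Q.kap (QD.ind U)) =
      -(∑ σ ∈ Q.Wf.filter (fun σ => σ ∉ WS Q U), symL Q U (act σ (f U * Q.kap (QD.ind U))) +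
      ∑ M ∈ T.erase U, ∑ σ ∈ Q.Wf, symL Q U (act σ (f M * Q.kap (QD.ind M)))) := by
    rw [← Finset.add_sum_erase T _ hU, h4] at h1
    rw [eq_neg_iff_add_eq_zero, ← h1]
    abel
  have h7 : ∀ m, (Theta U (f U * Q.kap (QD.ind U))).coeff m ∈ NU Q U := by
    intro m
    refine nsmul_cancel _ hn0 (nsmul_cancel _ hn0 ?_)
    have h8 : n • n • (Theta U (f U * Q.kap (QD.ind U))).coeff m =
        (Theta U (n • n • (f U * Q.kap (QD.ind U)))).coeff m := by
      rw [map_nsmul, map_nsmul, HahnSeries.coeff_nsmul, Pi.smul_apply, HahnSeries.coeff_nsmul,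
        Pi.smul_apply]
    rw [h8, h6, map_neg, map_add, HahnSeries.coeff_neg, HahnSeries.coeff_add]
    refine Submodule.neg_mem _ (Submodule.add_mem _ ?_ ?_)
    · rw [map_sum, HahnSeries.coeff_sum]
      refine Submodule.sum_mem _ fun σ hσ => ?_
      obtain ⟨hσ1, hσ2⟩ := Finset.mem_filter.1 hσ
      exact h2 U hU σ hσ1 (fun h => hσ2 h.2) m
    · rw [map_sum, HahnSeries.coeff_sum]
      refine Submodule.sum_mem _ fun M hM => ?_
      obtain ⟨hM1, hM2⟩ := Finset.mem_erase.1 hM
      rw [map_sum, HahnSeries.coeff_sum]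
      refine Submodule.sum_mem _ fun σ hσ => ?_
      exact h2 M hM2 σ hσ (fun h => hM1 h.1) m
  have hV : Theta U (Q.kap (QD.ind U)) ≠ 0 := by
    have h1 : UnS (Theta U (Q.kap (QD.ind U))) := by
      rw [kap_ind]; exact Theta_kapC Q U _
    obtain ⟨_, G, _, h3⟩ := h1
    intro h0
    rw [h0, zero_mul] at h3
    exact zero_ne_one h3
  have h9 : Theta U (f U) = Theta U (f U * Q.kap (QD.ind U)) * (Theta U (Q.kap (QD.ind U)))⁻¹ := by
    rw [map_mul, mul_assoc, mul_inv_cancel₀ hV, mul_one]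
  have h10 : CIn (NU Q U).toAddSubgroup (Theta U (f U)) := by
    rw [h9]
    refine CIn.mul (P := (NU Q U).toAddSubgroup) (N := PI Q U) (M := (NU Q U).toAddSubgroup) ?_
      h7 (CIn_inv Q U)
    rintro x hx _ ⟨v, hv, rfl⟩
    rw [mul_comm]
    exact NU_mul Q hv hx
  have h11 := h10 0
  rw [Theta_coeff_zero Q (hf U hU)] at h11
  exact NU_le Q U h11

end Vale.Agent.P291
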