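import Vale.Agent.P291.HCore

/-!
# P291, block N2e: linear disjointness of functions of `x_U` and of `x_{U^c}`
-/

open MvPolynomial

namespace Vale.Agent.P291

namespace N2e

variable {B Λ : Type*} [CommRing Λ] [IsDomain Λ]

theorem tK_mul (f g : SS B Λ) : (toK (f * g) : KK B Λ) = toK f * toK g := map_mul _ _ _

theorem tK_add (f g : SS B Λ) : (toK (f + g) : KK B Λ) = toK f + toK g := map_add _ _ _

theorem tK_ne {f : SS B Λ} (h : f ≠ 0) : (toK f : KK B Λ) ≠ 0 := by
  simpa [toK] using h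

theorem tK_inj {f g : SS B Λ} (h : (toK f : KK B Λ) = toK g) : f = g :=
  IsFractionRing.injective (SS B Λ) (KK B Λ) h

theorem smul_toK (c : Λ) (f : KK B Λ) : c • f = toK (C c) * f := by
  rw [Algebra.smul_def, IsScalarTower.algebraMap_apply Λ (SS B Λ) (KK B Λ)]
  rfl

theorem C_mem (T : Set B) (c : Λ) : (C c : SS B Λ) ∈ supported Λ T :=
  (supported Λ T).algebraMap_mem c

/-- rational functions in the variables of `T` -/
def PT (T : Set B) (f : KK B Λ) : Prop :=
  ∃ P ∈ supported Λ T, P ≠ 0 ∧ ∃ A ∈ supported Λ T, f * toK P = toK A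

theorem PT_toK {T : Set B} {A : SS B Λ} (h : A ∈ supported Λ T) : PT T (toK A) :=
  ⟨1, Subalgebra.one_mem _, one_ne_zero, A, h, by rw [← tK_mul, mul_one]⟩

theorem PT_zero (T : Set B) : PT T (0 : KK B Λ) :=
  ⟨1, Subalgebra.one_mem _, one_ne_zero, 0, Subalgebra.zero_mem _, by simp⟩

theorem PT_add {T : Set B} {f g : KK B Λ} (hf : PT T f) (hg : PT T g) : PT T (f + g) := by
  obtain ⟨P, hP, hP0, A, hA, h1⟩ := hf
  obtain ⟨P', hP', hP0', A', hA', h2⟩ := hg
  refine ⟨P * P', Subalgebra.mul_mem _ hP hP', mul_ne_zero hP0 hP0', A * P' + A' * P,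
    Subalgebra.add_mem _ (Subalgebra.mul_mem _ hA hP') (Subalgebra.mul_mem _ hA' hP), ?_⟩
  rw [tK_mul, tK_add, tK_mul, tK_mul, ← h1, ← h2]
  ring

theorem PT_mul {T : Set B} {f g : KK B Λ} (hf : PT T f) (hg : PT T g) : PT T (f * g) := by
  obtain ⟨P, hP, hP0, A, hA, h1⟩ := hf
  obtain ⟨P', hP', hP0', A', hA', h2⟩ := hg
  refine ⟨P * P', Subalgebra.mul_mem _ hP hP', mul_ne_zero hP0 hP0', A * A',
    Subalgebra.mul_mem _ hA hA', ?_⟩
  rw [tK_mul, tK_mul, ← h1, ← h2]
  ring

theorem PT_div {T : Set B} {A P : SS B Λ} (hA : A ∈ supported Λ T) (hP : P ∈ supported Λ T)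
    (hP0 : P ≠ 0) : PT T (toK A / toK P) :=
  ⟨P, hP, hP0, A, hA, div_mul_cancel₀ _ (tK_ne hP0)⟩

/-- rational functions in the variables of `T`, as a submodule -/
def RS (Λ : Type*) {B : Type*} [CommRing Λ] [IsDomain Λ] (T : Set B) :
    Submodule Λ (KK B Λ) where
  carrier := {f | PT T f}
  zero_mem' := PT_zero T
  add_mem' := PT_add
  smul_mem' := fun c f hf => by
    rw [smul_toK]
    exact PT_mul (PT_toK (C_mem T c)) hf

theorem mem_RS {T : Set B} {f : KK B Λ} : f ∈ RS Λ T ↔ PT T f := Iff.rfl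

/-- common denominators -/
theorem common_den {ι : Type*} (T : Set B) (s : Finset ι) (a : ι → KK B Λ)
    (ha : ∀ i ∈ s, a i ∈ RS Λ T) : ∃ P ∈ supported Λ T, P ≠ 0 ∧
      ∃ A : ι → SS B Λ, ∀ i ∈ s, A i ∈ supported Λ T ∧ a i * toK P = toK (A i) := by
  classical
  induction s using Finset.induction_on with
  | empty => exact ⟨1, Subalgebra.one_mem _, one_ne_zero, fun _ => 0, by simp⟩
  | insert j s hj ih =>
    obtain ⟨P, hP, hP0, A, hA⟩ := ih fun i hi => ha i (Finset.mem_insert_of_mem hi)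
    obtain ⟨P', hP', hP0', A', hA', h'⟩ := ha j (Finset.mem_insert_self _ _)
    refine ⟨P * P', Subalgebra.mul_mem _ hP hP', mul_ne_zero hP0 hP0',
      fun i => if i = j then A' * P else A i * P', fun i hi => ?_⟩
    by_cases hij : i = j
    · subst hij
      simp only [if_true]
      refine ⟨Subalgebra.mul_mem _ hA' hP, ?_⟩
      rw [tK_mul, tK_mul, ← h']
      ring
    · simp only [if_neg hij]
      obtain ⟨h1, h2⟩ := hA i ((Finset.mem_insert.1 hi).resolve_left hij)
      refine ⟨Subalgebra.mul_mem _ h1 hP', ?_⟩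
      rw [tK_mul, tK_mul, ← h2]
      ring

theorem coeff_eq_zero_of_supp {T : Set B} {A : SS B Λ} (hA : A ∈ supported Λ T) {n : B →₀ ℕ}
    {b : B} (hb : n b ≠ 0) (hbT : b ∉ T) : coeff n A = 0 := by
  by_contra h
  apply hbT
  have h1 : b ∈ A.vars := by
    rw [mem_vars]
    exact ⟨n, mem_support_iff.2 h, Finsupp.mem_support_iff.2 hb⟩
  exact (mem_supported.1 hA) h1

theorem coeff_mul_supp {T : Set B} {A V : SS B Λ} (hA : A ∈ supported Λ T)
    (hV : V ∈ supported Λ Tᶜ) {n m : B →₀ ℕ} (hn : ∀ b ∉ T, n b = 0) (hm : ∀ b ∈ T, m b = 0) :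
    coeff (n + m) (A * V) = coeff n A * coeff m V := by
  classical
  rw [coeff_mul, Finset.sum_eq_single (n, m)]
  · rintro ⟨x, y⟩ hxy hne
    by_contra h0
    have hx : coeff x A ≠ 0 := fun h => h0 (by simp [h])
    have hy : coeff y V ≠ 0 := fun h => h0 (by simp [h])
    have hx' : ∀ b ∉ T, x b = 0 := fun b hb => by
      by_contra h
      exact hx (coeff_eq_zero_of_supp hA h hb)
    have hy' : ∀ b ∈ T, y b = 0 := fun b hb => by
      by_contra h
      exact hy (coeff_eq_zero_of_supp hV h (by simpa using hb))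
    have hs : x + y = n + m := by simpa using hxy
    apply hne
    have e1 : x = n := by
      ext b
      by_cases hb : b ∈ T
      · have := DFunLike.congr_fun hs b
        simp only [Finsupp.add_apply, hy' b hb, hm b hb, add_zero] at this
        exact this
      · rw [hx' b hb, hn b hb]
    have e2 : y = m := by
      rw [e1] at hs
      exact add_left_cancel hs
    rw [e1, e2]
  · intro h
    exact absurd (by simp) h

/-- linear disjointness -/
theorem lin_disj {ι : Type*} (T : Set B) (s : Finset ι) (a : ι → KK B Λ)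
    (hli : LinearIndependent Λ a) (ha : ∀ i ∈ s, a i ∈ RS Λ T) (v : ι → KK B Λ)
    (hv : ∀ i ∈ s, v i ∈ RS Λ Tᶜ) (h : ∑ i ∈ s, a i * v i = 0) : ∀ i ∈ s, v i = 0 := by
  obtain ⟨P, hP, hP0, A, hA⟩ := common_den T s a ha
  obtain ⟨P', hP', hP0', V, hV⟩ := common_den Tᶜ s v hv
  have h1 : ∑ i ∈ s, A i * V i = 0 := by
    apply tK_inj (B := B) (Λ := Λ)
    rw [toK, toK, map_sum, map_zero]
    have e : ∀ i ∈ s, algebraMap (SS B Λ) (KK B Λ) (A i * V i) =
        (a i * v i) * (toK P * toK P') := by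
      intro i hi
      rw [map_mul]
      have e1 := (hA i hi).2
      have e2 := (hV i hi).2
      simp only [toK] at e1 e2 ⊢
      rw [← e1, ← e2]
      ring
    rw [Finset.sum_congr rfl e, ← Finset.sum_mul, h, zero_mul]
  -- the coefficients
  have h2 : ∀ m : B →₀ ℕ, (∀ b ∈ T, m b = 0) → ∀ i ∈ s, coeff m (V i) = 0 := by
    intro m hm
    have h3 : ∑ i ∈ s, coeff m (V i) • A i = 0 := by
      ext n
      rw [coeff_sum, coeff_zero]
      by_cases hn : ∀ b ∉ T, n b = 0
      · have h4 := congrArg (coeff (n + m)) h1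
        rw [coeff_sum, coeff_zero] at h4
        rw [← h4]
        apply Finset.sum_congr rfl
        intro i hi
        rw [coeff_mul_supp (hA i hi).1 (hV i hi).1 hn hm, coeff_smul, smul_eq_mul, mul_comm]
      · push Not at hn
        obtain ⟨b, hb, hnb⟩ := hn
        apply Finset.sum_eq_zero
        intro i hi
        rw [coeff_smul, coeff_eq_zero_of_supp (hA i hi).1 hnb hb, smul_zero]
    have h5 : ∑ i ∈ s, coeff m (V i) • a i = 0 := by
      have h6 : (∑ i ∈ s, coeff m (V i) • a i) * toK P = 0 := by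
        rw [Finset.sum_mul]
        have e : ∀ i ∈ s, coeff m (V i) • a i * toK P = toK (coeff m (V i) • A i) := by
          intro i hi
          rw [smul_toK, mul_assoc, (hA i hi).2, ← tK_mul, MvPolynomial.smul_eq_C_mul]
        rw [Finset.sum_congr rfl e, ← map_sum, h3, map_zero]
      rcases mul_eq_zero.1 h6 with h7 | h7
      · exact h7
      · exact absurd h7 (tK_ne hP0)
    exact linearIndependent_iff'.1 hli s _ h5
  intro i hi
  have h8 : V i = 0 := by
    ext m
    rw [coeff_zero]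
    by_cases hm : ∀ b ∈ T, m b = 0
    · exact h2 m hm i hi
    · push Not at hm
      obtain ⟨b, hb, hmb⟩ := hm
      exact coeff_eq_zero_of_supp (hV i hi).1 hmb (by simpa using hb)
  have h9 := (hV i hi).2
  rw [h8, show (toK (0 : SS B Λ) : KK B Λ) = 0 from map_zero _] at h9
  rcases mul_eq_zero.1 h9 with h10 | h10
  · exact h10
  · exact absurd h10 (tK_ne hP0')

section

variable {I E : Type*} [Fintype E] [DecidableEq I] [Fintype B] [DecidableEq B]
variable (Q : QD I E B Λ)

theorem WU_maps {U : Finset B} {σ : Equiv.Perm B} (hσ : σ ∈ Q.WU U) {b : B} (hb : b ∈ U) :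
    σ b ∈ U := by
  by_contra h
  have h1 := (Finset.mem_filter.1 hσ).2 (σ b) h
  have h2 := σ.injective h1
  rw [h2] at h
  exact h hb

theorem rename_supp {U : Finset B} {σ : Equiv.Perm B} (hσ : σ ∈ Q.WU U) {A : SS B Λ}
    (hA : A ∈ supported Λ (U : Set B)) : rename σ A ∈ supported Λ (U : Set B) := by
  rw [mem_supported] at hA ⊢
  intro b hb
  have h1 := vars_rename σ A hb
  rw [Finset.mem_image] at h1
  obtain ⟨c, hc, rfl⟩ := h1
  exact WU_maps Q hσ (hA hc)

theorem PT_act {U : Finset B} {σ : Equiv.Perm B} (hσ : σ ∈ Q.WU U) {f : KK B Λ}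
    (hf : PT (U : Set B) f) : PT (U : Set B) (act σ f) := by
  obtain ⟨P, hP, hP0, A, hA, h1⟩ := hf
  refine ⟨rename σ P, rename_supp Q hσ hP, ?_, rename σ A, rename_supp Q hσ hA, ?_⟩
  · intro h0
    exact hP0 (rename_injective σ σ.injective (by rw [h0, map_zero]))
  · rw [← act_toK, ← act_toK, ← map_mul, h1]

theorem sum_act_mem {U : Finset B} {f : KK B Λ} (hf : f ∈ RS Λ (U : Set B)) :
    ∑ σ ∈ Q.WU U, act σ f ∈ RS Λ (U : Set B) :=
  Submodule.sum_mem _ fun _ hσ => PT_act Q hσ hf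

theorem kapN_mem (U : Finset B) (g : B → ℕ) : Q.kapN U g ∈ RS Λ (U : Set B) := by
  unfold QD.kapN
  apply PT_div
  · apply Subalgebra.prod_mem
    intro p hp
    obtain ⟨-, h1, ⟨b, hb, h2⟩, -⟩ := Finset.mem_filter.1 hp
    unfold QD.xi xo
    rw [h2]
    simp only [Option.elim]
    exact Subalgebra.add_mem _ (Subalgebra.sub_mem _ (X_mem_supported.2 (by simpa using hb))
      (X_mem_supported.2 (by simpa using h1))) (C_mem _ _)
  · apply Subalgebra.prod_mem
    intro p hp
    obtain ⟨-, h1, h2, -⟩ := Finset.mem_filter.1 hp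
    exact Subalgebra.sub_mem _ (X_mem_supported.2 (by simpa using h1))
      (X_mem_supported.2 (by simpa using h2))
  · rw [Finset.prod_ne_zero_iff]
    intro p hp
    obtain ⟨-, -, -, h3⟩ := Finset.mem_filter.1 hp
    exact X_sub_X_ne_zero fun e => h3 (by rw [e])

theorem kapF_mem (U : Finset B) (g : B → ℕ) :
    Q.kapF U g ∈ RS Λ (((Uᶜ : Finset B) : Set B)) := by
  unfold QD.kapF
  apply PT_div
  · apply Subalgebra.prod_mem
    intro p hp
    obtain ⟨-, h1, h2, -⟩ := Finset.mem_filter.1 hp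
    unfold QD.xi xo
    refine Subalgebra.add_mem _ (Subalgebra.sub_mem _ ?_
      (X_mem_supported.2 (by simpa using h1))) (C_mem _ _)
    rcases h3 : p.2.2 with _ | c
    · simp only [Option.elim]
      exact Subalgebra.zero_mem _
    · simp only [Option.elim]
      refine X_mem_supported.2 ?_
      have : c ∉ U := fun hc => h2 c hc h3
      simpa using this
  · apply Subalgebra.prod_mem
    intro p hp
    obtain ⟨-, h1, h2, -⟩ := Finset.mem_filter.1 hp
    exact Subalgebra.sub_mem _ (X_mem_supported.2 (by simpa using h1))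
      (X_mem_supported.2 (by simpa using h2))
  · rw [Finset.prod_ne_zero_iff]
    intro p hp
    obtain ⟨-, -, -, h3⟩ := Finset.mem_filter.1 hp
    exact X_sub_X_ne_zero fun e => h3 (by rw [e])

theorem LN_le (U : Finset B) : Q.LN U ≤ RS Λ (U : Set B) := by
  unfold QD.LN
  rw [Submodule.span_le]
  rintro f ⟨g, s, hs, rfl⟩
  exact sum_act_mem Q (PT_mul (PT_toK hs) (kapN_mem Q U g))

theorem RF_le (U : Finset B) : Q.RF U ≤ RS Λ ((Uᶜ : Finset B) : Set B) := by
  unfold QD.RF
  rw [Submodule.span_le]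
  rintro f ⟨r, hr, -, rfl⟩
  exact PT_toK hr

theorem UF_le (U : Finset B) : Q.UF U ≤ RS Λ ((Uᶜ : Finset B) : Set B) := by
  unfold QD.UF
  rw [Submodule.span_le]
  rintro f ⟨g, s, hs, -, rfl⟩
  exact sum_act_mem Q (PT_mul (PT_toK hs) (kapF_mem Q U g))

end

end N2e

variable {I E B Λ : Type*} [Fintype E] [DecidableEq I] [Fintype B] [DecidableEq B] [CommRing Λ]
  [IsDomain Λ]
variable (Q : QD I E B Λ)

open N2e in
/-- (N2e) linear disjointness of functions of `x_U` and of `x_{U^c}` -/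
theorem tensor_indep {ι : Type*} (U : Finset B) (a : ι → KK B Λ) (ha : ∀ i, a i ∈ Q.LN U)
    (hli : LinearIndependent Λ a) (hsp : Q.LN U ≤ Submodule.span Λ (Set.range a)) (s : Finset ι)
    (r : ι → KK B Λ) (hr : ∀ i ∈ s, r i ∈ Q.RF U)
    (h : ∑ i ∈ s, a i * r i ∈ Q.LN U * Q.UF U) : ∀ i ∈ s, r i ∈ Q.UF U := by
  classical
  have key : ∀ f ∈ Q.LN U * Q.UF U, ∃ u : ι →₀ KK B Λ, (∀ i, u i ∈ Q.UF U) ∧
      f = u.sum fun i x => a i * x := by
    intro f hf
    refine Submodule.mul_induction_on hf ?_ ?_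
    · intro m hm n hn
      obtain ⟨l, hl⟩ := Finsupp.mem_span_range_iff_exists_finsupp.1 (hsp hm)
      refine ⟨l.mapRange (fun c => c • n) (zero_smul _ _), fun i => ?_, ?_⟩
      · rw [Finsupp.mapRange_apply]
        exact Submodule.smul_mem _ _ hn
      · rw [Finsupp.sum_mapRange_index (by simp), ← hl, Finsupp.sum, Finsupp.sum, Finset.sum_mul]
        apply Finset.sum_congr rfl
        intro i _
        rw [smul_mul_assoc, mul_smul_comm]
    · rintro x y ⟨u, hu, rfl⟩ ⟨w, hw, rfl⟩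
      refine ⟨u + w, fun i => Submodule.add_mem _ (hu i) (hw i), ?_⟩
      rw [Finsupp.sum_add_index' (by simp) (by intros; ring)]
  obtain ⟨u, hu, h1⟩ := key _ h
  set t := s ∪ u.support with ht
  set v : ι → KK B Λ := fun i => (if i ∈ s then r i else 0) - u i with hv
  have h2 : ∑ i ∈ t, a i * v i = 0 := by
    have e1 : ∑ i ∈ t, a i * (if i ∈ s then r i else 0) = ∑ i ∈ s, a i * r i := by
      rw [← Finset.sum_subset (Finset.subset_union_left : s ⊆ t)]
      · apply Finset.sum_congr rfl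
        intro i hi
        rw [if_pos hi]
      · intro i _ hi
        rw [if_neg hi, mul_zero]
    have e2 : ∑ i ∈ t, a i * u i = u.sum fun i x => a i * x := by
      rw [Finsupp.sum, ← Finset.sum_subset (Finset.subset_union_right : u.support ⊆ t)]
      intro i _ hi
      rw [Finsupp.notMem_support_iff.1 hi, mul_zero]
    simp only [hv, mul_sub]
    rw [Finset.sum_sub_distrib, e1, e2, h1, sub_self]
  have hc : ((U : Set B)ᶜ) = ((Uᶜ : Finset B) : Set B) := by simp
  have h3 := lin_disj (U : Set B) t a hli (fun i _ => LN_le Q U (ha i)) v (fun i _ => by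
    rw [hc]
    refine Submodule.sub_mem _ ?_ (UF_le Q U (hu i))
    by_cases hi : i ∈ s
    · rw [if_pos hi]
      exact RF_le Q U (hr i hi)
    · rw [if_neg hi]
      exact Submodule.zero_mem _) h2
  intro i hi
  have h4 := h3 i (Finset.mem_union_left _ hi)
  simp only [hv, if_pos hi] at h4
  rw [sub_eq_zero.1 h4]
  exact hu i

end Vale.Agent.P291
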