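import Vale.Agent.P291.RCore
import Vale.Agent.P291.H134.Sym

/-!
# P291, regular layer, block R6: representation of dressings by power sums
-/

set_option linter.unusedSectionVars false

open MvPolynomial

namespace Vale.Agent.P291

variable {I E B Λ : Type*} [Fintype E] [DecidableEq I] [Fintype B] [DecidableEq B] [CommRing Λ]
  [IsDomain Λ]
variable (Q : QD I E B Λ)

namespace R6

omit [Fintype B] [DecidableEq B] in
theorem none_mem_vact (σ : Equiv.Perm B) (V : Finset (Option B)) :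
    none ∈ vact σ V ↔ none ∈ V := by
  unfold vact
  rw [Finset.mem_map_equiv]
  rfl

omit [Fintype B] [DecidableEq B] in
theorem some_mem_vact (σ : Equiv.Perm B) (V : Finset (Option B)) (b : B) :
    some b ∈ vact σ V ↔ some (σ⁻¹ b) ∈ V := by
  unfold vact
  rw [Finset.mem_map_equiv]
  rfl

theorem mem_cb {V : Finset (Option B)} {b : B} : b ∈ cb V ↔ some b ∉ V := by
  simp [cb]

theorem cb_vact (σ : Equiv.Perm B) (V : Finset (Option B)) :
    cb (vact σ V) = (cb V).map σ.toEmbedding := by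
  ext b
  rw [mem_cb, some_mem_vact, Finset.mem_map_equiv, mem_cb]
  rfl

theorem rename_pws {σ : Equiv.Perm B} (hσ : ∀ b, Q.vx (σ b) = Q.vx b) (n : ℕ) (i : I)
    (U : Finset B) : rename σ (Q.pws n i U) = Q.pws n i (U.map σ.toEmbedding) := by
  unfold QD.pws
  rw [map_sum, Finset.filter_map, Finset.sum_map]
  refine Finset.sum_congr ?_ fun b _ => by simp
  ext b
  simp [hσ]

theorem map_univ_perm (σ : Equiv.Perm B) :
    (Finset.univ : Finset B).map σ.toEmbedding = Finset.univ := by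
  ext b
  simp

theorem mem_Dec_of {k : ℕ} {r : SS B Λ} (hr : r ∈ Q.R) {F : Fin k → Finset (Option B) → SS B Λ}
    (hF : ∀ j, F j ∈ Q.Eqv) {τ : (Fin k → Finset (Option B)) → SS B Λ}
    (h : ∀ V, τ V = r * ∏ j, F j (V j)) : τ ∈ Q.Dec k :=
  Submodule.subset_span ⟨r, hr, F, hF, funext h⟩

theorem Dec_ind {k : ℕ} {p : ((Fin k → Finset (Option B)) → SS B Λ) → Prop}
    (hgen : ∀ r ∈ Q.R, ∀ F : Fin k → Finset (Option B) → SS B Λ, (∀ j, F j ∈ Q.Eqv) →
      p (fun V => r * ∏ j, F j (V j)))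
    (h0 : p 0) (hadd : ∀ x y, p x → p y → p (x + y)) (hsmul : ∀ (a : Λ) x, p x → p (a • x))
    {τ : (Fin k → Finset (Option B)) → SS B Λ} (hτ : τ ∈ Q.Dec k) : p τ := by
  unfold QD.Dec at hτ
  refine Submodule.span_induction (p := fun τ _ => p τ) ?_ h0 (fun x y _ _ => hadd x y)
    (fun a x _ => hsmul a x) hτ
  rintro _ ⟨r, hr, F, hF, rfl⟩
  exact hgen r hr F hF

theorem Dec_mul_gen {k : ℕ} {g : (Fin k → Finset (Option B)) → SS B Λ}
    (hg : g ∈ Q.Dec k) {r : SS B Λ} (hr : r ∈ Q.R) {F : Fin k → Finset (Option B) → SS B Λ}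
    (hF : ∀ j, F j ∈ Q.Eqv) : (fun V => (r * ∏ j, F j (V j)) * g V) ∈ Q.Dec k := by
  have hgen : ∀ r' ∈ Q.R, ∀ F' : Fin k → Finset (Option B) → SS B Λ, (∀ j, F' j ∈ Q.Eqv) →
      (fun V => (r * ∏ j, F j (V j)) * (r' * ∏ j, F' j (V j))) ∈ Q.Dec k := by
    intro r' hr' F' hF'
    refine mem_Dec_of Q (r := r * r') (Subalgebra.mul_mem _ hr hr')
      (F := fun j => F j * F' j) (fun j => Subalgebra.mul_mem _ (hF j) (hF' j)) fun V => ?_
    simp only [Pi.mul_apply, Finset.prod_mul_distrib]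
    ring
  have h0 : (fun V : Fin k → Finset (Option B) => (r * ∏ j, F j (V j)) * (0 : SS B Λ)) ∈
      Q.Dec k := by
    simp only [mul_zero]
    exact Submodule.zero_mem _
  have hadd : ∀ x y : (Fin k → Finset (Option B)) → SS B Λ,
      (fun V => (r * ∏ j, F j (V j)) * x V) ∈ Q.Dec k →
      (fun V => (r * ∏ j, F j (V j)) * y V) ∈ Q.Dec k →
      (fun V => (r * ∏ j, F j (V j)) * (x V + y V)) ∈ Q.Dec k := by
    intro x y hx hy
    have h := Submodule.add_mem _ hx hy
    have e : (fun V : Fin k → Finset (Option B) => (r * ∏ j, F j (V j)) * (x V + y V)) =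
        (fun V => (r * ∏ j, F j (V j)) * x V) + (fun V => (r * ∏ j, F j (V j)) * y V) := by
      funext V
      simp only [Pi.add_apply]
      ring
    rw [e]
    exact h
  have hsmul : ∀ (a : Λ) (x : (Fin k → Finset (Option B)) → SS B Λ),
      (fun V => (r * ∏ j, F j (V j)) * x V) ∈ Q.Dec k →
      (fun V => (r * ∏ j, F j (V j)) * (a • x V)) ∈ Q.Dec k := by
    intro a x hx
    have h := Submodule.smul_mem _ a hx
    have e : (fun V : Fin k → Finset (Option B) => (r * ∏ j, F j (V j)) * (a • x V)) =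
        a • (fun V => (r * ∏ j, F j (V j)) * x V) := by
      funext V
      simp only [Pi.smul_apply, mul_smul_comm]
    rw [e]
    exact h
  exact Dec_ind Q (τ := g) (p := fun g' => (fun V => (r * ∏ j, F j (V j)) * g' V) ∈ Q.Dec k)
    hgen h0 hadd hsmul hg

/-- `Dec` is closed under products -/
theorem Dec_mul {k : ℕ} {f g : (Fin k → Finset (Option B)) → SS B Λ} (hf : f ∈ Q.Dec k)
    (hg : g ∈ Q.Dec k) : (fun V => f V * g V) ∈ Q.Dec k := by
  have hgen : ∀ r ∈ Q.R, ∀ F : Fin k → Finset (Option B) → SS B Λ, (∀ j, F j ∈ Q.Eqv) →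
      (fun V => (r * ∏ j, F j (V j)) * g V) ∈ Q.Dec k := fun r hr F hF =>
    Dec_mul_gen Q hg hr hF
  have h0 : (fun V : Fin k → Finset (Option B) => (0 : SS B Λ) * g V) ∈ Q.Dec k := by
    simp only [zero_mul]
    exact Submodule.zero_mem _
  have hadd : ∀ x y : (Fin k → Finset (Option B)) → SS B Λ,
      (fun V => x V * g V) ∈ Q.Dec k → (fun V => y V * g V) ∈ Q.Dec k →
      (fun V => (x V + y V) * g V) ∈ Q.Dec k := by
    intro x y hx hy
    have h := Submodule.add_mem _ hx hy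
    have e : (fun V : Fin k → Finset (Option B) => (x V + y V) * g V) =
        (fun V => x V * g V) + (fun V => y V * g V) := by
      funext V
      simp only [Pi.add_apply]
      ring
    rw [e]
    exact h
  have hsmul : ∀ (a : Λ) (x : (Fin k → Finset (Option B)) → SS B Λ),
      (fun V => x V * g V) ∈ Q.Dec k → (fun V => (a • x V) * g V) ∈ Q.Dec k := by
    intro a x hx
    have h := Submodule.smul_mem _ a hx
    have e : (fun V : Fin k → Finset (Option B) => (a • x V) * g V) =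
        a • (fun V => x V * g V) := by
      funext V
      simp only [Pi.smul_apply, smul_mul_assoc]
    rw [e]
    exact h
  exact Dec_ind Q (τ := f) (p := fun f' => (fun V => f' V * g V) ∈ Q.Dec k)
    hgen h0 hadd hsmul hf

theorem Dec_one {k : ℕ} : (1 : (Fin k → Finset (Option B)) → SS B Λ) ∈ Q.Dec k := by
  refine mem_Dec_of Q (Subalgebra.one_mem _) (F := fun _ => 1)
    (fun j => Subalgebra.one_mem _) fun V => ?_
  simp

theorem pws_univ_mem_R (n : ℕ) (i : I) : Q.pws n i Finset.univ ∈ Q.R := by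
  intro σ hσ
  rw [rename_pws Q hσ, map_univ_perm]

theorem pws_cb_mem_Eqv (n : ℕ) (i : I) : (fun V => Q.pws n i (cb V)) ∈ Q.Eqv := by
  intro σ hσ V
  simp only
  rw [rename_pws Q hσ, cb_vact]

theorem pwv_mem_Dec {k : ℕ} (p : Option (Fin k) × ℕ × I) :
    (fun V => Q.pwv V p) ∈ Q.Dec k := by
  classical
  obtain ⟨o, n, i⟩ := p
  cases o with
  | none =>
    refine Submodule.subset_span ⟨Q.pws n i Finset.univ, pws_univ_mem_R Q n i, fun _ => 1,
      fun j => Subalgebra.one_mem _, ?_⟩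
    funext V
    simp [QD.pwv]
  | some j =>
    refine Submodule.subset_span ⟨1, Subalgebra.one_mem _,
      Function.update (fun _ => 1) j (fun V => Q.pws n i (cb V)), fun j' => ?_, ?_⟩
    · by_cases h : j' = j
      · subst h
        rw [Function.update_self]
        exact pws_cb_mem_Eqv Q n i
      · rw [Function.update_of_ne h]
        exact Subalgebra.one_mem _
    · funext V
      rw [one_mul, Finset.prod_eq_single j]
      · rw [Function.update_self]
        simp [QD.pwv]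
      · intro j' _ h
        rw [Function.update_of_ne h]
        rfl
      · intro h
        exact absurd (Finset.mem_univ j) h

theorem DA_le_Dec {k : ℕ} {f : (Fin k → Finset (Option B)) → SS B Λ} (hf : f ∈ Q.DA k) :
    f ∈ Q.Dec k := by
  unfold QD.DA at hf
  refine Algebra.adjoin_induction ?_ ?_ ?_ ?_ hf
  · rintro _ ⟨p, rfl⟩
    exact pwv_mem_Dec Q p
  · intro r
    have : algebraMap Λ ((Fin k → Finset (Option B)) → SS B Λ) r = r • 1 := by
      rw [Algebra.algebraMap_eq_smul_one]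
    rw [this]
    exact Submodule.smul_mem _ _ (Dec_one Q)
  · intro x y _ _ hx hy
    exact Submodule.add_mem _ hx hy
  · intro x y _ _ hx hy
    exact Dec_mul Q hx hy

theorem db_map {σ : Equiv.Perm B} (hσ : ∀ b, Q.vx (σ b) = Q.vx b) (U : Finset B) :
    Q.db (U.map σ.toEmbedding) = Q.db U := by
  funext i
  unfold QD.db
  rw [Finset.filter_map, Finset.card_map]
  congr 1
  ext b
  simp [hσ]

theorem ind_mem_Eqv (ty : Prop) (d : I → ℕ) :
    (fun V : Finset (Option B) =>
      open scoped Classical in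
      if (none ∈ V ↔ ty) ∧ Q.db (cb V) = d then (1 : SS B Λ) else 0) ∈ Q.Eqv := by
  classical
  intro σ hσ V
  simp only
  have h1 : ((none ∈ vact σ V ↔ ty) ∧ Q.db (cb (vact σ V)) = d) ↔
      ((none ∈ V ↔ ty) ∧ Q.db (cb V) = d) := by
    rw [none_mem_vact, cb_vact, db_map Q hσ]
  by_cases h : (none ∈ V ↔ ty) ∧ Q.db (cb V) = d
  · rw [if_pos h, if_pos (h1.mpr h), map_one]
  · rw [if_neg h, if_neg (fun h' => h (h1.mp h')), map_zero]

end R6

/-- polynomials in the power sums, cut down to given types and dimensions, are decomposable -/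
theorem dec_of_DA {k : ℕ} (ty : Fin k → Prop) (d : Fin k → I → ℕ)
    {f : (Fin k → Finset (Option B)) → SS B Λ} (hf : f ∈ Q.DA k) :
    (fun V : Fin k → Finset (Option B) =>
      open scoped Classical in
      if ∀ j, (none ∈ V j ↔ ty j) ∧ Q.db (cb (V j)) = d j then f V else 0) ∈ Q.Dec k := by
  classical
  have h1 := R6.DA_le_Dec Q hf
  have h2 : (fun V : Fin k → Finset (Option B) => ∏ j, (fun V : Finset (Option B) =>
      if (none ∈ V ↔ ty j) ∧ Q.db (cb V) = d j then (1 : SS B Λ) else 0) (V j)) ∈ Q.Dec k := by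
    refine Submodule.subset_span ⟨1, Subalgebra.one_mem _, fun j V =>
      if (none ∈ V ↔ ty j) ∧ Q.db (cb V) = d j then (1 : SS B Λ) else 0, fun j => ?_, ?_⟩
    · convert R6.ind_mem_Eqv Q (ty j) (d j)
    · funext V
      rw [one_mul]
  have h3 := R6.Dec_mul Q h1 h2
  convert h3 using 1
  funext V
  by_cases h : ∀ j, (none ∈ V j ↔ ty j) ∧ Q.db (cb (V j)) = d j
  · rw [if_pos h, Finset.prod_congr rfl (fun j _ => if_pos (h j)), Finset.prod_const_one, mul_one]
  · rw [if_neg h]
    push Not at h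
    obtain ⟨j, hj⟩ := h
    rw [Finset.prod_eq_zero (Finset.mem_univ j), mul_zero]
    refine if_neg ?_
    rintro ⟨a, b⟩
    exact hj a b

namespace R6

/-- an element of an adjoin of a family is a polynomial in the family -/
theorem exists_aeval {S ι : Type*} [CommRing S] [Algebra Λ S] (g : ι → S) {x : S}
    {G : Set S} (hG : ∀ y ∈ G, ∃ p : MvPolynomial ι Λ, y = aeval g p)
    (hx : x ∈ Algebra.adjoin Λ G) : ∃ p : MvPolynomial ι Λ, x = aeval g p := by
  have h1 : Algebra.adjoin Λ G ≤ (aeval g : MvPolynomial ι Λ →ₐ[Λ] S).range := by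
    rw [Algebra.adjoin_le_iff]
    intro y hy
    obtain ⟨p, rfl⟩ := hG y hy
    exact ⟨p, rfl⟩
  obtain ⟨p, hp⟩ := h1 hx
  exact ⟨p, hp.symm⟩

/-- invariants of the Weyl group are polynomials in the power sums of all the boxes -/
theorem exists_R [Algebra ℚ Λ] {r : SS B Λ} (hr : r ∈ Q.R) :
    ∃ p : MvPolynomial (ℕ × I) Λ, r = aeval (fun m : ℕ × I => Q.pws m.1 m.2 Finset.univ) p := by
  have h1 : r ∈ H134.Inv Λ Q.vx := fun σ hσ => hr σ hσ
  refine exists_aeval _ ?_ (H134.mem_adjoin_pw h1)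
  rintro _ ⟨b, n, rfl⟩
  refine ⟨X (n + 1, Q.vx b), ?_⟩
  rw [aeval_X]
  rfl

/-- the value of an equivariant dressing at `V` is a polynomial in the power sums of all the boxes
and of the boxes outside `V` -/
theorem exists_Eqv [Algebra ℚ Λ] {F : Finset (Option B) → SS B Λ} (hF : F ∈ Q.Eqv)
    (V0 : Finset (Option B)) :
    ∃ p : MvPolynomial (Bool × ℕ × I) Λ, F V0 = aeval (fun m : Bool × ℕ × I =>
      Q.pws m.2.1 m.2.2 (if m.1 then cb V0 else Finset.univ)) p := by
  classical
  set c : B → I × Bool := fun b => (Q.vx b, decide (some b ∈ V0)) with hc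
  have h1 : F V0 ∈ H134.Inv Λ c := by
    intro σ hσ
    have h2 : ∀ b, Q.vx (σ b) = Q.vx b := fun b => congrArg Prod.fst (hσ b)
    have h3 : ∀ b, (some (σ b) ∈ V0 ↔ some b ∈ V0) := fun b => by
      have := congrArg Prod.snd (hσ b)
      simpa [hc] using this
    have h4 : vact σ V0 = V0 := by
      ext o
      cases o with
      | none => rw [none_mem_vact]
      | some b =>
        rw [some_mem_vact, ← h3 (σ⁻¹ b)]
        simp
    have h5 := hF σ h2 V0
    rw [h4] at h5
    exact h5.symm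
  refine exists_aeval _ ?_ (H134.mem_adjoin_pw h1)
  rintro _ ⟨b, n, rfl⟩
  by_cases hb : some b ∈ V0
  · refine ⟨X (false, n + 1, Q.vx b) - X (true, n + 1, Q.vx b), ?_⟩
    rw [map_sub, aeval_X, aeval_X]
    simp only [H134.pw, QD.pws, Bool.false_eq_true, if_false, if_true]
    rw [eq_sub_iff_add_eq, ← Finset.sum_union]
    · refine Finset.sum_congr ?_ fun _ _ => rfl
      ext b'
      simp only [hc, Finset.mem_union, Finset.mem_filter, Finset.mem_univ, true_and, Prod.mk.injEq,
        mem_cb, hb, decide_true, decide_eq_true_eq]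
      tauto
    · rw [Finset.disjoint_left]
      intro b' h1 h2
      simp only [hc, Finset.mem_filter, Finset.mem_univ, true_and, Prod.mk.injEq,
        mem_cb, hb, decide_true, decide_eq_true_eq] at h1 h2
      exact h2.1 h1.2
  · refine ⟨X (true, n + 1, Q.vx b), ?_⟩
    rw [aeval_X]
    simp only [H134.pw, QD.pws, if_true]
    refine Finset.sum_congr ?_ fun _ _ => rfl
    ext b'
    simp only [hc, Finset.mem_filter, Finset.mem_univ, true_and, Prod.mk.injEq,
      mem_cb, hb, decide_false, decide_eq_false_iff_not]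
    tauto

theorem map_aeval_eq {ι : Type*} (σ : Equiv.Perm B) (p : MvPolynomial ι Λ) (g : ι → SS B Λ) :
    rename σ (aeval g p) = aeval (fun m => rename σ (g m)) p := by
  rw [← AlgHom.comp_apply, comp_aeval]

theorem rep_factor [Algebra ℚ Λ] {k : ℕ} {F : Finset (Option B) → SS B Λ} (hF : F ∈ Q.Eqv)
    (V0 : Finset (Option B)) (j : Fin k) :
    ∃ q : MvPolynomial (Option (Fin k) × ℕ × I) Λ, ∀ V : Fin k → Finset (Option B),
      Q.orb V0 (V j) → F (V j) = aeval (Q.pwv V) q := by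
  obtain ⟨p, hp⟩ := exists_Eqv Q hF V0
  refine ⟨rename (fun m : Bool × ℕ × I => (if m.1 then some j else none, m.2)) p,
    fun V hV => ?_⟩
  obtain ⟨σ, hσ, hσV⟩ := hV
  have h1 : F (V j) = rename σ (F V0) := by rw [← hσV, hF σ hσ]
  rw [h1, hp, aeval_rename]
  have h2 : rename σ (aeval (fun m : Bool × ℕ × I =>
      Q.pws m.2.1 m.2.2 (if m.1 then cb V0 else Finset.univ)) p) =
      aeval (fun m : Bool × ℕ × I => rename σ
        (Q.pws m.2.1 m.2.2 (if m.1 then cb V0 else Finset.univ))) p :=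
    map_aeval_eq σ p _
  rw [h2]
  congr 2
  funext m
  obtain ⟨t, n, i⟩ := m
  cases t with
  | false =>
    simp only [Bool.false_eq_true, if_false, Function.comp_apply, QD.pwv, Option.elim]
    rw [rename_pws Q hσ, map_univ_perm]
  | true =>
    simp only [if_true, Function.comp_apply, QD.pwv, Option.elim]
    rw [rename_pws Q hσ, ← cb_vact, hσV]

theorem rep_gen [Algebra ℚ Λ] {k : ℕ} {r : SS B Λ} (hr : r ∈ Q.R)
    {F : Fin k → Finset (Option B) → SS B Λ} (hF : ∀ j, F j ∈ Q.Eqv)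
    (V0 : Fin k → Finset (Option B)) :
    ∃ q : MvPolynomial (Option (Fin k) × ℕ × I) Λ, ∀ V : Fin k → Finset (Option B),
      (∀ j, Q.orb (V0 j) (V j)) → r * ∏ j, F j (V j) = aeval (Q.pwv V) q := by
  obtain ⟨pr, hpr⟩ := exists_R Q hr
  choose p hp using fun j => rep_factor Q (hF j) (V0 j) j
  refine ⟨rename (fun m : ℕ × I => (none, m)) pr * ∏ j, p j, ?_⟩
  intro V hV
  have h1 : r = aeval (Q.pwv V) (rename (fun m : ℕ × I =>
      ((none : Option (Fin k)), m)) pr) := by
    rw [aeval_rename]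
    exact hpr
  have h2 : ∏ j, F j (V j) = ∏ j, aeval (Q.pwv V) (p j) :=
    Finset.prod_congr rfl fun j _ => hp j V (hV j)
  rw [map_mul, map_prod, ← h1, h2]

end R6

theorem rep [Algebra ℚ Λ] {k : ℕ} {τ : (Fin k → Finset (Option B)) → SS B Λ} (hτ : τ ∈ Q.Dec k)
    (V0 : Fin k → Finset (Option B)) :
    ∃ q : MvPolynomial (Option (Fin k) × ℕ × I) Λ, ∀ V, (∀ j, Q.orb (V0 j) (V j)) →
      τ V = aeval (Q.pwv V) q := by
  have h0 : ∃ q : MvPolynomial (Option (Fin k) × ℕ × I) Λ,
      ∀ V : Fin k → Finset (Option B), (∀ j, Q.orb (V0 j) (V j)) →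
        (0 : SS B Λ) = aeval (Q.pwv V) q := ⟨0, fun V _ => (map_zero _).symm⟩
  have hadd : ∀ x y : (Fin k → Finset (Option B)) → SS B Λ,
      (∃ q : MvPolynomial (Option (Fin k) × ℕ × I) Λ,
        ∀ V, (∀ j, Q.orb (V0 j) (V j)) → x V = aeval (Q.pwv V) q) →
      (∃ q : MvPolynomial (Option (Fin k) × ℕ × I) Λ,
        ∀ V, (∀ j, Q.orb (V0 j) (V j)) → y V = aeval (Q.pwv V) q) →
      ∃ q : MvPolynomial (Option (Fin k) × ℕ × I) Λ,
        ∀ V, (∀ j, Q.orb (V0 j) (V j)) → x V + y V = aeval (Q.pwv V) q := by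
    rintro x y ⟨q, hq⟩ ⟨q', hq'⟩
    exact ⟨q + q', fun V hV => by rw [map_add, ← hq V hV, ← hq' V hV]⟩
  have hsmul : ∀ (a : Λ) (x : (Fin k → Finset (Option B)) → SS B Λ),
      (∃ q : MvPolynomial (Option (Fin k) × ℕ × I) Λ,
        ∀ V, (∀ j, Q.orb (V0 j) (V j)) → x V = aeval (Q.pwv V) q) →
      ∃ q : MvPolynomial (Option (Fin k) × ℕ × I) Λ,
        ∀ V, (∀ j, Q.orb (V0 j) (V j)) → a • x V = aeval (Q.pwv V) q := by
    rintro a x ⟨q, hq⟩
    exact ⟨a • q, fun V hV => by rw [map_smul, ← hq V hV]⟩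
  exact R6.Dec_ind Q (τ := τ) (p := fun τ => ∃ q : MvPolynomial (Option (Fin k) × ℕ × I) Λ,
    ∀ V, (∀ j, Q.orb (V0 j) (V j)) → τ V = aeval (Q.pwv V) q)
    (fun r hr F hF => R6.rep_gen Q hr hF V0) h0 hadd hsmul hτ

end Vale.Agent.P291
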