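import Vale.Agent.P291.RCore
import Vale.Agent.P291.QBlk

/-!
# P291 block R7a: the excess factor
-/

set_option linter.unusedSectionVars false

open MvPolynomial

namespace Vale.Agent.P291

variable {I E B Λ : Type*} [Fintype E] [DecidableEq I] [Fintype B] [DecidableEq B] [CommRing Λ]
  [IsDomain Λ]
variable (Q : QD I E B Λ)

namespace R7a

theorem ext_sum {B : Type*} {k : ℕ} (l : Fin k → B → ℤ) (o : Option B) :
    ext (∑ j, l j) o = ∑ j, ext (l j) o := by
  cases o with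
  | none => simp [ext]
  | some b => simp [ext, Finset.sum_apply]

theorem toNat_sum_le {k : ℕ} (c : Fin k → ℤ) : (∑ j, c j).toNat ≤ ∑ j, (c j).toNat := by
  have h : (∑ j, c j) ≤ ((∑ j, (c j).toNat : ℕ) : ℤ) := by
    push_cast
    exact Finset.sum_le_sum fun j _ => Int.self_le_toNat (c j)
  exact Int.toNat_le.2 h

theorem kx_self {k : ℕ} (V : Fin k → Finset (Option B)) (r : Option B) : QD.kx V r r = 0 := by
  simp [QD.kx]

end R7a

theorem kx_spec {k : ℕ} (V : Fin k → Finset (Option B)) (r s : Option B) :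
    (ext (∑ j, lamV (V j)) r - ext (∑ j, lamV (V j)) s).toNat + QD.kx V r s =
      ∑ j, (ext (lamV (V j)) r - ext (lamV (V j)) s).toNat := by
  unfold QD.kx
  refine Nat.add_sub_cancel' ?_
  rw [R7a.ext_sum, R7a.ext_sum, ← Finset.sum_sub_distrib]
  exact R7a.toNat_sum_le _

namespace R7a

theorem KD_ne_zero {k : ℕ} (V : Fin k → Finset (Option B)) : Q.KD V ≠ 0 := by
  unfold QD.KD
  rw [Finset.prod_ne_zero_iff]
  intro p _
  by_cases h : p.1 = p.2
  · rw [h, kx_self, pow_zero]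
    exact one_ne_zero
  · exact pow_ne_zero _ (X_sub_X_ne_zero h)

theorem prod_rho {k : ℕ} (V : Fin k → Finset (Option B)) :
    ∏ j, Q.rho (lamV (V j)) = Q.rho (∑ j, lamV (V j)) * Q.KN V := by
  unfold QD.rho QD.KN
  rw [Finset.prod_comm, ← Finset.prod_mul_distrib]
  refine Finset.prod_congr rfl fun p _ => ?_
  rw [Finset.prod_pow_eq_pow_sum, ← pow_add]
  congr 1
  exact (kx_spec V (some p.2.1) p.2.2).symm

theorem prod_den {k : ℕ} (V : Fin k → Finset (Option B)) :
    (∏ j, (QD.den Q (lamV (V j)) : SS B Λ)) = Q.den (∑ j, lamV (V j)) * Q.KD V := by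
  unfold QD.den QD.KD
  rw [Finset.prod_comm, ← Finset.prod_mul_distrib]
  refine Finset.prod_congr rfl fun p _ => ?_
  rw [Finset.prod_pow_eq_pow_sum, ← pow_add]
  congr 1
  exact (kx_spec V (some p.1) (some p.2)).symm

end R7a

theorem prod_e_excess {k : ℕ} (V : Fin k → Finset (Option B)) :
    (∏ j, Q.e (lamV (V j))) * toK (Q.KD V) = Q.e (∑ j, lamV (V j)) * toK (Q.KN V) := by
  have h1 : toK (Q.KD V) ≠ 0 := toK_ne_zero (R7a.KD_ne_zero Q V)
  have h2 : toK (Q.den (∑ j, lamV (V j))) ≠ 0 := toK_ne_zero (den_ne_zero Q _)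
  have h3 : (∏ j, Q.e (lamV (V j))) =
      toK (Q.rho (∑ j, lamV (V j)) * Q.KN V) / toK (Q.den (∑ j, lamV (V j)) * Q.KD V) := by
    unfold QD.e
    rw [Finset.prod_div_distrib, ← R7a.prod_rho, ← R7a.prod_den]
    unfold toK
    rw [map_prod, map_prod]
  rw [h3]
  unfold QD.e
  have e1 : toK (Q.rho (∑ j, lamV (V j)) * Q.KN V) =
      toK (Q.rho (∑ j, lamV (V j))) * toK (Q.KN V) := map_mul _ _ _
  have e2 : toK (Q.den (∑ j, lamV (V j)) * Q.KD V) =
      toK (Q.den (∑ j, lamV (V j))) * toK (Q.KD V) := map_mul _ _ _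
  rw [e1, e2]
  field_simp

end Vale.Agent.P291
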