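import Vale.Agent.P291.Core2
import Vale.Agent.P291.C1Blk

/-!
# P291, block I2: the relative kernel operator
-/

set_option linter.unusedSectionVars false

open MvPolynomial

namespace Vale.Agent.P291

namespace I2

section basic

variable {I E B Λ : Type*} [DecidableEq I] [Fintype B] [DecidableEq B] [CommRing Λ] [IsDomain Λ]

theorem mem_vact (σ : Equiv.Perm B) (V : Finset (Option B)) (o : Option B) :
    o ∈ vact σ V ↔ (Equiv.optionCongr σ).symm o ∈ V := by
  simp [vact, Finset.mem_map_equiv]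

theorem oc_mem_vact (σ : Equiv.Perm B) (V : Finset (Option B)) (o : Option B) :
    Equiv.optionCongr σ o ∈ vact σ V ↔ o ∈ V := by
  rw [mem_vact, Equiv.symm_apply_apply]

theorem vact_sdiff (σ : Equiv.Perm B) (V V' : Finset (Option B)) :
    vact σ (V' \ V) = vact σ V' \ vact σ V := by
  ext o; simp [mem_vact]

theorem vact_subset (σ : Equiv.Perm B) {V V' : Finset (Option B)} :
    vact σ V ⊆ vact σ V' ↔ V ⊆ V' := by
  simp [vact]

theorem vact_mul (σ τ : Equiv.Perm B) (V : Finset (Option B)) :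
    vact σ (vact τ V) = vact (σ * τ) V := by
  simp only [vact, Finset.map_map]
  congr 1
  ext o
  cases o <;> simp

theorem vact_one (V : Finset (Option B)) : vact 1 V = V := by
  ext o
  rw [mem_vact]
  cases o with
  | none => rw [show (Equiv.optionCongr (1 : Equiv.Perm B)).symm none = none from rfl]
  | some b => rw [show (Equiv.optionCongr (1 : Equiv.Perm B)).symm (some b) = some b from rfl]

theorem vact_inv (σ : Equiv.Perm B) (V : Finset (Option B)) : vact σ⁻¹ (vact σ V) = V := by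
  rw [vact_mul, inv_mul_cancel, vact_one]

theorem vact_inv' (σ : Equiv.Perm B) (V : Finset (Option B)) : vact σ (vact σ⁻¹ V) = V := by
  rw [vact_mul, mul_inv_cancel, vact_one]

theorem rename_xo (σ : Equiv.Perm B) (o : Option B) :
    rename σ (xo Λ o) = xo Λ (Equiv.optionCongr σ o) := by
  cases o <;> simp [xo]

theorem act_toK (σ : Equiv.Perm B) (f : SS B Λ) : act σ (toK f) = toK (rename σ f) := by
  simp [act, toK]

theorem toK_inj {f g : SS B Λ} (h : toK f = toK g) : f = g :=
  IsFractionRing.injective (SS B Λ) (KK B Λ) h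

theorem toK_ne_zero {f : SS B Λ} (h : f ≠ 0) : toK f ≠ 0 := fun h' =>
  h (toK_inj (by rw [h']; simp [toK]))

end basic

section equiv

variable {I E B Λ : Type*} [Fintype E] [DecidableEq I] [Fintype B] [DecidableEq B] [CommRing Λ]
  [IsDomain Λ]
variable (Q : QD I E B Λ)

theorem vo_oc {σ : Equiv.Perm B} (hσ : σ ∈ Q.W) (o : Option B) :
    Q.vo (Equiv.optionCongr σ o) = Q.vo o := by
  cases o with
  | none => simp [QD.vo]
  | some b =>
    have : Q.vx (σ b) = Q.vx b := hσ b
    simp [QD.vo, this]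

theorem filter_vact {σ : Equiv.Perm B} (hσ : σ ∈ Q.W) (V : Finset (Option B)) (i : Option I) :
    (vact σ V).filter (fun o => Q.vo o = i) = vact σ (V.filter fun o => Q.vo o = i) := by
  ext o
  obtain ⟨o', rfl⟩ := (Equiv.optionCongr σ).surjective o
  rw [Finset.mem_filter, oc_mem_vact, oc_mem_vact, vo_oc Q hσ, Finset.mem_filter]

theorem dm_vact {σ : Equiv.Perm B} (hσ : σ ∈ Q.W) (V : Finset (Option B)) :
    Q.dm (vact σ V) = Q.dm V := by
  funext i
  rw [QD.dm, QD.dm, filter_vact Q hσ, vact, Finset.card_map]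

/-- equal dimension vectors and inclusion give equality -/
theorem eq_of_dm {V V' : Finset (Option B)} (h : V ⊆ V') (hd : Q.dm V = Q.dm V') : V = V' := by
  refine Finset.Subset.antisymm h fun o ho => ?_
  have h1 : V.filter (fun x => Q.vo x = Q.vo o) ⊆ V'.filter (fun x => Q.vo x = Q.vo o) :=
    Finset.filter_subset_filter _ h
  have h2 := Finset.eq_of_subset_of_card_le h1 (le_of_eq (congrFun hd (Q.vo o)).symm)
  have h3 : o ∈ V'.filter (fun x => Q.vo x = Q.vo o) := by simp [ho]
  rw [← h2] at h3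
  exact (Finset.mem_filter.1 h3).1

/-- distinct subsets with the same dimension vector: a box of the first not in the second -/
theorem exists_diff {V V' : Finset (Option B)} (hd : Q.dm V = Q.dm V') (h : V ≠ V') :
    ∃ o ∈ V, o ∉ V' := by
  by_contra hc
  push Not at hc
  exact h (eq_of_dm Q hc hd)

/-- coefficients of `∏ (x_r - y)` over the extended boxes of `V` at the vertex `i` -/
noncomputable def aco (V : Finset (Option B)) (i : Option I) : Polynomial (SS B Λ) :=
  ∏ r ∈ V.filter (fun o => Q.vo o = i), (Polynomial.C (xo Λ r) - Polynomial.X)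

theorem aco_vact {σ : Equiv.Perm B} (hσ : σ ∈ Q.W) (V : Finset (Option B)) (i : Option I) :
    aco Q (vact σ V) i = (aco Q V i).map ((rename σ : SS B Λ →ₐ[Λ] SS B Λ) : SS B Λ →+* SS B Λ) := by
  rw [aco, aco, filter_vact Q hσ, vact, Finset.prod_map, Polynomial.map_prod]
  refine Finset.prod_congr rfl fun r _ => ?_
  rw [Polynomial.map_sub, Polynomial.map_C, Polynomial.map_X]
  congr 2
  exact (rename_xo σ r).symm

theorem natDegree_aco (V : Finset (Option B)) (i : Option I) :
    (aco Q V i).natDegree ≤ Fintype.card (Option B) := by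
  refine (Polynomial.natDegree_prod_le _ _).trans ?_
  refine (Finset.sum_le_card_nsmul _ _ 1 fun r _ => ?_).trans ?_
  · refine (Polynomial.natDegree_sub_le _ _).trans ?_
    simp
  · rw [smul_eq_mul, mul_one]
    exact (Finset.card_le_univ _)

/-- generating polynomial of the kernel -/
noncomputable def Kp (U : Finset (Option B)) : MvPolynomial (Option I × ℕ) (SS B Λ) :=
  ∏ s ∈ U, ∑ k ∈ Finset.range (Fintype.card (Option B) + 1), C (xo Λ s ^ k) * X (Q.vo s, k)

theorem Kp_vact {σ : Equiv.Perm B} (hσ : σ ∈ Q.W) (U : Finset (Option B)) :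
    Kp Q (vact σ U) = MvPolynomial.map ((rename σ : SS B Λ →ₐ[Λ] SS B Λ) : SS B Λ →+* SS B Λ)
      (Kp Q U) := by
  rw [Kp, Kp, vact, Finset.prod_map, map_prod]
  refine Finset.prod_congr rfl fun r _ => ?_
  rw [map_sum]
  refine Finset.sum_congr rfl fun k _ => ?_
  rw [map_mul, MvPolynomial.map_C, MvPolynomial.map_X]
  congr 2
  · rw [map_pow]
    congr 2
    exact (rename_xo σ r).symm
  · congr 1
    exact vo_oc Q hσ r

theorem eval_Kp (V U : Finset (Option B)) :
    MvPolynomial.eval (fun p : Option I × ℕ => (aco Q V p.1).coeff p.2) (Kp Q U) =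
      ∏ s ∈ U, ∏ r ∈ V.filter (fun o => Q.vo o = Q.vo s), (xo Λ r - xo Λ s) := by
  rw [Kp, map_prod]
  refine Finset.prod_congr rfl fun s _ => ?_
  rw [map_sum]
  have h : (aco Q V (Q.vo s)).eval (xo Λ s) =
      ∏ r ∈ V.filter (fun o => Q.vo o = Q.vo s), (xo Λ r - xo Λ s) := by
    rw [aco, Polynomial.eval_prod]
    simp
  rw [← h, Polynomial.eval_eq_sum_range' (Nat.lt_succ_of_le (natDegree_aco Q V (Q.vo s)))]
  refine Finset.sum_congr rfl fun k _ => ?_
  simp only [map_mul, eval_C, eval_X]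
  ring

/-- the denominator -/
noncomputable def Pd (V V' : Finset (Option B)) : SS B Λ :=
  ∏ s ∈ V' \ V, ∏ r ∈ V.filter (fun o => Q.vo o = Q.vo s), (xo Λ r - xo Λ s)

theorem xo_sub_ne_zero {r s : Option B} (h : r ≠ s) (hv : Q.vo r = Q.vo s) :
    (xo Λ r - xo Λ s : SS B Λ) ≠ 0 := by
  cases r with
  | none => cases s with
    | none => exact absurd rfl h
    | some b => simp [QD.vo] at hv
  | some a => cases s with
    | none => simp [QD.vo] at hv
    | some b =>
      intro h0
      rw [sub_eq_zero] at h0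
      exact h (congrArg some (MvPolynomial.X_injective h0))

theorem Pd_ne_zero (V V' : Finset (Option B)) : (Pd Q V V' : SS B Λ) ≠ 0 := by
  rw [Pd, Finset.prod_ne_zero_iff]
  intro s hs
  rw [Finset.prod_ne_zero_iff]
  intro r hr
  rw [Finset.mem_filter] at hr
  rw [Finset.mem_sdiff] at hs
  refine xo_sub_ne_zero Q (fun h => hs.2 (h ▸ hr.1)) hr.2

theorem Pd_vact {σ : Equiv.Perm B} (hσ : σ ∈ Q.W) (V V' : Finset (Option B)) :
    (Pd Q (vact σ V) (vact σ V') : SS B Λ) = rename σ (Pd Q V V') := by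
  rw [Pd, Pd, ← vact_sdiff, vact, Finset.prod_map, map_prod]
  refine Finset.prod_congr rfl fun s _ => ?_
  have hs : Q.vo ((Equiv.optionCongr σ).toEmbedding s) = Q.vo s := vo_oc Q hσ s
  simp only [hs]
  rw [filter_vact Q hσ, vact, Finset.prod_map, map_prod]
  refine Finset.prod_congr rfl fun r _ => ?_
  rw [map_sub, rename_xo, rename_xo]
  rfl

/-- the kernel identity -/
theorem kernel_zero {V V'' V' : Finset (Option B)} (hV : V ⊆ V') (hd : Q.dm V = Q.dm V'')
    (hne : V ≠ V'') :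
    MvPolynomial.eval (fun p : Option I × ℕ => (aco Q V p.1).coeff p.2)
      (Kp Q (V' \ V'') : MvPolynomial (Option I × ℕ) (SS B Λ)) = 0 := by
  obtain ⟨o, ho, ho'⟩ := exists_diff Q hd hne
  rw [eval_Kp]
  refine Finset.prod_eq_zero (i := o) (Finset.mem_sdiff.2 ⟨hV ho, ho'⟩) ?_
  exact Finset.prod_eq_zero (i := o) (by simp [ho]) (sub_self _)

theorem kernel_self (V V' : Finset (Option B)) :
    MvPolynomial.eval (fun p : Option I × ℕ => (aco Q V p.1).coeff p.2)
      (Kp Q (V' \ V) : MvPolynomial (Option I × ℕ) (SS B Λ)) = Pd Q V V' := by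
  rw [eval_Kp, Pd]

open scoped Classical in
/-- `m_β` -/
noncomputable def mb (d' : Option I → ℕ) (β : Option I × ℕ →₀ ℕ) (V : Finset (Option B)) :
    SS B Λ :=
  if Q.dm V = d' then ∏ p ∈ β.support, (aco Q V p.1).coeff p.2 ^ β p else 0

theorem mb_mem (d' : Option I → ℕ) (β : Option I × ℕ →₀ ℕ) :
    (mb Q d' β : Finset (Option B) → SS B Λ) ∈ Q.EqvD d' := by
  refine ⟨fun σ hσ V => ?_, fun V hV => ?_⟩
  · rw [mb, mb, dm_vact Q hσ]
    split_ifs
    · rw [map_prod]
      refine Finset.prod_congr rfl fun p _ => ?_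
      rw [aco_vact Q hσ, Polynomial.coeff_map, map_pow]
      rfl
    · rw [map_zero]
  · by_contra h
    exact hV (by rw [mb, if_neg h])

open scoped Classical in
/-- `c_β` as a rational function -/
noncomputable def cK (d' : Option I → ℕ) (β : Option I × ℕ →₀ ℕ)
    (F : Finset (Option B) → SS B Λ) (V' : Finset (Option B)) : KK B Λ :=
  ∑ V ∈ V'.powerset.filter (fun V => Q.dm V = d'),
    toK (F V * (Kp Q (V' \ V)).coeff β) / toK (Pd Q V V')

theorem cK_vact {σ : Equiv.Perm B} (hσ : σ ∈ Q.W) (d' : Option I → ℕ) (β : Option I × ℕ →₀ ℕ)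
    {F : Finset (Option B) → SS B Λ} (hF : F ∈ Q.Eqv) (V' : Finset (Option B)) :
    cK Q d' β F (vact σ V') = act σ (cK Q d' β F V') := by
  classical
  rw [cK, cK, map_sum]
  symm
  refine Finset.sum_bij' (fun V _ => vact σ V) (fun V _ => vact σ⁻¹ V) ?_ ?_ ?_ ?_ ?_
  · intro V hV
    rw [Finset.mem_filter, Finset.mem_powerset] at hV ⊢
    exact ⟨(vact_subset σ).2 hV.1, by rw [dm_vact Q hσ, hV.2]⟩
  · intro V hV
    rw [Finset.mem_filter, Finset.mem_powerset] at hV ⊢
    refine ⟨?_, by rw [dm_vact Q (Q.W.inv_mem hσ), hV.2]⟩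
    rw [← vact_subset σ, vact_inv']
    exact hV.1
  · intro V _
    exact vact_inv σ V
  · intro V _
    exact vact_inv' σ V
  · intro V _
    rw [map_div₀, act_toK, act_toK, map_mul, ← hF σ hσ V, ← Pd_vact Q hσ, ← vact_sdiff,
      Kp_vact Q hσ, MvPolynomial.coeff_map]
    rfl

end equiv

section reg

variable {B Λ : Type*} [Fintype B] [DecidableEq B] [CommRing Λ] [IsDomain Λ]

/-- the collapse `s ↦ r` -/
def col (r s : B) : B → B := fun b => if b = s then r else b

theorem dvd_sub_rename (r s : B) (f : SS B Λ) :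
    (X r - X s : SS B Λ) ∣ f - rename (col r s) f := by
  rw [← Ideal.mem_span_singleton, ← Ideal.Quotient.eq]
  have h : (Ideal.Quotient.mkₐ Λ (Ideal.span {(X r - X s : SS B Λ)})) =
      (Ideal.Quotient.mkₐ Λ (Ideal.span {(X r - X s : SS B Λ)})).comp (rename (col r s)) := by
    refine MvPolynomial.algHom_ext fun b => ?_
    rw [AlgHom.comp_apply, rename_X, col]
    split_ifs with h
    · subst h
      rw [Ideal.Quotient.mkₐ_eq_mk, eq_comm, Ideal.Quotient.eq]
      exact Ideal.mem_span_singleton_self _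
    · rfl
  exact DFunLike.congr_fun h f

theorem dvd_iff {r s : B} (f : SS B Λ) :
    (X r - X s : SS B Λ) ∣ f ↔ rename (col r s) f = 0 := by
  constructor
  · rintro ⟨g, rfl⟩
    have : rename (col r s) (X r - X s : SS B Λ) = 0 := by
      rw [map_sub, rename_X, rename_X, col, col]
      by_cases h : r = s <;> simp [h]
    rw [map_mul, this, zero_mul]
  · intro h
    have := dvd_sub_rename r s f
    rwa [h, sub_zero] at this

theorem dvd_mul' {r s : B} {f g : SS B Λ} (h : (X r - X s : SS B Λ) ∣ f * g) :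
    (X r - X s : SS B Λ) ∣ f ∨ (X r - X s : SS B Λ) ∣ g := by
  rw [dvd_iff, map_mul] at h
  rw [dvd_iff, dvd_iff]
  exact mul_eq_zero.1 h

theorem not_dvd_prod {r s : B} {ι : Type*} (T : Finset ι) (f : ι → SS B Λ)
    (h : ∀ i ∈ T, ¬ (X r - X s : SS B Λ) ∣ f i) : ¬ (X r - X s : SS B Λ) ∣ ∏ i ∈ T, f i := by
  rw [dvd_iff, map_prod, Finset.prod_eq_zero_iff]
  rintro ⟨i, hi, h0⟩
  exact h i hi ((dvd_iff _).2 h0)

theorem regAt_add {r s : B} {f g : KK B Λ} (hf : RegAt (X r - X s : SS B Λ) f)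
    (hg : RegAt (X r - X s : SS B Λ) g) : RegAt (X r - X s : SS B Λ) (f + g) := by
  obtain ⟨p, q, hq, h⟩ := hf
  obtain ⟨p', q', hq', h'⟩ := hg
  refine ⟨p * q' + p' * q, q * q', fun hc => (dvd_mul' hc).elim hq hq', ?_⟩
  simp only [toK, map_add, map_mul] at *
  rw [← h, ← h']; ring

theorem regAt_zero (r s : B) : RegAt (X r - X s : SS B Λ) (0 : KK B Λ) := by
  refine ⟨0, 1, ?_, by simp [toK]⟩
  rw [dvd_iff, map_one]
  exact one_ne_zero

theorem regAt_sum {r s : B} {ι : Type*} (T : Finset ι) (f : ι → KK B Λ)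
    (h : ∀ i ∈ T, RegAt (X r - X s : SS B Λ) (f i)) :
    RegAt (X r - X s : SS B Λ) (∑ i ∈ T, f i) := by
  classical
  induction T using Finset.induction_on with
  | empty => simpa using regAt_zero r s
  | insert a T ha ih =>
    rw [Finset.sum_insert ha]
    exact regAt_add (h a (Finset.mem_insert_self _ _))
      (ih fun i hi => h i (Finset.mem_insert_of_mem hi))

theorem regAt_div {r s : B} {p q : SS B Λ} (hq : ¬ (X r - X s : SS B Λ) ∣ q) :
    RegAt (X r - X s : SS B Λ) (toK p / toK q) := by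
  refine ⟨p, q, hq, ?_⟩
  have h0 : q ≠ 0 := fun h => hq (h ▸ dvd_zero _)
  rw [div_mul_cancel₀ _ (toK_ne_zero h0)]

theorem rename_swap_swap (r s : B) (f : SS B Λ) :
    rename (Equiv.swap r s) (rename (Equiv.swap r s) f) = f := by
  rw [rename_rename]
  have : (⇑(Equiv.swap r s) ∘ ⇑(Equiv.swap r s)) = id := by
    funext b; simp
  rw [this, rename_id]
  rfl

theorem rename_swap_delta (r s : B) :
    rename (Equiv.swap r s) (X r - X s : SS B Λ) = -(X r - X s) := by
  rw [map_sub, rename_X, rename_X, Equiv.swap_apply_left, Equiv.swap_apply_right]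
  ring

theorem dvd_sub_swap (r s : B) (f : SS B Λ) :
    (X r - X s : SS B Λ) ∣ f - rename (Equiv.swap r s) f := by
  rw [dvd_iff, map_sub, rename_rename, sub_eq_zero]
  congr 2
  funext b
  simp only [Function.comp, col]
  by_cases h : b = s
  · subst h; simp
  · by_cases h' : b = r
    · subst h'; simp
    · rw [Equiv.swap_apply_of_ne_of_ne h' h]

theorem not_dvd_swap {r s : B} {q : SS B Λ} (hq : ¬ (X r - X s : SS B Λ) ∣ q) :
    ¬ (X r - X s : SS B Λ) ∣ rename (Equiv.swap r s) q := by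
  intro h
  apply hq
  have h1 := map_dvd (rename (Equiv.swap r s) : SS B Λ →ₐ[Λ] SS B Λ) h
  rw [rename_swap_swap, rename_swap_delta, neg_dvd] at h1
  exact h1

/-- pairs of conjugate terms with a simple pole have a regular sum -/
theorem regAt_pair {r s : B} (hrs : r ≠ s) {f : KK B Λ} {n q : SS B Λ}
    (hq : ¬ (X r - X s : SS B Λ) ∣ q)
    (h : f * toK ((X r - X s) * q) = toK n) :
    RegAt (X r - X s : SS B Λ) (f + act (Equiv.swap r s) f) := by
  obtain ⟨p, hp⟩ := dvd_sub_swap r s (n * rename (Equiv.swap r s) q)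
  refine ⟨p, q * rename (Equiv.swap r s) q,
    fun hc => (dvd_mul' hc).elim hq (not_dvd_swap hq), ?_⟩
  have h1 := congrArg (act (Equiv.swap r s)) h
  rw [map_mul, act_toK, act_toK, map_mul, rename_swap_delta] at h1
  rw [map_mul, rename_swap_swap] at hp
  have hδ : (X r - X s : SS B Λ) ≠ 0 := by
    rw [Ne, sub_eq_zero]
    exact fun h => hrs (MvPolynomial.X_injective h)
  have hδ' := toK_ne_zero hδ
  apply mul_left_cancel₀ hδ'
  have hp' := congrArg (toK (B := B) (Λ := Λ)) hp
  simp only [toK, map_mul, map_sub, map_neg] at *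
  rw [← hp', ← h, ← h1]
  ring

end reg

section poly

variable {I E B Λ : Type*} [Fintype E] [DecidableEq I] [Fintype B] [DecidableEq B] [CommRing Λ]
  [IsDomain Λ]
variable (Q : QD I E B Λ)

/-- the pairs in the denominator -/
def PT (V V' : Finset (Option B)) : Finset (Option B × Option B) :=
  ((V' \ V) ×ˢ V).filter (fun p => Q.vo p.2 = Q.vo p.1)

theorem Pd_eq (V V' : Finset (Option B)) :
    (Pd Q V V' : SS B Λ) = ∏ p ∈ PT Q V V', (xo Λ p.2 - xo Λ p.1) := by
  rw [Pd, PT, Finset.prod_filter, Finset.prod_product]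
  refine Finset.prod_congr rfl fun s _ => ?_
  rw [Finset.prod_filter]

/-- `D` as a product over pairs of extended boxes -/
theorem D_eq : (Q.D : SS B Λ) = ∏ p ∈ (Finset.univ : Finset (Option B × Option B)).filter
    (fun p => p.1 ≠ p.2 ∧ Q.vo p.2 = Q.vo p.1), (xo Λ p.2 - xo Λ p.1) := by
  rw [QD.D]
  refine Finset.prod_bij (fun p _ => (some p.2, some p.1)) ?_ ?_ ?_ ?_
  · intro p hp
    simp only [QD.Prs, Finset.mem_filter, Finset.mem_univ, true_and] at hp ⊢
    refine ⟨fun h => hp.2 (Option.some_injective _ h).symm, ?_⟩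
    simp [QD.vo, hp.1]
  · intro p _ p' _ h
    simp only [Prod.mk.injEq, Option.some.injEq] at h
    exact Prod.ext h.2 h.1
  · rintro ⟨a, b⟩ hab
    simp only [Finset.mem_filter, Finset.mem_univ, true_and] at hab
    cases a with
    | none => cases b with
      | none => exact absurd rfl hab.1
      | some b => simp [QD.vo] at hab
    | some a => cases b with
      | none => simp [QD.vo] at hab
      | some b =>
        refine ⟨(b, a), ?_, rfl⟩
        simp only [QD.Prs, Finset.mem_filter, Finset.mem_univ, true_and]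
        refine ⟨by simpa [QD.vo] using hab.2, fun h => hab.1 (congrArg some (Eq.symm h))⟩
  · intro p _
    rfl

theorem Pd_dvd_D (V V' : Finset (Option B)) : (Pd Q V V' : SS B Λ) ∣ Q.D := by
  rw [Pd_eq, D_eq]
  refine Finset.prod_dvd_prod_of_subset _ _ _ fun p hp => ?_
  rw [PT, Finset.mem_filter, Finset.mem_product, Finset.mem_sdiff] at hp
  rw [Finset.mem_filter]
  exact ⟨Finset.mem_univ _, fun h => hp.1.1.2 (h ▸ hp.1.2), hp.2⟩

theorem not_dvd_xo {r s : B} {a b : Option B} (hab : a ≠ b) (hv : Q.vo a = Q.vo b)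
    (h1 : ¬ (a = some r ∧ b = some s)) (h2 : ¬ (a = some s ∧ b = some r)) :
    ¬ (X r - X s : SS B Λ) ∣ xo Λ a - xo Λ b := by
  rw [dvd_iff]
  cases a with
  | none => cases b with
    | none => exact absurd rfl hab
    | some b => simp [QD.vo] at hv
  | some a => cases b with
    | none => simp [QD.vo] at hv
    | some b =>
      intro h
      simp only [xo, Option.elim_some, map_sub, rename_X] at h
      rw [sub_eq_zero] at h
      have h' := MvPolynomial.X_injective h
      simp only [Option.some.injEq] at h1 h2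
      simp only [col] at h'
      have hab' : a ≠ b := fun h => hab (congrArg some h)
      split_ifs at h' with h3 h4 h4
      · exact hab' (h3.trans h4.symm)
      · exact h2 ⟨h3, h'.symm⟩
      · exact h1 ⟨h', h4⟩
      · exact hab' h'

/-- if `r, s` are not both in `V'` there is no pole -/
theorem not_dvd_Pd {r s : B} {V V' : Finset (Option B)} (hV : V ⊆ V')
    (h : ¬ (some r ∈ V' ∧ some s ∈ V')) : ¬ (X r - X s : SS B Λ) ∣ Pd Q V V' := by
  rw [Pd_eq]
  refine not_dvd_prod _ _ fun p hp => ?_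
  rw [PT, Finset.mem_filter, Finset.mem_product, Finset.mem_sdiff] at hp
  refine not_dvd_xo Q (fun h => hp.1.1.2 (h ▸ hp.1.2)) hp.2 ?_ ?_
  · rintro ⟨h1, h2⟩
    exact h ⟨hV (h1 ▸ hp.1.2), h2 ▸ hp.1.1.1⟩
  · rintro ⟨h1, h2⟩
    exact h ⟨h2 ▸ hp.1.1.1, hV (h1 ▸ hp.1.2)⟩

/-- the pole at `x_r = x_s` is simple -/
theorem Pd_dvd {r s : B} (V V' : Finset (Option B)) :
    ∃ q : SS B Λ, ¬ (X r - X s : SS B Λ) ∣ q ∧ (Pd Q V V' : SS B Λ) ∣ (X r - X s) * q := by
  classical
  rw [Pd_eq]
  set T := PT Q V V' with hT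
  have hmem : ∀ p ∈ T, p.2 ≠ p.1 ∧ Q.vo p.2 = Q.vo p.1 := fun p hp => by
    rw [hT, PT, Finset.mem_filter, Finset.mem_product, Finset.mem_sdiff] at hp
    exact ⟨fun h => hp.1.1.2 (h ▸ hp.1.2), hp.2⟩
  by_cases hrs : ((some s, some r) : Option B × Option B) ∈ T
  · refine ⟨∏ p ∈ T.erase (some s, some r), (xo Λ p.2 - xo Λ p.1), ?_, ?_⟩
    · refine not_dvd_prod _ _ fun p hp => ?_
      rw [Finset.mem_erase] at hp
      refine not_dvd_xo Q (hmem p hp.2).1 (hmem p hp.2).2 ?_ ?_
      · rintro ⟨h1, h2⟩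
        exact hp.1 (Prod.ext h2 h1)
      · rintro ⟨h1, h2⟩
        rw [hT, PT, Finset.mem_filter, Finset.mem_product, Finset.mem_sdiff] at hp hrs
        rw [h1, h2] at hp
        exact hp.2.1.1.2 hrs.1.2
    · rw [← Finset.mul_prod_erase T _ hrs]
      exact dvd_refl _
  · by_cases hsr : ((some r, some s) : Option B × Option B) ∈ T
    · refine ⟨∏ p ∈ T.erase (some r, some s), (xo Λ p.2 - xo Λ p.1), ?_, ?_⟩
      · refine not_dvd_prod _ _ fun p hp => ?_
        rw [Finset.mem_erase] at hp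
        refine not_dvd_xo Q (hmem p hp.2).1 (hmem p hp.2).2 ?_ ?_
        · rintro ⟨h1, h2⟩
          rw [hT, PT, Finset.mem_filter, Finset.mem_product, Finset.mem_sdiff] at hp hsr
          rw [h1, h2] at hp
          exact hp.2.1.1.2 hsr.1.2
        · rintro ⟨h1, h2⟩
          exact hp.1 (Prod.ext h2 h1)
      · rw [← Finset.mul_prod_erase T _ hsr]
        refine mul_dvd_mul_right ?_ _
        change (X s - X r : SS B Λ) ∣ X r - X s
        rw [← neg_sub, neg_dvd]
    · refine ⟨∏ p ∈ T, (xo Λ p.2 - xo Λ p.1), ?_, Dvd.intro_left _ rfl⟩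
      refine not_dvd_prod _ _ fun p hp => ?_
      refine not_dvd_xo Q (hmem p hp).1 (hmem p hp).2 ?_ ?_
      · rintro ⟨h1, h2⟩
        exact hrs (by rwa [← h1, ← h2])
      · rintro ⟨h1, h2⟩
        exact hsr (by rwa [← h1, ← h2])

theorem vact_swap {r s : B} {V' : Finset (Option B)} (hr : some r ∈ V') (hs : some s ∈ V') :
    vact (Equiv.swap r s) V' = V' := by
  ext o
  rw [mem_vact]
  cases o with
  | none => rfl
  | some b =>
    change some ((Equiv.swap r s).symm b) ∈ V' ↔ _
    rw [Equiv.symm_swap]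
    by_cases h : b = r
    · subst h; rw [Equiv.swap_apply_left]; exact ⟨fun _ => hr, fun _ => hs⟩
    · by_cases h' : b = s
      · subst h'; rw [Equiv.swap_apply_right]; exact ⟨fun _ => hs, fun _ => hr⟩
      · rw [Equiv.swap_apply_of_ne_of_ne h h']

theorem cK_reg [Algebra ℚ Λ] (d' : Option I → ℕ) (β : Option I × ℕ →₀ ℕ)
    {F : Finset (Option B) → SS B Λ} (hF : F ∈ Q.Eqv) (V' : Finset (Option B)) {r s : B}
    (hrs : r ≠ s) (hv : Q.vx r = Q.vx s) : RegAt (X r - X s : SS B Λ) (cK Q d' β F V') := by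
  classical
  by_cases h : some r ∈ V' ∧ some s ∈ V'
  · have hσ : Equiv.swap r s ∈ Q.W := fun b => by
      by_cases h : b = r
      · subst h; rw [Equiv.swap_apply_left]; exact hv.symm
      · by_cases h' : b = s
        · subst h'; rw [Equiv.swap_apply_right]; exact hv
        · rw [Equiv.swap_apply_of_ne_of_ne h h']
    have h1 : act (Equiv.swap r s) (cK Q d' β F V') = cK Q d' β F V' := by
      rw [← cK_vact Q hσ d' β hF, vact_swap h.1 h.2]
    have h2 : RegAt (X r - X s : SS B Λ)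
        (cK Q d' β F V' + act (Equiv.swap r s) (cK Q d' β F V')) := by
      rw [cK, map_sum, ← Finset.sum_add_distrib]
      refine regAt_sum _ _ fun V _ => ?_
      obtain ⟨q, hq, c, hc⟩ := Pd_dvd Q (r := r) (s := s) V V'
      refine regAt_pair hrs (n := F V * (Kp Q (V' \ V)).coeff β * c) hq ?_
      rw [hc]
      have h0 := toK_ne_zero (Pd_ne_zero Q (Λ := Λ) V V')
      simp only [toK, map_mul] at *
      field_simp
    rw [h1] at h2
    obtain ⟨p, q, hq, h3⟩ := h2
    refine ⟨C (algebraMap ℚ Λ (1 / 2)) * p, q, hq, ?_⟩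
    have h4 : toK (C (algebraMap ℚ Λ (1 / 2)) : SS B Λ) * 2 = 1 := by
      have : (C (algebraMap ℚ Λ (1 / 2)) : SS B Λ) * 2 = 1 := by
        have h5 : (2 : SS B Λ) = C (algebraMap ℚ Λ 2) := by rw [map_ofNat, map_ofNat]
        rw [h5, ← C_mul, ← map_mul]
        norm_num
      have h6 := congrArg (toK (B := B) (Λ := Λ)) this
      simp only [toK, map_mul, map_ofNat, map_one] at h6
      exact h6
    have h7 : toK (C (algebraMap ℚ Λ (1 / 2)) * p : SS B Λ) =
        toK (C (algebraMap ℚ Λ (1 / 2)) : SS B Λ) * toK p := map_mul _ _ _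
    rw [h7, ← h3]
    linear_combination (-(cK Q d' β F V' * toK q)) * h4
  · rw [cK]
    refine regAt_sum _ _ fun V hV => regAt_div ?_
    rw [Finset.mem_filter, Finset.mem_powerset] at hV
    exact not_dvd_Pd Q hV.1 h

theorem cK_den (d' : Option I → ℕ) (β : Option I × ℕ →₀ ℕ)
    (F : Finset (Option B) → SS B Λ) (V' : Finset (Option B)) :
    ∃ g : SS B Λ, cK Q d' β F V' * toK (Q.D ^ 1) = toK g := by
  classical
  have h : ∀ V : Finset (Option B), ∃ c : SS B Λ, Q.D = Pd Q V V' * c := fun V => Pd_dvd_D Q V V'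
  choose c hc using h
  refine ⟨∑ V ∈ V'.powerset.filter (fun V => Q.dm V = d'),
    F V * (Kp Q (V' \ V)).coeff β * c V, ?_⟩
  rw [cK, Finset.sum_mul, pow_one]
  simp only [toK, map_sum]
  refine Finset.sum_congr rfl fun V _ => ?_
  have h0 := toK_ne_zero (Pd_ne_zero Q (Λ := Λ) V V')
  rw [hc V]
  simp only [toK, map_mul] at *
  field_simp

theorem cK_poly [Algebra ℚ Λ] (d' : Option I → ℕ) (β : Option I × ℕ →₀ ℕ)
    {F : Finset (Option B) → SS B Λ} (hF : F ∈ Q.Eqv) (V' : Finset (Option B)) :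
    ∃ p : SS B Λ, cK Q d' β F V' = toK p := by
  obtain ⟨g, hg⟩ := cK_den Q d' β F V'
  exact poly_of_reg Q 1 g hg fun r s hrs hv => cK_reg Q d' β hF V' hrs hv

open scoped Classical in
/-- `c_β` -/
noncomputable def cb (d d' : Option I → ℕ) (β : Option I × ℕ →₀ ℕ)
    (F : Finset (Option B) → SS B Λ) (V' : Finset (Option B)) : SS B Λ :=
  if h : (∃ p : SS B Λ, cK Q d' β F V' = toK p) ∧ Q.dm V' = d then h.1.choose else 0

theorem toK_cb [Algebra ℚ Λ] (d d' : Option I → ℕ) (β : Option I × ℕ →₀ ℕ)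
    {F : Finset (Option B) → SS B Λ} (hF : F ∈ Q.Eqv) {V' : Finset (Option B)}
    (hd : Q.dm V' = d) : toK (cb Q d d' β F V') = cK Q d' β F V' := by
  have h : (∃ p : SS B Λ, cK Q d' β F V' = toK p) ∧ Q.dm V' = d := ⟨cK_poly Q d' β hF V', hd⟩
  rw [cb, dif_pos h]
  exact h.1.choose_spec.symm

theorem cb_mem [Algebra ℚ Λ] (d d' : Option I → ℕ) (β : Option I × ℕ →₀ ℕ)
    {F : Finset (Option B) → SS B Λ} (hF : F ∈ Q.Eqv) : cb Q d d' β F ∈ Q.EqvD d := by
  refine ⟨fun σ hσ V' => ?_, fun V' hV' => ?_⟩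
  · by_cases hd : Q.dm V' = d
    · apply toK_inj
      rw [toK_cb Q d d' β hF (by rw [dm_vact Q hσ, hd]), ← act_toK, toK_cb Q d d' β hF hd,
        cK_vact Q hσ d' β hF]
    · rw [cb, dif_neg (by rw [dm_vact Q hσ]; exact fun h => hd h.2), cb,
        dif_neg (fun h => hd h.2), map_zero]
  · by_contra h
    exact hV' (by rw [cb, dif_neg fun h' => h h'.2])

end poly

end I2

variable {I E B Λ : Type*} [Fintype E] [DecidableEq I] [Fintype B] [DecidableEq B] [CommRing Λ]
  [IsDomain Λ]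
variable (Q : QD I E B Λ)

/-- (I-2) the relative kernel operator -/
theorem rel_kernel [Algebra ℚ Λ] (d d' : Option I → ℕ) (_hd : d' ≤ d) :
    ∃ n : ℕ, ∃ m : Fin n → Finset (Option B) → SS B Λ,
      ∃ c : Fin n → (Finset (Option B) → SS B Λ) → (Finset (Option B) → SS B Λ),
      (∀ i, m i ∈ Q.EqvD d') ∧
      (∀ i, ∀ F ∈ Q.EqvD d', c i F ∈ Q.EqvD d) ∧
      (∀ F ∈ Q.EqvD d', ∀ V V', V ⊆ V' → Q.dm V = d' → Q.dm V' = d →
        F V = ∑ i, m i V * c i F V') ∧
      (∀ (ι : Type) (s : Finset ι) (F : ι → Finset (Option B) → SS B Λ) (g : ι → SS B Λ)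
        (V' : Finset (Option B)), (∀ l ∈ s, F l ∈ Q.EqvD d') → Q.dm V' = d →
        (∀ V, V ⊆ V' → Q.dm V = d' → ∑ l ∈ s, g l * F l V = 0) →
        ∀ i, ∑ l ∈ s, g l * c i (F l) V' = 0) := by
  classical
  set T : Finset (Option I × ℕ →₀ ℕ) := Finset.univ.biUnion
    (fun U : Finset (Option B) => (I2.Kp Q U : MvPolynomial (Option I × ℕ) (SS B Λ)).support)
    with hT
  refine ⟨T.card, fun i => I2.mb Q d' (T.equivFin.symm i), fun i F =>
    I2.cb Q d d' (T.equivFin.symm i) F, fun i => I2.mb_mem Q d' _,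
    fun i F hF => I2.cb_mem Q d d' _ hF.1, ?_, ?_⟩
  · intro F hF V V' hV hdV hdV'
    apply I2.toK_inj
    have h1 : ∑ i, I2.mb Q d' (T.equivFin.symm i) V * I2.cb Q d d' (T.equivFin.symm i) F V' =
        ∑ β ∈ T, I2.mb Q d' β V * I2.cb Q d d' β F V' := by
      rw [← Finset.sum_coe_sort T (fun β => I2.mb Q d' β V * I2.cb Q d d' β F V')]
      exact Equiv.sum_comp T.equivFin.symm
        (fun β : T => I2.mb Q d' β V * I2.cb Q d d' β F V')
    have h2 : ∀ V'' : Finset (Option B),
        ∑ β ∈ T, I2.mb Q d' β V * (I2.Kp Q (V' \ V'')).coeff β =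
          MvPolynomial.eval (fun p : Option I × ℕ => (I2.aco Q V p.1).coeff p.2)
            (I2.Kp Q (V' \ V'') : MvPolynomial (Option I × ℕ) (SS B Λ)) := by
      intro V''
      rw [MvPolynomial.eval_eq]
      symm
      have hsub : (I2.Kp Q (V' \ V'') : MvPolynomial (Option I × ℕ) (SS B Λ)).support ⊆ T :=
        Finset.subset_biUnion_of_mem
          (fun U : Finset (Option B) => (I2.Kp Q U : MvPolynomial (Option I × ℕ) (SS B Λ)).support)
          (Finset.mem_univ (V' \ V''))
      rw [Finset.sum_subset hsub]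
      · refine Finset.sum_congr rfl fun β _ => ?_
        rw [I2.mb, if_pos hdV, mul_comm]
      · intro β _ hβ
        rw [MvPolynomial.notMem_support_iff.1 hβ, zero_mul]
    rw [h1]
    simp only [toK, map_sum, map_mul]
    have h3 : ∀ β ∈ T, algebraMap (SS B Λ) (KK B Λ) (I2.mb Q d' β V) *
        algebraMap (SS B Λ) (KK B Λ) (I2.cb Q d d' β F V') =
        ∑ V'' ∈ V'.powerset.filter (fun V => Q.dm V = d'),
          toK (F V'' * (I2.mb Q d' β V * (I2.Kp Q (V' \ V'')).coeff β)) /
            toK (I2.Pd Q V'' V') := by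
      intro β _
      have h4 := I2.toK_cb Q d d' β hF.1 hdV'
      rw [toK] at h4
      rw [h4, I2.cK, Finset.mul_sum]
      refine Finset.sum_congr rfl fun V'' _ => ?_
      simp only [toK, map_mul]
      ring
    rw [Finset.sum_congr rfl h3, Finset.sum_comm]
    have h5 : ∀ V'' ∈ V'.powerset.filter (fun V => Q.dm V = d'), V'' ≠ V →
        ∑ β ∈ T, toK (F V'' * (I2.mb Q d' β V * (I2.Kp Q (V' \ V'')).coeff β)) /
            toK (I2.Pd Q V'' V') = 0 := by
      intro V'' hV'' hne
      rw [Finset.mem_filter] at hV''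
      rw [← Finset.sum_div]
      have h6 : ∑ β ∈ T, toK (F V'' * (I2.mb Q d' β V * (I2.Kp Q (V' \ V'')).coeff β)) =
          toK (F V'' * ∑ β ∈ T, I2.mb Q d' β V * (I2.Kp Q (V' \ V'')).coeff β) := by
        rw [Finset.mul_sum, toK, map_sum]
      rw [h6, h2, I2.kernel_zero Q hV (hdV.trans hV''.2.symm) hne.symm]
      simp [toK]
    rw [Finset.sum_eq_single_of_mem V
      (Finset.mem_filter.2 ⟨Finset.mem_powerset.2 hV, hdV⟩) h5, ← Finset.sum_div]
    have h6 : ∑ β ∈ T, toK (F V * (I2.mb Q d' β V * (I2.Kp Q (V' \ V)).coeff β)) =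
        toK (F V * ∑ β ∈ T, I2.mb Q d' β V * (I2.Kp Q (V' \ V)).coeff β) := by
      rw [Finset.mul_sum, toK, map_sum]
    rw [h6, h2, I2.kernel_self, toK, map_mul]
    have h0 := I2.toK_ne_zero (I2.Pd_ne_zero Q (Λ := Λ) V V')
    rw [toK] at h0 ⊢
    field_simp
  · intro ι s F g V' hF hdV' h i
    apply I2.toK_inj
    simp only [toK, map_sum, map_mul, map_zero]
    have h3 : ∀ l ∈ s, algebraMap (SS B Λ) (KK B Λ) (g l) *
        algebraMap (SS B Λ) (KK B Λ) (I2.cb Q d d' (T.equivFin.symm i) (F l) V') =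
        ∑ V'' ∈ V'.powerset.filter (fun V => Q.dm V = d'),
          toK (g l * F l V'' * (I2.Kp Q (V' \ V'')).coeff (T.equivFin.symm i)) /
            toK (I2.Pd Q V'' V') := by
      intro l hl
      have h4 := I2.toK_cb Q d d' (T.equivFin.symm i) (hF l hl).1 hdV'
      rw [toK] at h4
      rw [h4, I2.cK, Finset.mul_sum]
      refine Finset.sum_congr rfl fun V'' _ => ?_
      simp only [toK, map_mul]
      ring
    rw [Finset.sum_congr rfl h3, Finset.sum_comm]
    refine Finset.sum_eq_zero fun V'' hV'' => ?_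
    rw [Finset.mem_filter, Finset.mem_powerset] at hV''
    rw [← Finset.sum_div]
    have h6 : ∑ l ∈ s, toK (g l * F l V'' * (I2.Kp Q (V' \ V'')).coeff (T.equivFin.symm i)) =
        toK ((∑ l ∈ s, g l * F l V'') * (I2.Kp Q (V' \ V'')).coeff (T.equivFin.symm i)) := by
      rw [Finset.sum_mul, toK, map_sum]
    rw [h6, h V'' hV''.1 hV''.2]
    simp [toK]

end Vale.Agent.P291
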