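import Vale.Agent.P291.QBlk

/-!
# P291, Hilbert series of `R / J_D`: definitions
-/

open MvPolynomial

namespace Vale.Agent.P291

/-- Grading datum on the coefficient ring: `θ` multiplies the elements of degree `d` by `2^d`,
every element is a sum of homogeneous elements. -/
structure Scal (k Λ : Type*) [Field k] [CommRing Λ] [Algebra k Λ] where
  /-- the scaling automorphism -/
  θ : Λ ≃ₐ[k] Λ
  dec : ∀ c : Λ, ∃ f : ℕ →₀ Λ, (∀ d, θ (f d) = (2 : Λ) ^ d * f d) ∧ c = f.sum fun _ x => x

namespace Scal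

variable {k Λ : Type*} [Field k] [CharZero k] [CommRing Λ] [Algebra k Λ]

theorem half_mul (S : Scal k Λ) (B : Type*) :
    (C (algebraMap k Λ (1 / 2)) : SS B Λ) * 2 = 1 := by
  have : (2 : SS B Λ) = C (algebraMap k Λ 2) := by rw [map_ofNat, map_ofNat]
  rw [this, ← map_mul, ← map_mul]; norm_num

/-- scaling of polynomials: `X b ↦ 2 X b`, `θ` on the coefficients -/
noncomputable def sS (S : Scal k Λ) (B : Type*) : SS B Λ ≃+* SS B Λ :=
  RingEquiv.ofRingHom
    (eval₂Hom ((C : Λ →+* SS B Λ).comp (S.θ : Λ →+* Λ)) (fun b => 2 * X b))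
    (eval₂Hom ((C : Λ →+* SS B Λ).comp (S.θ.symm : Λ →+* Λ))
      (fun b => C (algebraMap k Λ (1 / 2)) * X b))
    (by
      ext x
      · simp
      · have h2 := half_mul S B
        have h3 : S.θ (algebraMap k Λ (1 / 2)) = algebraMap k Λ (1 / 2) := S.θ.commutes _
        simp only [RingHom.comp_apply, RingHom.id_apply, eval₂Hom_X', map_mul,
          eval₂Hom_C, RingHom.coe_coe, h3]
        rw [← mul_assoc, h2, one_mul])
    (by
      ext x
      · simp
      · have h2 := half_mul S B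
        simp only [RingHom.comp_apply, RingHom.id_apply, eval₂Hom_X', map_mul, map_ofNat]
        rw [← mul_assoc, mul_comm (2 : SS B Λ), h2, one_mul])

variable [IsDomain Λ]

/-- scaling of rational functions -/
noncomputable def sK (S : Scal k Λ) (B : Type*) : KK B Λ ≃+* KK B Λ :=
  IsFractionRing.ringEquivOfRingEquiv (A := SS B Λ) (B := SS B Λ) (K := KK B Λ) (L := KK B Λ)
    (S.sS B)

omit [IsDomain Λ] in
theorem sK_toK (S : Scal k Λ) (B : Type*) (f : SS B Λ) : S.sK B (toK f) = toK (S.sS B f) :=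
  IsFractionRing.ringEquivOfRingEquiv_algebraMap _ _

omit [IsDomain Λ] in
theorem sS_C (S : Scal k Λ) (B : Type*) (c : Λ) : S.sS B (C c) = C (S.θ c) := by
  simp [sS]

omit [IsDomain Λ] in
theorem sS_X (S : Scal k Λ) (B : Type*) (b : B) : S.sS B (X b) = 2 * X b := by
  simp [sS]

/-- `f` is homogeneous of degree `d` -/
def Hom (S : Scal k Λ) {B : Type*} (d : ℤ) (f : KK B Λ) : Prop := S.sK B f = 2 ^ d * f

/-- homogeneous rational functions of degree `d` -/
noncomputable def homK (S : Scal k Λ) (B : Type*) (d : ℤ) : Submodule k (KK B Λ) where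
  carrier := {f | S.Hom d f}
  zero_mem' := by simp [Scal.Hom]
  add_mem' := fun {a b} ha hb => by
    simp only [Scal.Hom, Set.mem_ofPred_eq, map_add, mul_add] at *
    rw [ha, hb]
  smul_mem' := fun c f hf => by
    simp only [Scal.Hom, Set.mem_ofPred_eq] at *
    have h1 : c • f = toK (C (algebraMap k Λ c)) * f := by
      rw [Algebra.smul_def, IsScalarTower.algebraMap_apply k (SS B Λ) (KK B Λ)]
      rfl
    rw [h1, map_mul, hf, sK_toK, sS_C, S.θ.commutes]
    ring

/-- homogeneous polynomials of degree `d` -/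
noncomputable def homS (S : Scal k Λ) (B : Type*) (d : ℤ) : Submodule k (SS B Λ) :=
  (S.homK B d).comap (Algebra.linearMap (SS B Λ) (KK B Λ) |>.restrictScalars k)

end Scal

namespace QD

variable {I E B Λ : Type*} [Fintype E] [DecidableEq I] [Fintype B] [DecidableEq B] [CommRing Λ]
  [IsDomain Λ]
variable (Q : QD I E B Λ)

/-- the flavour weights are homogeneous of degree one -/
def Lin {k : Type*} [Field k] [Algebra k Λ] (S : Scal k Λ) : Prop := ∀ a, S.θ (Q.t a) = 2 * Q.t a

/-- symmetrised Hall term of a colouring -/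
noncomputable def hall (g : B → ℕ) (s : SS B Λ) : KK B Λ := ∑ σ ∈ Q.Wf, act σ (toK s * Q.kap g)

/-- `L(Q)`: span of all symmetrised Hall terms -/
noncomputable def LL : Submodule Λ (KK B Λ) :=
  Submodule.span Λ {f | ∃ (g : B → ℕ) (s : SS B Λ), f = Q.hall g s}

/-- span of the symmetrised Hall terms with at least one unframed block -/
noncomputable def UU : Submodule Λ (KK B Λ) :=
  Submodule.span Λ {f | ∃ (g : B → ℕ) (s : SS B Λ), g ≠ 0 ∧ f = Q.hall g s}

/-- `lam` has charge zero and entries at most one -/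
def Om (lam : B → ℤ) : Prop := (∀ b, lam b ≤ 1) ∧ ∀ i, Q.chg i lam = 0

/-- elements of `A` of charge zero with exponents at most one -/
def A01 (z : AA B Λ) : Prop := z ∈ Q.A ∧ ∀ mu, z.coeff mu ≠ 0 → Q.Om mu

/-- degree of `e lam` -/
def degE (lam : B → ℤ) : ℤ :=
  ∑ p ∈ Q.Wt, ((lam p.2.1 - ext lam p.2.2).toNat : ℤ) -
    ∑ p ∈ Q.Prs, ((lam p.1 - lam p.2).toNat : ℤ)

/-- degree of `kap g` -/
def degK (g : B → ℕ) : ℤ :=
  ((Q.Wt.filter (fun p => g p.2.1 ≠ p.2.2.elim 0 g)).card : ℤ) -
    ((Q.Prs.filter (fun p => g p.1 ≠ g p.2)).card : ℤ)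

/-- index data of the basis of `L(Q)`: a cocharacter of charge zero with entries at most one and
a monomial in the boxes with `lam ≤ 0` -/
def Idx0 : Type _ :=
  {p : (B → ℤ) × (B →₀ ℕ) // Q.Om p.1 ∧ ∀ b, p.1 b = 1 → p.2 b = 0}

/-- conjugacy of index data under the Weyl group -/
def idxSetoid : Setoid Q.Idx0 where
  r x y := ∃ σ ∈ Q.W, y.1.1 = lact σ x.1.1 ∧ y.1.2 = x.1.2.mapDomain σ
  iseqv := by
    refine ⟨fun x => ⟨1, Q.W.one_mem, ?_, ?_⟩, ?_, ?_⟩
    · funext b; simp [lact]
    · simp [Equiv.Perm.coe_one, Finsupp.mapDomain_id]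
    · rintro x y ⟨σ, hσ, h1, h2⟩
      refine ⟨σ⁻¹, Q.W.inv_mem hσ, ?_, ?_⟩
      · funext b; simp [lact, h1]
      · rw [h2, ← Finsupp.mapDomain_comp]
        have : (⇑σ⁻¹ ∘ ⇑σ) = id := by funext b; simp
        rw [this, Finsupp.mapDomain_id]
    · rintro x y z ⟨σ, hσ, h1, h2⟩ ⟨τ, hτ, h3, h4⟩
      refine ⟨τ * σ, Q.W.mul_mem hτ hσ, ?_, ?_⟩
      · funext b; simp [lact, h1, h3, mul_inv_rev]
      · rw [h4, h2, ← Finsupp.mapDomain_comp, Equiv.Perm.coe_mul]

/-- index set of the basis of `L(Q)` -/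
def Idx : Type _ := Quotient Q.idxSetoid

/-- degree of an index datum -/
def deg0 (x : Q.Idx0) : ℤ := Q.degE x.1.1 + ((x.1.2.sum fun _ n => n : ℕ) : ℤ)

/-- degree of an index -/
noncomputable def degI (x : Q.Idx) : ℤ := Q.deg0 (Quotient.out x)

/-- number of indices of a given degree -/
noncomputable def mul (e : ℤ) : ℕ := Nat.card {x : Q.Idx // Q.degI x = e}

/-! ### two-step decompositions: a subset `U` of the boxes (unframed, near) and its complement
(framed, far), all inside `KK B Λ` -/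

/-- elements of the Weyl group fixing the complement of `U` -/
def WU (U : Finset B) : Finset (Equiv.Perm B) := Q.Wf.filter fun σ => ∀ b ∉ U, σ b = b

/-- near part of `kap g` on `U` -/
noncomputable def kapN (U : Finset B) (g : B → ℕ) : KK B Λ :=
  toK (∏ p ∈ Q.Wt.filter (fun p => p.2.1 ∈ U ∧ (∃ b ∈ U, p.2.2 = some b) ∧
      g p.2.1 ≠ p.2.2.elim 0 g), Q.xi p) /
    toK (∏ p ∈ Q.Prs.filter (fun p => p.1 ∈ U ∧ p.2 ∈ U ∧ g p.1 ≠ g p.2),
      (X p.1 - X p.2 : SS B Λ))

/-- far part of `kap g` on the complement of `U` -/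
noncomputable def kapF (U : Finset B) (g : B → ℕ) : KK B Λ :=
  toK (∏ p ∈ Q.Wt.filter (fun p => p.2.1 ∉ U ∧ (∀ b ∈ U, p.2.2 ≠ some b) ∧
      g p.2.1 ≠ p.2.2.elim 0 g), Q.xi p) /
    toK (∏ p ∈ Q.Prs.filter (fun p => p.1 ∉ U ∧ p.2 ∉ U ∧ g p.1 ≠ g p.2),
      (X p.1 - X p.2 : SS B Λ))

/-- colour one on `U`, colour zero elsewhere -/
def ind (U : Finset B) : B → ℕ := fun b => if b ∈ U then 1 else 0

/-- unframed `L` of `U`, inside `KK B Λ` -/
noncomputable def LN (U : Finset B) : Submodule Λ (KK B Λ) :=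
  Submodule.span Λ {f | ∃ (g : B → ℕ) (s : SS B Λ), s ∈ supported Λ (U : Set B) ∧
    f = ∑ σ ∈ Q.WU U, act σ (toK s * Q.kapN U g)}

/-- invariant polynomials in the variables outside `U` -/
noncomputable def RF (U : Finset B) : Submodule Λ (KK B Λ) :=
  Submodule.span Λ {f | ∃ r : SS B Λ, r ∈ supported Λ ((Uᶜ : Finset B) : Set B) ∧
    (∀ σ ∈ Q.WU Uᶜ, rename σ r = r) ∧ f = toK r}

/-- `UU` of the (framed) complement of `U`, inside `KK B Λ` -/
noncomputable def UF (U : Finset B) : Submodule Λ (KK B Λ) :=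
  Submodule.span Λ {f | ∃ (g : B → ℕ) (s : SS B Λ), s ∈ supported Λ ((Uᶜ : Finset B) : Set B) ∧
    (∃ b ∉ U, g b ≠ 0) ∧ f = ∑ σ ∈ Q.WU Uᶜ, act σ (toK s * Q.kapF U g)}

/-- Hall product: symmetrisation of `f` times the interaction of `U` with its complement -/
noncomputable def star (U : Finset B) (f : KK B Λ) : KK B Λ :=
  ∑ σ ∈ Q.Wf, act σ (f * Q.kap (ind U))

theorem act_smul' (σ : Equiv.Perm B) (c : Λ) (f : KK B Λ) : act σ (c • f) = c • act σ f := by
  have h : ∀ x : KK B Λ, c • x = toK (C c) * x := by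
    intro x
    rw [Algebra.smul_def, IsScalarTower.algebraMap_apply Λ (SS B Λ) (KK B Λ)]
    rfl
  rw [h, h, map_mul, act_toK, rename_C]

/-- `star U` as a linear map -/
noncomputable def starL (U : Finset B) : KK B Λ →ₗ[Λ] KK B Λ where
  toFun := Q.star U
  map_add' := fun f g => by simp [star, add_mul, Finset.sum_add_distrib]
  map_smul' := fun c f => by
    simp only [star, RingHom.id_apply, Finset.smul_sum]
    refine Finset.sum_congr rfl fun σ _ => ?_
    rw [smul_mul_assoc, act_smul']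

/-! ### restriction of the quiver data -/

/-- restriction to a subset of the boxes -/
def rst (U : Finset B) : QD I E {b // b ∈ U} Λ := ⟨Q.src, Q.tgt, fun b => Q.vx b.1, Q.t⟩

/-- forget the framing -/
def unf : QD I {a : E // Q.tgt a ≠ none} B Λ :=
  ⟨fun a => Q.src a.1, fun a => Q.tgt a.1, Q.vx, fun a => Q.t a.1⟩

/-- the same quiver with other boxes -/
def on {B' : Type*} (vx' : B' → I) : QD I E B' Λ := ⟨Q.src, Q.tgt, vx', Q.t⟩

end QD

/-- The embedding of rational functions in the variables of a subset. -/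
noncomputable def emb {B' B Λ : Type*} [CommRing Λ] [IsDomain Λ] (j : B' ↪ B) :
    KK B' Λ →+* KK B Λ :=
  IsFractionRing.map (A := SS B' Λ) (B := SS B Λ) (K := KK B' Λ) (L := KK B Λ)
    (j := (rename j : SS B' Λ →ₐ[Λ] SS B Λ).toRingHom) (rename_injective j j.injective)

namespace QD

variable {I E B Λ : Type*} [Fintype E] [DecidableEq I] [Fintype B] [DecidableEq B] [CommRing Λ]
  [IsDomain Λ] {k : Type*} [Field k] [CharZero k] [Algebra k Λ]
variable (Q : QD I E B Λ)

/-- homogeneous invariant polynomials of degree `d` -/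
noncomputable def Rd (S : Scal k Λ) (d : ℤ) : Submodule k (SS B Λ) :=
  (Subalgebra.toSubmodule Q.R).restrictScalars k ⊓ S.homS B d

/-- `J_D` as a submodule -/
def JDs : Submodule Λ (SS B Λ) where
  carrier := Q.JD
  zero_mem' := ⟨Q.R.zero_mem, by simp⟩
  add_mem' := fun {a b} ha hb => ⟨Q.R.add_mem ha.1 hb.1, by
    rw [mul_add]; exact Ideal.add_mem _ ha.2 hb.2⟩
  smul_mem' := fun c f hf => ⟨Q.R.smul_mem hf.1 c, by
    rw [mul_smul_comm, MvPolynomial.smul_eq_C_mul]; exact Ideal.mul_mem_left _ _ hf.2⟩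

/-- homogeneous elements of `J_D` of degree `d` -/
noncomputable def Jd (S : Scal k Λ) (d : ℤ) : Submodule k (SS B Λ) :=
  Q.JDs.restrictScalars k ⊓ S.homS B d

/-- Hilbert function of `R / J_D` -/
noncomputable def hH (S : Scal k Λ) (d : ℤ) : ℕ :=
  Module.finrank k (↥(Q.Rd S d) ⧸ (Q.Jd S d).submoduleOf (Q.Rd S d))

end QD

/-- trivial grading datum on `k` itself -/
def scal0 (k : Type*) [Field k] : Scal k k where
  θ := AlgEquiv.refl
  dec := fun c => ⟨Finsupp.single 0 c, fun d => by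
    rcases Nat.eq_zero_or_pos d with rfl | hd
    · simp
    · simp [Finsupp.single_eq_of_ne hd.ne'], by simp⟩

/-- the grading datum of `k[t]` -/
noncomputable def scalPoly (k : Type*) [Field k] [CharZero k] : Scal k (Polynomial k) where
  θ := AlgEquiv.ofAlgHom (Polynomial.aeval (2 * Polynomial.X))
    (Polynomial.aeval (Polynomial.C (1 / 2) * Polynomial.X))
    (by
      ext
      simp only [AlgHom.comp_apply, Polynomial.aeval_X, map_mul, Polynomial.aeval_C,
        Polynomial.algebraMap_eq, AlgHom.id_apply]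
      rw [← mul_assoc, ← Polynomial.C_ofNat, ← Polynomial.C_mul]
      norm_num)
    (by
      ext
      simp only [AlgHom.comp_apply, Polynomial.aeval_X, map_mul, AlgHom.id_apply, map_ofNat]
      rw [← mul_assoc, ← Polynomial.C_ofNat, ← Polynomial.C_mul]
      norm_num)
  dec := fun c => ⟨Finsupp.onFinset c.support (fun d => Polynomial.monomial d (c.coeff d))
    (fun d hd => by
      rw [Polynomial.mem_support_iff]
      intro h; exact hd (by rw [h, map_zero])),
    fun d => by
      simp only [Finsupp.onFinset_apply, AlgEquiv.ofAlgHom_apply]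
      rw [← Polynomial.C_mul_X_pow_eq_monomial]
      simp only [map_mul, Polynomial.aeval_C, Polynomial.algebraMap_eq, map_pow,
        Polynomial.aeval_X]
      ring,
    by
      rw [Finsupp.onFinset_sum _ (fun _ => rfl)]
      exact c.as_sum_support⟩

namespace QD

/-- all weights equal to the parameter `t` of `k[t]` -/
noncomputable def line {I E B k : Type*} [Field k] (Q : QD I E B k) : QD I E B (Polynomial k) :=
  ⟨Q.src, Q.tgt, Q.vx, fun _ => Polynomial.X⟩

variable {I E B k : Type*} [Fintype E] [DecidableEq I] [Fintype B] [DecidableEq B] [Field k]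
  (Q : QD I E B k)

/-- homogeneous elements of `R` of degree `d` (zero for negative `d`) -/
noncomputable def RC (d : ℤ) : Submodule k (SS B k) :=
  Subalgebra.toSubmodule Q.R ⊓ (if 0 ≤ d then homogeneousSubmodule B k d.toNat else ⊥)

/-- homogeneous elements of `J_C` of degree `d` -/
noncomputable def JCd (d : ℤ) : Submodule k (SS B k) :=
  Submodule.span k Q.JC ⊓ (if 0 ≤ d then homogeneousSubmodule B k d.toNat else ⊥)

/-- Hilbert function of `R / J_C = ℂ[Y^ν]` (trivial flavour torus) -/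
noncomputable def hC (d : ℤ) : ℕ :=
  Module.finrank k (↥(Q.RC d) ⧸ (Q.JCd d).submoduleOf (Q.RC d))

end QD

end Vale.Agent.P291
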