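import Vale.Agent.P291.HCore

/-!
# P291, block HG1: scaling and homogeneity
-/

open MvPolynomial

namespace Vale.Agent.P291

namespace HG1

variable {B Λ k : Type*} [CommRing Λ] [IsDomain Λ] [Field k] [CharZero k] [Algebra k Λ]

theorem two_ne (k : Type*) {B Λ : Type*} [CommRing Λ] [IsDomain Λ] [Field k] [CharZero k]
    [Algebra k Λ] : (2 : KK B Λ) ≠ 0 := by
  have h : (algebraMap k (KK B Λ)) 2 = 2 := map_ofNat _ 2
  rw [← h]
  exact (map_ne_zero_iff _ (algebraMap k (KK B Λ)).injective).2 two_ne_zero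

theorem charZero (k B Λ : Type*) [CommRing Λ] [IsDomain Λ] [Field k] [CharZero k]
    [Algebra k Λ] : CharZero (KK B Λ) :=
  charZero_of_injective_algebraMap (algebraMap k (KK B Λ)).injective

theorem toK_mul (f g : SS B Λ) : toK (f * g) = toK f * toK g :=
  map_mul (algebraMap (SS B Λ) (KK B Λ)) f g

theorem toK_add (f g : SS B Λ) : toK (f + g) = toK f + toK g :=
  map_add (algebraMap (SS B Λ) (KK B Λ)) f g

theorem toK_sub (f g : SS B Λ) : toK (f - g) = toK f - toK g :=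
  map_sub (algebraMap (SS B Λ) (KK B Λ)) f g

theorem toK_zero : toK (0 : SS B Λ) = 0 := map_zero (algebraMap (SS B Λ) (KK B Λ))

theorem toK_two : toK (2 : SS B Λ) = 2 := map_ofNat (algebraMap (SS B Λ) (KK B Λ)) 2

theorem toK_pow (f : SS B Λ) (n : ℕ) : toK (f ^ n) = toK f ^ n :=
  map_pow (algebraMap (SS B Λ) (KK B Λ)) f n

theorem toK_prod {ι : Type*} (s : Finset ι) (f : ι → SS B Λ) :
    toK (∏ i ∈ s, f i) = ∏ i ∈ s, toK (f i) :=
  map_prod (algebraMap (SS B Λ) (KK B Λ)) f s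

variable (S : Scal k Λ)

theorem hom_one : S.Hom 0 (1 : KK B Λ) := by simp [Scal.Hom]

theorem hom_mul' {d e : ℤ} {f g : KK B Λ} (hf : S.Hom d f) (hg : S.Hom e g) :
    S.Hom (d + e) (f * g) := by
  unfold Scal.Hom at *
  rw [map_mul, hf, hg, zpow_add₀ (two_ne k)]
  ring

theorem hom_div' {d e : ℤ} {f g : KK B Λ} (hf : S.Hom d f) (hg : S.Hom e g) :
    S.Hom (d - e) (f / g) := by
  unfold Scal.Hom at *
  have h2 := two_ne k (B := B) (Λ := Λ)
  rw [map_div₀, hf, hg, zpow_sub₀ h2]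
  by_cases h0 : g = 0
  · simp [h0]
  · have h3 : (2 : KK B Λ) ^ e ≠ 0 := zpow_ne_zero _ h2
    field_simp

theorem hom_pow {d : ℤ} {f : KK B Λ} (hf : S.Hom d f) (n : ℕ) : S.Hom (n * d) (f ^ n) := by
  induction n with
  | zero => simpa using hom_one S
  | succ n ih =>
    rw [pow_succ]
    have := hom_mul' S ih hf
    convert this using 1
    push_cast; ring

theorem hom_prod {ι : Type*} (s : Finset ι) (f : ι → KK B Λ) (d : ι → ℤ)
    (h : ∀ i ∈ s, S.Hom (d i) (f i)) : S.Hom (∑ i ∈ s, d i) (∏ i ∈ s, f i) := by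
  classical
  induction s using Finset.induction_on with
  | empty => simpa using hom_one S
  | insert a s ha ih =>
    rw [Finset.prod_insert ha, Finset.sum_insert ha]
    exact hom_mul' S (h a (Finset.mem_insert_self a s))
      (ih fun i hi => h i (Finset.mem_insert_of_mem hi))

theorem hom_sum {ι : Type*} (s : Finset ι) (f : ι → KK B Λ) (d : ℤ)
    (h : ∀ i ∈ s, S.Hom d (f i)) : S.Hom d (∑ i ∈ s, f i) :=
  (S.homK B d).sum_mem h

/-- homogeneity of polynomials -/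
theorem hom_toK_iff (d : ℤ) (f : SS B Λ) : S.Hom d (toK f) ↔ toK (S.sS B f) = 2 ^ d * toK f := by
  unfold Scal.Hom
  rw [Scal.sK_toK]

theorem hom_X (b : B) : S.Hom 1 (toK (X b : SS B Λ)) := by
  rw [hom_toK_iff, Scal.sS_X, toK_mul, toK_two, zpow_one]

theorem hom_C {c : Λ} {d : ℕ} (h : S.θ c = 2 ^ d * c) : S.Hom (d : ℤ) (toK (C c : SS B Λ)) := by
  have h2 : (C (2 : Λ) : SS B Λ) = 2 := map_ofNat C 2
  rw [hom_toK_iff, Scal.sS_C, h, C_mul, toK_mul, C_pow, toK_pow, h2, toK_two, zpow_natCast]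

theorem hom_add {d : ℤ} {f g : KK B Λ} (hf : S.Hom d f) (hg : S.Hom d g) : S.Hom d (f + g) :=
  (S.homK B d).add_mem hf hg

theorem hom_sub {d : ℤ} {f g : KK B Λ} (hf : S.Hom d f) (hg : S.Hom d g) : S.Hom d (f - g) :=
  (S.homK B d).sub_mem hf hg

theorem hom_zero (d : ℤ) : S.Hom d (0 : KK B Λ) := (S.homK B d).zero_mem

theorem sS_rename {B' : Type*} (j : B' → B) (f : SS B' Λ) :
    S.sS B (rename j f) = rename j (S.sS B' f) := by
  have h : ((S.sS B : SS B Λ →+* SS B Λ).comp (rename j : SS B' Λ →ₐ[Λ] SS B Λ).toRingHom) =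
      ((rename j : SS B' Λ →ₐ[Λ] SS B Λ).toRingHom).comp (S.sS B' : SS B' Λ →+* SS B' Λ) := by
    apply MvPolynomial.ringHom_ext
    · intro c
      simp [Scal.sS_C]
    · intro b
      simp only [AlgHom.toRingHom_eq_coe, RingHom.coe_comp, RingHom.coe_coe, Function.comp_apply,
        rename_X, Scal.sS_X, map_mul]
      rw [← map_ofNat (C : Λ →+* SS B' Λ) 2, rename_C, map_ofNat]
  exact congrArg (fun φ : SS B' Λ →+* SS B Λ => φ f) h

end HG1

open HG1

variable {I E B Λ k : Type*} [Fintype E] [DecidableEq I] [Fintype B] [DecidableEq B] [CommRing Λ]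
  [IsDomain Λ] [Field k] [CharZero k] [Algebra k Λ]
variable (Q : QD I E B Λ) (S : Scal k Λ)

theorem sK_act (σ : Equiv.Perm B) (f : KK B Λ) : S.sK B (act σ f) = act σ (S.sK B f) := by
  have h : ((S.sK B : KK B Λ ≃+* KK B Λ) : KK B Λ →+* KK B Λ).comp
        ((act σ : KK B Λ ≃+* KK B Λ) : KK B Λ →+* KK B Λ) =
      ((act σ : KK B Λ ≃+* KK B Λ) : KK B Λ →+* KK B Λ).comp
        ((S.sK B : KK B Λ ≃+* KK B Λ) : KK B Λ →+* KK B Λ) := by
    apply IsLocalization.ringHom_ext (nonZeroDivisors (SS B Λ))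
    refine RingHom.ext fun p => ?_
    simp only [RingHom.comp_apply, RingHom.coe_coe]
    rw [act_toK, Scal.sK_toK, Scal.sK_toK, act_toK, sS_rename]
  exact congrArg (fun φ : KK B Λ →+* KK B Λ => φ f) h

theorem hom_mul {d e : ℤ} {f g : KK B Λ} (hf : S.Hom d f) (hg : S.Hom e g) :
    S.Hom (d + e) (f * g) := hom_mul' S hf hg

theorem hom_div {d e : ℤ} {f g : KK B Λ} (hf : S.Hom d f) (hg : S.Hom e g) :
    S.Hom (d - e) (f / g) := hom_div' S hf hg

theorem hom_act {d : ℤ} {f : KK B Λ} (hf : S.Hom d f) (σ : Equiv.Perm B) :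
    S.Hom d (act σ f) := by
  unfold Scal.Hom at *
  rw [sK_act, hf, map_mul, map_zpow₀, map_ofNat]

theorem HG1.hom_xo (o : Option B) : S.Hom 1 (toK (xo Λ o : SS B Λ)) := by
  rcases o with _ | b
  · have : (xo Λ (none : Option B)) = 0 := rfl
    rw [this, HG1.toK_zero]
    exact hom_zero S 1
  · exact hom_X S b

variable {Q S} in
theorem HG1.hom_xi (hS : Q.Lin S) (p : E × B × Option B) : S.Hom 1 (toK (Q.xi p)) := by
  have h1 := HG1.hom_xo S p.2.2
  have h2 := hom_X S p.2.1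
  have h3 : S.Hom ((1 : ℕ) : ℤ) (toK (C (Q.t p.1) : SS B Λ)) :=
    hom_C S (by rw [pow_one]; exact hS p.1)
  unfold QD.xi
  rw [HG1.toK_add, HG1.toK_sub]
  exact hom_add S (hom_sub S h1 h2) h3

theorem HG1.hom_rt (r s : B) : S.Hom 1 (toK (X r - X s : SS B Λ)) := by
  rw [HG1.toK_sub]
  exact hom_sub S (hom_X S r) (hom_X S s)

theorem hom_kap (hS : Q.Lin S) (g : B → ℕ) : S.Hom (Q.degK g) (Q.kap g) := by
  unfold QD.kap QD.degK QD.numG QD.denG
  refine hom_div S ?_ ?_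
  · rw [HG1.toK_prod]
    have := hom_prod S (Q.Wt.filter fun p => g p.2.1 ≠ p.2.2.elim 0 g)
      (fun p => toK (Q.xi p)) (fun _ => 1) fun p _ => HG1.hom_xi hS p
    simpa using this
  · rw [HG1.toK_prod]
    have := hom_prod S (Q.Prs.filter fun p => g p.1 ≠ g p.2)
      (fun p => toK (X p.1 - X p.2 : SS B Λ)) (fun _ => 1) fun p _ => HG1.hom_rt S p.1 p.2
    simpa using this

theorem hom_e (hS : Q.Lin S) (lam : B → ℤ) : S.Hom (Q.degE lam) (Q.e lam) := by
  unfold QD.e QD.degE QD.rho QD.den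
  refine hom_div S ?_ ?_
  · rw [HG1.toK_prod]
    refine hom_prod S _ _ _ fun p _ => ?_
    rw [HG1.toK_pow]
    have := hom_pow S (HG1.hom_xi hS p) (lam p.2.1 - ext lam p.2.2).toNat
    simpa using this
  · rw [HG1.toK_prod]
    refine hom_prod S _ _ _ fun p _ => ?_
    rw [HG1.toK_pow]
    have := hom_pow S (HG1.hom_rt S p.1 p.2) (lam p.1 - lam p.2).toNat
    simpa using this

theorem hom_monomial (m : B →₀ ℕ) :
    S.Hom ((m.sum fun _ n => n : ℕ) : ℤ) (toK (monomial m (1 : Λ))) := by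
  rw [MvPolynomial.monomial_eq, map_one, one_mul, Finsupp.prod, HG1.toK_prod, Finsupp.sum, Nat.cast_sum]
  refine hom_prod S _ _ _ fun b _ => ?_
  rw [HG1.toK_pow]
  have := hom_pow S (hom_X S b) (m b)
  simpa using this

/-- a homogeneous rational function is determined by its degree -/
theorem hom_unique {d e : ℤ} {f : KK B Λ} (hf : S.Hom d f) (hg : S.Hom e f) (h0 : f ≠ 0) :
    d = e := by
  have := HG1.charZero k B Λ
  unfold Scal.Hom at *
  have h1 : (2 : KK B Λ) ^ d = 2 ^ e := mul_right_cancel₀ h0 (hf.symm.trans hg)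
  have h2 : (((2 : ℚ) ^ d : ℚ) : KK B Λ) = (((2 : ℚ) ^ e : ℚ) : KK B Λ) := by
    push_cast; exact h1
  exact zpow_right_injective₀ (by norm_num : (0 : ℚ) < 2) (by norm_num) (Rat.cast_injective h2)

/-- decomposition of polynomials -/
theorem exists_dec (f : SS B Λ) : ∃ F : ℕ →₀ SS B Λ, (∀ d : ℕ, S.Hom (d : ℤ) (toK (F d))) ∧
    f = F.sum fun _ x => x := by
  classical
  have hadd : ∀ f g : SS B Λ, (∃ F : ℕ →₀ SS B Λ, (∀ d : ℕ, S.Hom (d : ℤ) (toK (F d))) ∧
      f = F.sum fun _ x => x) → (∃ F : ℕ →₀ SS B Λ, (∀ d : ℕ, S.Hom (d : ℤ) (toK (F d))) ∧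
      g = F.sum fun _ x => x) → ∃ F : ℕ →₀ SS B Λ, (∀ d : ℕ, S.Hom (d : ℤ) (toK (F d))) ∧
      f + g = F.sum fun _ x => x := by
    rintro f g ⟨F, hF, rfl⟩ ⟨G, hG, rfl⟩
    refine ⟨F + G, fun d => ?_, ?_⟩
    · rw [Finsupp.add_apply, HG1.toK_add]
      exact hom_add S (hF d) (hG d)
    · rw [Finsupp.sum_add_index' (fun _ => rfl) (fun _ _ _ => rfl)]
  have hmon : ∀ (m : B →₀ ℕ) (c : Λ), ∃ F : ℕ →₀ SS B Λ,
      (∀ d : ℕ, S.Hom (d : ℤ) (toK (F d))) ∧ monomial m c = F.sum fun _ x => x := by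
    intro m c
    obtain ⟨g, hg, hc⟩ := S.dec c
    have h1 : monomial m c = ∑ d ∈ g.support, monomial m (g d) := by
      conv_lhs => rw [hc]
      rw [Finsupp.sum, map_sum]
    rw [h1]
    refine Finset.sum_induction _ (fun f => ∃ F : ℕ →₀ SS B Λ,
      (∀ d : ℕ, S.Hom (d : ℤ) (toK (F d))) ∧ f = F.sum fun _ x => x) (fun a b => hadd a b)
      ⟨0, fun d => by rw [Finsupp.zero_apply, HG1.toK_zero]; exact hom_zero S _, by simp⟩
      fun d _ => ?_
    set n := m.sum fun _ n => n with hn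
    refine ⟨Finsupp.single (d + n) (monomial m (g d)), fun d' => ?_, by simp⟩
    by_cases h : d + n = d'
    · subst h
      rw [Finsupp.single_eq_same]
      have h2 : (monomial m (g d) : SS B Λ) = C (g d) * monomial m 1 := by
        rw [C_mul_monomial, mul_one]
      rw [h2, HG1.toK_mul]
      have := hom_mul S (hom_C (B := B) S (hg d)) (hom_monomial S m)
      rw [Nat.cast_add]
      exact this
    · rw [Finsupp.single_eq_of_ne (fun h' => h h'.symm), HG1.toK_zero]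
      exact hom_zero S _
  induction f using MvPolynomial.induction_on' with
  | monomial m c => exact hmon m c
  | add p q hp hq => exact hadd p q hp hq

/-- (N2f) transport to subtypes -/
theorem emb_toK {B' : Type*} (j : B' ↪ B) (f : SS B' Λ) : emb j (toK f) = toK (rename j f) := by
  unfold emb
  exact IsLocalization.map_eq _ f

theorem emb_hom {B' : Type*} (j : B' ↪ B) (d : ℤ) (f : KK B' Λ) :
    S.Hom d (emb j f) ↔ S.Hom d f := by
  have h : ((S.sK B : KK B Λ ≃+* KK B Λ) : KK B Λ →+* KK B Λ).comp (emb j) =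
      (emb j : KK B' Λ →+* KK B Λ).comp
        ((S.sK B' : KK B' Λ ≃+* KK B' Λ) : KK B' Λ →+* KK B' Λ) := by
    apply IsLocalization.ringHom_ext (nonZeroDivisors (SS B' Λ))
    refine RingHom.ext fun p => ?_
    simp only [RingHom.comp_apply, RingHom.coe_coe]
    rw [emb_toK, Scal.sK_toK, Scal.sK_toK, emb_toK, sS_rename]
  have h' : S.sK B (emb j f) = emb j (S.sK B' f) :=
    congrArg (fun φ : KK B' Λ →+* KK B Λ => φ f) h
  unfold Scal.Hom
  rw [h']
  constructor
  · intro h1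
    apply (emb j : KK B' Λ →+* KK B Λ).injective
    rw [h1, map_mul, map_zpow₀, map_ofNat]
  · intro h1
    rw [h1, map_mul, map_zpow₀, map_ofNat]

/-- (N2g) -/
theorem star_hom (hS : Q.Lin S) (U : Finset B) {d : ℤ} {f : KK B Λ} (hf : S.Hom d f) :
    S.Hom (d + Q.degK (QD.ind U)) (Q.star U f) := by
  unfold QD.star
  exact HG1.hom_sum S _ _ _ fun σ _ => hom_act S (hom_mul S hf (hom_kap Q S hS _)) σ

end Vale.Agent.P291
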