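import Vale.Agent.P291.H846.Basis

/-!
# P291: block N1b
-/

set_option linter.unusedSectionVars false

open MvPolynomial

namespace Vale.Agent.P291

variable {I E B Λ : Type*} [Fintype E] [DecidableEq I] [Fintype B] [DecidableEq B] [CommRing Λ]
  [IsDomain Λ]
variable (Q : QD I E B Λ)

/-- (N1b) killing the leading terms in the kernel of the cluster map (inner step of `partII`) -/
theorem lead_step [Algebra ℚ Λ] (hQ : Q.NonzeroLoops) {z : AA B Λ} (hz : Q.A01 z) (N : ℤ)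
    (hN : ∀ mu, z.coeff mu ≠ 0 → nrm mu ≤ N)
    (h : ∀ lam, z.coeff lam ≠ 0 → nrm lam = N → ∃ (h : SS B Λ) (cl : B → B),
      z.coeff lam = toK h * Q.e lam ∧ Q.IsCl lam cl ∧ rename cl h = 0) :
    ∃ y, Q.A01 y ∧ y.coeff 0 = 0 ∧ ∀ mu, (z - y).coeff mu ≠ 0 → nrm mu < N :=
  H846.lead_step hQ N _ hz hN h rfl

end Vale.Agent.P291
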