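import Vale.Agent.P291.H846.Basis

/-!
# P291: block N1c
-/

set_option linter.unusedSectionVars false

open MvPolynomial

namespace Vale.Agent.P291

variable {I E B Λ k : Type*} [Fintype E] [DecidableEq I] [Fintype B] [DecidableEq B] [CommRing Λ]
  [IsDomain Λ] [Field k] [CharZero k] [Algebra k Λ]
variable (Q : QD I E B Λ) (S : Scal k Λ)

/-- (N1c) homogeneous elements with given leading coefficient -/
theorem exists_E [Algebra ℚ Λ] (hS : Q.Lin S) (hQ : Q.NonzeroLoops) {lam : B → ℤ}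
    (hlam : Q.Om lam) (h : SS B Λ) (hh : Q.InvL lam h) (d : ℤ) (hd : S.Hom d (toK h)) :
    ∃ z, Q.A01 z ∧ z.coeff lam = toK h * Q.e lam ∧
      (∀ mu, z.coeff mu ≠ 0 → nrm mu ≤ nrm lam ∧
        (nrm mu = nrm lam → ∃ σ ∈ Q.W, mu = lact σ lam)) ∧
      S.Hom (d + Q.degE lam) (z.coeff 0) := by
  obtain ⟨y, hy, hy'⟩ := H846.exists_lead_hom hQ (H846.compat hS) hlam hh (H846.mem_of_hom hd)
  exact ⟨y, hy.cc, hy.lead, fun mu h => ⟨hy.nrm_le mu h, hy.orb mu h⟩, H846.hom_of_isHom (hy' 0)⟩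

end Vale.Agent.P291
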