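import Vale.Agent.P291.Core2

/-!
# P291, regular layer: definitions (frozen)

The unframed theory of a dimension vector is the framed theory of `Core` with no framing line
(`tgt a ≠ none` for all `a`): then `u^{1_B}` and `u^{-1_B}` lie in `A`, and the cuts are the
nonempty proper subsets of `B`.
-/

open MvPolynomial

namespace Vale.Agent.P291

namespace QD

variable {I E B Λ : Type*} [Fintype E] [DecidableEq I] [Fintype B] [DecidableEq B] [CommRing Λ]
  [IsDomain Λ]
variable (Q : QD I E B Λ)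

/-- no framing line -/
def Unframed : Prop := ∀ a, Q.tgt a ≠ none

/-- cut ideal of the unframed theory -/
noncomputable def ITU : Ideal (SS B Λ) :=
  Ideal.span {f | ∃ U : Finset B, U.Nonempty ∧ U ≠ Finset.univ ∧ f = Q.cut U}

/-- `J_D` of the unframed theory -/
def JDU : Set (SS B Λ) := {f | f ∈ Q.R ∧ Q.D * f ∈ Q.ITU}

/-- dimension vector of a set of boxes -/
def db (U : Finset B) : I → ℕ := fun i => (U.filter fun b => Q.vx b = i).card

end QD

/-- boxes in `V` -/
def bx {B : Type*} [Fintype B] [DecidableEq B] (V : Finset (Option B)) : Finset B :=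
  Finset.univ.filter fun b => some b ∈ V

/-- boxes not in `V` -/
def cb {B : Type*} [Fintype B] [DecidableEq B] (V : Finset (Option B)) : Finset B :=
  Finset.univ.filter fun b => some b ∉ V

namespace QD

variable {I E B Λ : Type*} [Fintype E] [DecidableEq I] [Fintype B] [DecidableEq B] [CommRing Λ]
  [IsDomain Λ]
variable (Q : QD I E B Λ)

/-- Tuples `(V_j)_{j < k}` of charge zero: `V_{j0}` of positive type (`none ∉ V_{j0}`,
`V_{j0} ∩ B ≠ ∅`), all other `V_j` of negative type (`none ∈ V_j`); if `u` holds, also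
`V_{j0} ∩ B ≠ B`. -/
def KT (u : Prop) {k : ℕ} (j0 : Fin k) (V : Fin k → Finset (Option B)) : Prop :=
  none ∉ V j0 ∧ (∀ j, j ≠ j0 → none ∈ V j) ∧ (bx (V j0)).Nonempty ∧
  Q.db (bx (V j0)) = ∑ j ∈ Finset.univ.erase j0, Q.db (cb (V j)) ∧
  (u → (cb (V j0)).Nonempty)

/-- span of the tuple sums of type `KT` -/
noncomputable def KS (u : Prop) : Submodule Λ (AA B Λ) :=
  Submodule.span Λ {z | ∃ (k : ℕ) (j0 : Fin k) (τ : (Fin k → Finset (Option B)) → SS B Λ),
    τ ∈ Q.Dec k ∧ (∀ V, τ V ≠ 0 → Q.KT u j0 V) ∧ z = Q.MT k τ}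

/-- the quiver data with generic masses `t_a + T_a` -/
noncomputable def gen : QD I E B (MvPolynomial E Λ) where
  src := Q.src
  tgt := Q.tgt
  vx := Q.vx
  t := fun a => C (Q.t a) + X a

/-- Specialisation `T → 0` -/
noncomputable def spec0 (E B Λ : Type*) [CommRing Λ] : SS B (MvPolynomial E Λ) →+* SS B Λ :=
  MvPolynomial.map MvPolynomial.constantCoeff

/-- `J_H = ` specialisation of `J_D` of the generic masses -/
def JH : Set (SS B Λ) := {f | ∃ f' ∈ Q.gen.JD, spec0 E B Λ f' = f}

/-- unframed `J_H` -/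
def JHU : Set (SS B Λ) := {f | ∃ f' ∈ Q.gen.JDU, spec0 E B Λ f' = f}

/-- restriction of the quiver data to a set of boxes, framing kept -/
def res (P : Finset B) : QD I E {b // b ∈ P} Λ where
  src := Q.src
  tgt := Q.tgt
  vx := fun b => Q.vx b
  t := Q.t

/-- restriction of the quiver data to a set of boxes, framing removed -/
def resU (P : Finset B) : QD I {a : E // Q.tgt a ≠ none} {b // b ∈ P} Λ where
  src := fun a => Q.src a
  tgt := fun a => Q.tgt a
  vx := fun b => Q.vx b
  t := fun a => Q.t a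

/-- power sum over the boxes of `U` at the vertex `i` -/
noncomputable def pws (n : ℕ) (i : I) (U : Finset B) : SS B Λ :=
  ∑ b ∈ U.filter (fun b => Q.vx b = i), X b ^ n

/-- power sums of `B` (index `none`) and of the complements `cb (V j)` -/
noncomputable def pwv {k : ℕ} (V : Fin k → Finset (Option B)) :
    Option (Fin k) × ℕ × I → SS B Λ :=
  fun p => Q.pws p.2.1 p.2.2 (p.1.elim Finset.univ fun j => cb (V j))

/-- algebra of the functions of tuples generated by all these power sums -/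
noncomputable def DA (k : ℕ) : Subalgebra Λ ((Fin k → Finset (Option B)) → SS B Λ) :=
  Algebra.adjoin Λ {f | ∃ p, f = fun V => Q.pwv V p}

/-- the excess exponent of a tuple of cocharacters at a pair of (extended) boxes -/
def kx {k : ℕ} (V : Fin k → Finset (Option B)) (r s : Option B) : ℕ :=
  (∑ j, (ext (lamV (V j)) r - ext (lamV (V j)) s).toNat) -
    (ext (∑ j, lamV (V j)) r - ext (∑ j, lamV (V j)) s).toNat

/-- numerator of the excess factor -/
noncomputable def KN {k : ℕ} (V : Fin k → Finset (Option B)) : SS B Λ :=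
  ∏ p ∈ Q.Wt, Q.xi p ^ kx V (some p.2.1) p.2.2

/-- denominator of the excess factor -/
noncomputable def KD {k : ℕ} (V : Fin k → Finset (Option B)) : SS B Λ :=
  ∏ p ∈ Q.Prs, (X p.1 - X p.2 : SS B Λ) ^ kx V (some p.1) (some p.2)

/-- generators of charge `n` -/
def Gp (n : I → ℕ) : Set (AA B Λ) :=
  {z | ∃ F ∈ Q.Eqv, (∀ V, F V ≠ 0 → none ∉ V ∧ Q.db (bx V) = n) ∧ z = Q.M F}

/-- generators of charge `-n` -/
def Gm (n : I → ℕ) : Set (AA B Λ) :=
  {z | ∃ F ∈ Q.Eqv, (∀ V, F V ≠ 0 → none ∈ V ∧ Q.db (cb V) = n) ∧ z = Q.M F}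

/-- the `A`-submodules spanned by the generators of charge `n` -/
noncomputable def SGp (n : I → ℕ) : Submodule Q.A (AA B Λ) := Submodule.span Q.A (Q.Gp n)

/-- the `A`-submodules spanned by the generators of charge `-n` -/
noncomputable def SGm (n : I → ℕ) : Submodule Q.A (AA B Λ) := Submodule.span Q.A (Q.Gm n)

/-- `ν`-weight of a cocharacter -/
def wt (ν : I → ℤ) (lam : B → ℤ) : ℤ := ∑ b, ν (Q.vx b) * lam b

/-- `J_ν`: `A`-span of the generators of nonzero `ν`-weight -/
noncomputable def JN (ν : I → ℤ) : Submodule Q.A (AA B Λ) :=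
  Submodule.span Q.A {z | ∃ F ∈ Q.Eqv, (∀ V, F V ≠ 0 → Q.wt ν (lamV V) ≠ 0) ∧ z = Q.M F}

/-- The regularity condition: for every decomposition `v = n_0 + n_1 + … + n_k`, `k ≥ 1`,
`n_j ≠ 0`, `ν·n_j = 0` for `j ≥ 1` (given by a colouring of the boxes), the (cohomology ring of the)
moduli space of one of the pieces is zero: `n_0` framed, `n_j` unframed. -/
def Reg (ν : I → ℤ) : Prop := ∀ g : B → ℕ, g ≠ 0 →
  (∀ j, j ≠ 0 → ∑ b ∈ Finset.univ.filter (fun b => g b = j), ν (Q.vx b) = 0) →
  (1 : SS {b // b ∈ Finset.univ.filter (fun b => g b = 0)} Λ) ∈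
      (Q.res (Finset.univ.filter fun b => g b = 0)).JH ∨
  ∃ j, j ≠ 0 ∧ (∃ b, g b = j) ∧
    (1 : SS {b // b ∈ Finset.univ.filter (fun b => g b = j)} Λ) ∈
      (Q.resU (Finset.univ.filter fun b => g b = j)).JHU

end QD

end Vale.Agent.P291
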