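import Vale.Agent.P291.H882.Root
import Vale.Agent.P291.RCore

/-!
# P291, block R11: the root lemma in the format of `Core` and `RCore`
-/

open MvPolynomial

set_option linter.unusedSectionVars false

namespace Vale.Agent.P291

namespace R11

open H882

section framed

variable {I E B Λ : Type*} [Fintype E] [DecidableEq I] [Fintype B] [DecidableEq B] [CommRing Λ]
  [IsDomain Λ]
variable (Q : QD I E B Λ)

/-- the framed quiver on `Option I` -/
def fr : UQ (Option I) E Λ where
  src := fun a => some (Q.src a)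
  tgt := Q.tgt
  t := Q.t

/-- the point `x_none = 0` -/
noncomputable def psi : MvPolynomial (Option B) Λ →ₐ[Λ] SS B Λ := aeval (xo Λ)

theorem psi_X (o : Option B) : psi (Λ := Λ) (X o) = xo Λ o := by simp [psi]

theorem psi_form (e : Edge Λ (Option B)) :
    psi (form e) = xo Λ e.1 - xo Λ e.2.1 + C e.2.2 := by
  simp [form, psi, MvPolynomial.algebraMap_eq]

theorem psi_D : psi (Dx Λ Q.vo) = Q.D := by
  classical
  have hDx : Dx Λ Q.vo = ∏ p ∈ (Finset.univ : Finset (Option B × Option B)).filter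
      (fun p => p.1 ≠ p.2 ∧ Q.vo p.1 = Q.vo p.2), (X p.1 - X p.2) := by
    unfold Dx
    apply Finset.prod_congr _ (fun _ _ => rfl)
    ext p
    simp only [Finset.mem_filter]
  rw [hDx]
  unfold QD.D
  rw [map_prod]
  symm
  refine Finset.prod_bij (fun p _ => (some p.1, some p.2)) ?_ ?_ ?_ ?_
  · rintro ⟨r, s⟩ h
    rw [Finset.mem_filter] at h
    have h1 : Q.vx r = Q.vx s := (Finset.mem_filter.1 h.1).2
    rw [Finset.mem_filter]
    refine ⟨Finset.mem_univ _, ?_, ?_⟩
    · intro h2
      exact h.2 (Option.some_injective _ h2)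
    · show some (Q.vx r) = some (Q.vx s)
      rw [h1]
  · rintro ⟨r, s⟩ _ ⟨r', s'⟩ _ h
    simp only [Prod.mk.injEq, Option.some.injEq] at h
    rw [h.1, h.2]
  · rintro ⟨r, s⟩ h
    rw [Finset.mem_filter] at h
    obtain ⟨_, h1, h2⟩ := h
    rcases r with _ | r
    · rcases s with _ | s
      · exact absurd rfl h1
      · exact absurd h2 (by simp [QD.vo])
    · rcases s with _ | s
      · exact absurd h2 (by simp [QD.vo])
      · refine ⟨(r, s), ?_, rfl⟩
        rw [Finset.mem_filter]
        refine ⟨?_, fun h3 => h1 (congrArg some h3)⟩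
        exact Finset.mem_filter.2 ⟨Finset.mem_univ _, Option.some_injective _ h2⟩
  · rintro ⟨r, s⟩ _
    rw [map_sub, psi_X, psi_X]
    rfl

theorem psi_Y (U : Set (Option B)) (U' : Finset B)
    (hU' : ∀ b, b ∈ U' ↔ ¬ (some b ∈ U ↔ none ∈ U)) :
    psi (Y ((fr Q).L Q.vo) U) = Q.cut U' := by
  classical
  have hY : Y ((fr Q).L Q.vo) U = ∏ p ∈ ((Finset.univ :
      Finset (E × Option B × Option B)).filter
        (fun p => Q.vo p.2.1 = (fr Q).src p.1 ∧ Q.vo p.2.2 = (fr Q).tgt p.1)).filter
        (fun p => cuts U ((p.2.2, p.2.1, (fr Q).t p.1) : Edge Λ (Option B))),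
        form (p.2.2, p.2.1, (fr Q).t p.1) := by
    unfold UQ.L
    rw [Y_finset]
    apply Finset.prod_congr _ (fun _ _ => rfl)
    ext p
    simp only [Finset.mem_filter]
  rw [hY]
  unfold QD.cut
  rw [map_prod]
  symm
  refine Finset.prod_bij (fun p _ => (p.1, some p.2.1, p.2.2)) ?_ ?_ ?_ ?_
  · rintro ⟨a, r, s⟩ h
    rw [Finset.mem_filter] at h
    have h1 : Q.vx r = Q.src a ∧ Q.vo s = Q.tgt a := (Finset.mem_filter.1 h.1).2
    rw [Finset.mem_filter, Finset.mem_filter]
    refine ⟨⟨Finset.mem_univ _, ?_, h1.2⟩, ?_⟩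
    · show some (Q.vx r) = some (Q.src a)
      rw [h1.1]
    · have h2 := h.2
      simp only [hU'] at h2
      unfold cuts
      simp only
      rcases s with _ | s
      · simp only [reduceCtorEq, and_false, exists_false, iff_false, not_not] at h2
        tauto
      · simp only [Option.some.injEq, exists_eq_right'] at h2
        tauto
  · rintro ⟨a, r, s⟩ _ ⟨a', r', s'⟩ _ h
    simp only [Prod.mk.injEq, Option.some.injEq] at h
    rw [h.1, h.2.1, h.2.2]
  · rintro ⟨a, r, s⟩ h
    rw [Finset.mem_filter, Finset.mem_filter] at h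
    obtain ⟨⟨_, h1, h2⟩, h3⟩ := h
    rcases r with _ | r
    · exact absurd h1 (by simp [QD.vo, fr])
    · refine ⟨(a, r, s), ?_, rfl⟩
      rw [Finset.mem_filter]
      refine ⟨Finset.mem_filter.2 ⟨Finset.mem_univ _, Option.some_injective _ h1, h2⟩, ?_⟩
      simp only [hU']
      unfold cuts at h3
      simp only at h3
      rcases s with _ | s
      · simp only [reduceCtorEq, and_false, exists_false, iff_false, not_not]
        tauto
      · simp only [Option.some.injEq, exists_eq_right']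
        tauto
  · rintro ⟨a, r, s⟩ _
    rw [psi_form]
    rfl

/-- the root lemma, framed -/
theorem framed (hQ : Gen (fr Q)) (h : ¬ IsRoot (fun a => some (Q.src a)) Q.tgt (dimv Q.vo)) :
    Q.D ∈ Q.IT := by
  classical
  have h1 := root_lemma (fr Q) hQ Q.vo h
  unfold UQ.Good at h1
  rw [← psi_D]
  have : cutI ((fr Q).L Q.vo) ≤ Q.IT.comap psi := by
    unfold cutI
    rw [Ideal.span_le]
    rintro z ⟨U, hU, hU', rfl⟩
    rw [SetLike.mem_coe, Ideal.mem_comap]
    rw [psi_Y Q U (Finset.univ.filter (fun b => ¬ (some b ∈ U ↔ none ∈ U))) (by simp)]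
    refine Ideal.subset_span ⟨_, ?_, rfl⟩
    by_contra hemp
    rw [Finset.not_nonempty_iff_eq_empty, Finset.filter_eq_empty_iff] at hemp
    have hall : ∀ b, (some b ∈ U ↔ none ∈ U) := fun b => not_not.1 (hemp (Finset.mem_univ b))
    obtain ⟨x, hx⟩ := hU
    obtain ⟨y, hy⟩ := hU'
    have hn : none ∈ U := by
      rcases x with _ | x
      · exact hx
      · exact (hall x).1 hx
    apply hy
    rcases y with _ | y
    · exact hn
    · exact (hall y).2 hn
  exact this h1

end framed

section unframed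

variable {I E B Λ : Type*} [Fintype E] [DecidableEq I] [Fintype B] [DecidableEq B] [CommRing Λ]
  [IsDomain Λ]
variable (Q : QD I E B Λ)

/-- the unframed quiver on `I` -/
def un (tgt : E → I) : UQ I E Λ where
  src := Q.src
  tgt := tgt
  t := Q.t

theorem Dx_eq : Dx Λ Q.vx = Q.D := by
  classical
  unfold Dx QD.D QD.Prs
  rw [Finset.filter_filter]
  apply Finset.prod_congr _ (fun _ _ => rfl)
  ext p
  simp only [Finset.mem_filter, Finset.mem_univ, true_and]
  tauto

theorem Y_eq (tgt : E → I) (ht : ∀ a, Q.tgt a = some (tgt a)) (U : Set B) (U' : Finset B)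
    (hU' : ∀ b, b ∈ U' ↔ b ∈ U) : Y ((un Q tgt).L Q.vx) U = Q.cut U' := by
  classical
  have hY : Y ((un Q tgt).L Q.vx) U = ∏ p ∈ ((Finset.univ :
      Finset (E × B × B)).filter
        (fun p => Q.vx p.2.1 = (un Q tgt).src p.1 ∧ Q.vx p.2.2 = (un Q tgt).tgt p.1)).filter
        (fun p => cuts U ((p.2.2, p.2.1, (un Q tgt).t p.1) : Edge Λ B)),
        form (p.2.2, p.2.1, (un Q tgt).t p.1) := by
    unfold UQ.L
    rw [Y_finset]
    apply Finset.prod_congr _ (fun _ _ => rfl)
    ext p
    simp only [Finset.mem_filter]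
  rw [hY]
  unfold QD.cut
  refine Finset.prod_bij (fun p _ => (p.1, p.2.1, some p.2.2)) ?_ ?_ ?_ ?_
  · rintro ⟨a, r, s⟩ h
    rw [Finset.mem_filter, Finset.mem_filter] at h
    obtain ⟨⟨_, h1, h2⟩, h3⟩ := h
    rw [Finset.mem_filter]
    refine ⟨Finset.mem_filter.2 ⟨Finset.mem_univ _, h1, ?_⟩, ?_⟩
    · rw [ht]
      exact congrArg some h2
    · unfold cuts at h3
      simp only at h3
      simp only [Option.some.injEq, exists_eq_right', hU']
      tauto
  · rintro ⟨a, r, s⟩ _ ⟨a', r', s'⟩ _ h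
    simp only [Prod.mk.injEq, Option.some.injEq] at h
    rw [h.1, h.2.1, h.2.2]
  · rintro ⟨a, r, s⟩ h
    rw [Finset.mem_filter] at h
    have h1 : Q.vx r = Q.src a ∧ Q.vo s = Q.tgt a := (Finset.mem_filter.1 h.1).2
    rcases s with _ | s
    · exact absurd h1.2 (by rw [ht]; simp [QD.vo])
    · refine ⟨(a, r, s), ?_, rfl⟩
      rw [Finset.mem_filter, Finset.mem_filter]
      refine ⟨⟨Finset.mem_univ _, h1.1, ?_⟩, ?_⟩
      · have := h1.2
        rw [ht] at this
        exact Option.some_injective _ this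
      · have h3 := h.2
        unfold cuts
        simp only [Option.some.injEq, exists_eq_right', hU'] at h3 ⊢
        tauto
  · rintro ⟨a, r, s⟩ _
    rfl

/-- the root lemma, unframed -/
theorem unframed [Nonempty B] (tgt : E → I) (ht : ∀ a, Q.tgt a = some (tgt a))
    (hQ : Gen (un Q tgt)) (h : ¬ IsRoot Q.src tgt (dimv Q.vx)) : Q.D ∈ Q.ITU := by
  classical
  have h1 := root_lemma (un Q tgt) hQ Q.vx h
  unfold UQ.Good at h1
  rw [Dx_eq] at h1
  have : cutI ((un Q tgt).L Q.vx) ≤ Q.ITU := by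
    unfold cutI
    rw [Ideal.span_le]
    rintro z ⟨U, hU, hU', rfl⟩
    rw [SetLike.mem_coe, Y_eq Q tgt ht U (Finset.univ.filter (fun b => b ∈ U)) (by simp)]
    refine Ideal.subset_span ⟨_, ?_, ?_, rfl⟩
    · obtain ⟨x, hx⟩ := hU
      exact ⟨x, by simpa using hx⟩
    · obtain ⟨y, hy⟩ := hU'
      intro h2
      apply hy
      have := Finset.mem_univ y
      rw [← h2] at this
      simpa using this
  exact this h1

end unframed

end R11

end Vale.Agent.P291
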