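import Vale.Agent.P291.R11Blk

/-!
# P291, block R12: regularity by roots implies `Reg`
-/

open MvPolynomial

set_option linter.unusedSectionVars false

namespace Vale.Agent.P291

open H882

section masses

variable {E Λ : Type*} [CommRing Λ] [IsDomain Λ]

/-- the masses `t_a + T_a` are generic -/
theorem gen_masses (t : E → Λ) (e e' : E) (h : e ≠ e') :
    (C (t e) + X e : MvPolynomial E Λ) ≠ C (t e') + X e' ∧
      (C (t e) + X e : MvPolynomial E Λ) + (C (t e') + X e') ≠ 0 := by
  classical
  have hs : Finsupp.single e' 1 ≠ (Finsupp.single e 1 : E →₀ ℕ) := by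
    intro h1
    have := (Finsupp.single_eq_single_iff _ _ _ _).1 h1
    rcases this with h2 | h2
    · exact h h2.1.symm
    · exact one_ne_zero h2.1
  have h0 : (0 : E →₀ ℕ) ≠ Finsupp.single e 1 := by
    intro h1
    have := DFunLike.congr_fun h1 e
    simp at this
  constructor
  · intro h1
    have := congrArg (coeff (Finsupp.single e 1)) h1
    rw [coeff_add, coeff_add, coeff_C, coeff_C, if_neg h0, if_neg h0, coeff_X, coeff_X,
      if_pos rfl, if_neg hs, zero_add, zero_add] at this
    exact one_ne_zero this
  · intro h1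
    have := congrArg (coeff (Finsupp.single e 1)) h1
    rw [coeff_add, coeff_add, coeff_add, coeff_C, coeff_C, if_neg h0, if_neg h0, coeff_X,
      coeff_X, if_pos rfl, if_neg hs, zero_add, zero_add, add_zero, coeff_zero] at this
    exact one_ne_zero this

end masses

theorem dimv_eq {J O : Type*} [Fintype O] [DecidableEq J] (vx : O → J) (j : J) :
    dimv vx j = ((Finset.univ.filter (fun o => vx o = j)).card : ℤ) := by
  unfold dimv
  congr

namespace QD

variable {I E B Λ : Type*} [Fintype E] [DecidableEq I] [Fintype B] [DecidableEq B] [CommRing Λ]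
  [IsDomain Λ]
variable (Q : QD I E B Λ)

/-- target of an arrow which is not a framing line -/
def tg (a : {a : E // Q.tgt a ≠ none}) : I := (Q.tgt a.1).get (Option.ne_none_iff_isSome.1 a.2)

/-- roots of the quiver -/
def RootU (α : I → ℤ) : Prop := IsRoot (fun a : {a : E // Q.tgt a ≠ none} => Q.src a.1) Q.tg α

/-- roots `(1, α)` of the framed quiver, whose extra vertex is `none` -/
def RootF (α : I → ℤ) : Prop := IsRoot (fun a => some (Q.src a)) Q.tgt (fun o => o.elim 1 α)

/-- number of boxes -/
def vv (i : I) : ℤ := ((Finset.univ.filter (fun b => Q.vx b = i)).card : ℤ)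

/-- `ν` is root-regular: for every nonzero `β ≤ v` which is a sum of positive roots orthogonal
to `ν`, the vector `(1, v - β)` is not a root of the framed quiver. -/
def RootReg [Fintype I] (ν : I → ℤ) : Prop :=
  ∀ β : I → ℤ, β ≠ 0 → (∀ i, β i ≤ Q.vv i) →
    β ∈ AddSubmonoid.closure {α | (∀ i, 0 ≤ α i) ∧ Q.RootU α ∧ ∑ i, ν i * α i = 0} →
      ¬ Q.RootF (fun i => Q.vv i - β i)

theorem one_mem_JH (h : ¬ Q.RootF Q.vv) : (1 : SS B Λ) ∈ Q.JH := by
  refine ⟨1, ⟨Subalgebra.one_mem _, ?_⟩, map_one _⟩
  rw [mul_one]
  refine R11.framed Q.gen (fun e e' he => gen_masses Q.t e e' he) ?_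
  intro h1
  apply h
  have : dimv Q.gen.vo = fun o => o.elim 1 Q.vv := by
    classical
    funext o
    rcases o with _ | i
    · rw [dimv_eq]
      have : (Finset.univ.filter (fun o => Q.gen.vo o = none)) = {none} := by
        ext x
        rcases x with _ | b
        · simp [QD.vo]
        · simp [QD.vo]
      rw [this]; rfl
    · rw [dimv_eq]
      unfold vv
      have : (Finset.univ.filter (fun o => Q.gen.vo o = some i)) =
          (Finset.univ.filter (fun b => Q.vx b = i)).map Function.Embedding.some := by
        ext x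
        rcases x with _ | b
        · simp [QD.vo]
        · simp [QD.vo, gen]
      rw [this, Finset.card_map]
      rfl
  rw [this] at h1
  exact h1

theorem one_mem_JHU [Nonempty B] (tgt : E → I) (ht : ∀ a, Q.tgt a = some (tgt a))
    (h : ¬ IsRoot Q.src tgt Q.vv) : (1 : SS B Λ) ∈ Q.JHU := by
  refine ⟨1, ⟨Subalgebra.one_mem _, ?_⟩, map_one _⟩
  rw [mul_one]
  refine R11.unframed Q.gen tgt ht (fun e e' he => gen_masses Q.t e e' he) ?_
  intro h1
  apply h
  have : dimv Q.gen.vx = Q.vv := by
    funext i
    rw [dimv_eq]
    rfl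
  rw [← this]
  exact h1

/-- **Root regularity implies the algebraic regularity condition.** -/
theorem reg_of_rootReg [Fintype I] (ν : I → ℤ) (h : Q.RootReg ν) : Q.Reg ν := by
  classical
  intro g hg hν
  -- dimension vectors of the colour classes
  let d : ℕ → I → ℤ := fun j i => ((Finset.univ.filter (fun b => g b = j ∧ Q.vx b = i)).card : ℤ)
  have hd0 : ∀ j i, 0 ≤ d j i := fun j i => by positivity
  have hdP : ∀ j i, (((Finset.univ : Finset {b // b ∈ Finset.univ.filter (fun b => g b = j)}).filter
      (fun b : {b // b ∈ Finset.univ.filter (fun b => g b = j)} => Q.vx b.1 = i)).card : ℤ) =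
        d j i := by
    intro j i
    show (_ : ℤ) = (_ : ℤ)
    congr 1
    refine Finset.card_bij (fun x _ => x.1) ?_ ?_ ?_
    · intro x hx
      rw [Finset.mem_filter] at hx ⊢
      exact ⟨Finset.mem_univ _, (Finset.mem_filter.1 x.2).2, hx.2⟩
    · intro x _ y _ hxy
      exact Subtype.ext hxy
    · intro b hb
      rw [Finset.mem_filter] at hb
      exact ⟨⟨b, Finset.mem_filter.2 ⟨Finset.mem_univ _, hb.2.1⟩⟩,
        Finset.mem_filter.2 ⟨Finset.mem_univ _, hb.2.2⟩, rfl⟩
  by_cases hall : ∀ j, j ≠ 0 → (∃ b, g b = j) → Q.RootU (d j)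
  · left
    apply one_mem_JH
    -- the sum of the other classes
    let s : Finset ℕ := (Finset.univ.image g).erase 0
    let β : I → ℤ := ∑ j ∈ s, d j
    have hsum : ∀ i, Q.vv i = d 0 i + β i := by
      intro i
      have h1 : Q.vv i = ∑ j ∈ insert 0 (Finset.univ.image g), d j i := by
        unfold vv
        rw [Finset.card_eq_sum_card_fiberwise (f := g)
          (t := insert 0 (Finset.univ.image g))]
        · push_cast
          apply Finset.sum_congr rfl
          intro j _
          rw [Finset.filter_filter]
          show ((Finset.univ.filter (fun b => Q.vx b = i ∧ g b = j)).card : ℤ) = d j i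
          congr 2
          ext b
          simp only [Finset.mem_filter, Finset.mem_univ, true_and]
          tauto
        · intro b _
          simp
      rw [h1]
      have h2 : insert 0 (Finset.univ.image g) = insert 0 s := by
        ext j
        by_cases hj : j = 0 <;> simp [s, hj]
      rw [h2, Finset.sum_insert (by simp [s])]
      simp only [β, Finset.sum_apply]
    have hβ0 : β ≠ 0 := by
      obtain ⟨b, hb⟩ : ∃ b, g b ≠ 0 := by
        by_contra hcon
        push Not at hcon
        exact hg (funext hcon)
      intro h0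
      have h1 : β (Q.vx b) = 0 := congrFun h0 _
      have h2 : d (g b) (Q.vx b) ≤ β (Q.vx b) := by
        simp only [β, Finset.sum_apply]
        exact Finset.single_le_sum (f := fun j => d j (Q.vx b)) (fun j _ => hd0 j _)
          (by simp [s, hb])
      have h3 : 0 < d (g b) (Q.vx b) := by
        have : 0 < (Finset.univ.filter (fun b' => g b' = g b ∧ Q.vx b' = Q.vx b)).card :=
          Finset.card_pos.2 ⟨b, by simp⟩
        show (0 : ℤ) < ((Finset.univ.filter (fun b' => g b' = g b ∧ Q.vx b' = Q.vx b)).card : ℤ)
        exact_mod_cast this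
      omega
    have hβc : β ∈ AddSubmonoid.closure
        {α | (∀ i, 0 ≤ α i) ∧ Q.RootU α ∧ ∑ i, ν i * α i = 0} := by
      apply AddSubmonoid.sum_mem
      intro j hj
      have hj0 : j ≠ 0 := (Finset.mem_erase.1 hj).1
      obtain ⟨b, _, hb⟩ := Finset.mem_image.1 (Finset.mem_erase.1 hj).2
      refine AddSubmonoid.subset_closure ⟨hd0 j, hall j hj0 ⟨b, hb⟩, ?_⟩
      rw [← hν j hj0]
      have h1 : ∀ i, ν i * d j i = ∑ b ∈ (Finset.univ.filter (fun b => g b = j)).filter
          (fun b => Q.vx b = i), ν (Q.vx b) := by
        intro i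
        rw [Finset.sum_congr rfl (g := fun _ => ν i)
          (fun b hb => by rw [(Finset.mem_filter.1 hb).2])]
        rw [Finset.sum_const, Finset.filter_filter, nsmul_eq_mul, mul_comm]
      rw [Finset.sum_congr rfl (fun i _ => h1 i)]
      exact Finset.sum_fiberwise _ _ _
    have h1 := h β hβ0 (fun i => by rw [hsum i]; linarith [hd0 0 i]) hβc
    intro h2
    apply h1
    have h3 : (Q.res (Finset.univ.filter fun b => g b = 0)).vv = fun i => Q.vv i - β i := by
      funext i
      rw [hsum i]
      have := hdP 0 i
      unfold vv res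
      simp only
      rw [this]; ring
    rw [h3] at h2
    exact h2
  · right
    push Not at hall
    obtain ⟨j, hj0, ⟨b, hb⟩, hj⟩ := hall
    refine ⟨j, hj0, ⟨b, hb⟩, ?_⟩
    have : Nonempty {b // b ∈ Finset.univ.filter (fun b => g b = j)} := ⟨⟨b, by simp [hb]⟩⟩
    refine one_mem_JHU _ Q.tg ?_ ?_
    · intro a
      unfold tg resU
      simp
    · intro h2
      apply hj
      have h3 : (Q.resU (Finset.univ.filter fun b => g b = j)).vv = d j := by
        funext i
        have := hdP j i
        unfold vv resU
        simp only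
        rw [this]
      rw [h3] at h2
      exact h2

end QD

end Vale.Agent.P291
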