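import Vale.Agent.P291.R12Blk

/-!
# P291, block R13: Nakajima's genericity condition implies root regularity
-/

open MvPolynomial

set_option linter.unusedSectionVars false

namespace Vale.Agent.P291

namespace H882

section form

variable {J E : Type*} [Fintype E] [Fintype J] (src tgt : E → J)

/-- `(α, α) = 2 ∑ α_j² - 2 ∑_a α_{src a} α_{tgt a}` -/
def qf (α : J → ℤ) : ℤ := 2 * ∑ j, α j ^ 2 - 2 * ∑ e, α (src e) * α (tgt e)

theorem qf_neg (α : J → ℤ) : qf src tgt (-α) = qf src tgt α := by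
  simp [qf]

theorem sum_nb (α : J → ℤ) : ∑ j, α j * nb src tgt α j = 2 * ∑ e, α (src e) * α (tgt e) := by
  classical
  unfold nb
  simp_rw [Finset.mul_sum]
  rw [Finset.sum_comm]
  apply Finset.sum_congr rfl
  intro e _
  simp_rw [mul_add, mul_ite, mul_zero]
  rw [Finset.sum_add_distrib, Finset.sum_ite_eq, Finset.sum_ite_eq]
  simp only [Finset.mem_univ, if_true]
  ring

open scoped Classical in
theorem qf_simple {i : J} (hi : LoopFree src tgt i) :
    qf src tgt (Pi.single i 1) = 2 := by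
  unfold qf
  have h1 : ∑ j, (Pi.single i (1 : ℤ) : J → ℤ) j ^ 2 = 1 := by
    rw [Finset.sum_eq_single i]
    · simp
    · intro j _ hj
      rw [Pi.single_eq_of_ne hj]; ring
    · intro h; exact absurd (Finset.mem_univ i) h
  have h2 : ∑ e, (Pi.single i (1 : ℤ) : J → ℤ) (src e) * (Pi.single i (1 : ℤ) : J → ℤ) (tgt e)
      = 0 := by
    apply Finset.sum_eq_zero
    intro e _
    by_cases h : src e = i
    · have h3 : tgt e ≠ i := fun h4 => hi e ⟨h, h4⟩
      rw [Pi.single_eq_of_ne h3, mul_zero]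
    · rw [Pi.single_eq_of_ne h, zero_mul]
  rw [h1, h2]; ring

theorem qf_fund {α : J → ℤ} (h : Fund src tgt α) : qf src tgt α ≤ 0 := by
  obtain ⟨_, h0, _, h1⟩ := h
  have h2 : qf src tgt α = ∑ j, α j * (2 * α j - nb src tgt α j) := by
    unfold qf
    simp_rw [mul_sub]
    rw [Finset.sum_sub_distrib, sum_nb, Finset.mul_sum]
    congr 1
    apply Finset.sum_congr rfl
    intro j _; ring
  rw [h2]
  apply Finset.sum_nonpos
  intro j _
  exact mul_nonpos_of_nonneg_of_nonpos (h0 j) (by linarith [h1 j])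

theorem qf_sref {i : J} (hi : LoopFree src tgt i) (α : J → ℤ) :
    qf src tgt (sref src tgt i α) = qf src tgt α := by
  classical
  set c := nb src tgt α i - 2 * α i with hc
  have hα : ∀ j, sref src tgt i α j = α j + c * (Pi.single i (1 : ℤ) : J → ℤ) j := by
    intro j
    unfold sref
    by_cases hj : j = i
    · subst hj
      rw [Function.update_self, Pi.single_eq_same]; ring
    · rw [Function.update_of_ne hj, Pi.single_eq_of_ne hj]; ring
  have h1 : ∑ j, sref src tgt i α j ^ 2 = ∑ j, α j ^ 2 + 2 * c * α i + c ^ 2 := by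
    have : ∀ j, sref src tgt i α j ^ 2 = α j ^ 2 +
        (if j = i then 2 * c * α i + c ^ 2 else 0) := by
      intro j
      rw [hα]
      by_cases hj : j = i
      · subst hj
        rw [Pi.single_eq_same, if_pos rfl]; ring
      · rw [Pi.single_eq_of_ne hj, if_neg hj]; ring
    rw [Finset.sum_congr rfl (fun j _ => this j), Finset.sum_add_distrib,
      Finset.sum_ite_eq' Finset.univ i]
    simp only [Finset.mem_univ, if_true]
    ring
  have h2 : ∑ e, sref src tgt i α (src e) * sref src tgt i α (tgt e) =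
      ∑ e, α (src e) * α (tgt e) + c * nb src tgt α i := by
    unfold nb
    rw [Finset.mul_sum, ← Finset.sum_add_distrib]
    apply Finset.sum_congr rfl
    intro e _
    rw [hα, hα]
    by_cases h3 : src e = i
    · have h4 : tgt e ≠ i := fun h4 => hi e ⟨h3, h4⟩
      rw [if_pos h3, if_neg h4, Pi.single_eq_of_ne h4, h3, Pi.single_eq_same]; ring
    · by_cases h4 : tgt e = i
      · rw [if_neg h3, if_pos h4, Pi.single_eq_of_ne h3, h4, Pi.single_eq_same]; ring
      · rw [if_neg h3, if_neg h4, Pi.single_eq_of_ne h3, Pi.single_eq_of_ne h4]; ring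
  unfold qf
  rw [h1, h2, hc]; ring

/-- `(α, α) ≤ 2` for roots -/
theorem qf_le {α : J → ℤ} (h : IsRoot src tgt α) : qf src tgt α ≤ 2 := by
  induction h with
  | simple i h => exact (qf_simple src tgt h).le
  | fund α h => linarith [qf_fund src tgt h]
  | neg α _ ih => rw [qf_neg]; exact ih
  | sref i α hi _ ih => rw [qf_sref src tgt hi]; exact ih

open scoped Classical in
theorem root_ne_zero {α : J → ℤ} (h : IsRoot src tgt α) : α ≠ 0 := by
  induction h with
  | simple i h =>
    intro h0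
    have := congrFun h0 i
    rw [Pi.single_eq_same] at this
    exact one_ne_zero this
  | fund α h => exact h.1
  | neg α _ ih => exact neg_ne_zero.2 ih
  | sref i α hi _ ih =>
    intro h0
    apply ih
    rw [← sref_sref src tgt hi α, h0]
    funext j
    unfold sref nb
    by_cases hj : j = i
    · subst hj; simp
    · rw [Function.update_of_ne hj]

end form

end H882

open H882

namespace QD

variable {I E B Λ : Type*} [Fintype E] [DecidableEq I] [Fintype B] [DecidableEq B] [CommRing Λ]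
  [IsDomain Λ]
variable (Q : QD I E B Λ)

/-- Nakajima's condition: `ν · θ ≠ 0` for all `0 < θ ≤ v` with `(θ, θ) ≤ 2`. -/
def NakGen [Fintype I] (ν : I → ℤ) : Prop :=
  ∀ θ : I → ℤ, θ ≠ 0 → (∀ i, 0 ≤ θ i) → (∀ i, θ i ≤ Q.vv i) →
    qf (fun a : {a : E // Q.tgt a ≠ none} => Q.src a.1) Q.tg θ ≤ 2 → ∑ i, ν i * θ i ≠ 0

theorem rootReg_of_nakGen [Fintype I] (ν : I → ℤ) (h : Q.NakGen ν) : Q.RootReg ν := by
  intro β hβ0 hβv hβ
  exfalso
  -- every element of the monoid is nonnegative and is zero or dominates a generator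
  have key : ∀ β ∈ AddSubmonoid.closure
      {α | (∀ i, 0 ≤ α i) ∧ Q.RootU α ∧ ∑ i, ν i * α i = 0},
      (∀ i, 0 ≤ β i) ∧ (β = 0 ∨ ∃ α, ((∀ i, 0 ≤ α i) ∧ Q.RootU α ∧ ∑ i, ν i * α i = 0) ∧
        ∀ i, α i ≤ β i) := by
    intro β hβ
    induction hβ using AddSubmonoid.closure_induction with
    | mem x hx => exact ⟨hx.1, Or.inr ⟨x, hx, fun i => le_refl _⟩⟩
    | zero => exact ⟨fun i => le_refl _, Or.inl rfl⟩
    | add x y _ _ hx hy =>
      refine ⟨fun i => add_nonneg (hx.1 i) (hy.1 i), ?_⟩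
      rcases hx.2 with h1 | ⟨α, h1, h2⟩
      · rw [h1, zero_add]; exact hy.2
      · exact Or.inr ⟨α, h1, fun i => (h2 i).trans (by
          have := hy.1 i
          show x i ≤ x i + y i
          linarith)⟩
  obtain ⟨_, h1 | ⟨α, ⟨h1, h2, h3⟩, h4⟩⟩ := key β hβ
  · exact hβ0 h1
  · exact h α (root_ne_zero _ _ h2) h1 (fun i => (h4 i).trans (hβv i)) (qf_le _ _ h2) h3

end QD

end Vale.Agent.P291
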