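import Vale.Agent.P291.IIdBlk
import Vale.Agent.P291.RCore

/-!
# P291: block R1 (partII_KS): the finer form of IId
-/

set_option linter.unusedSectionVars false

open MvPolynomial

namespace Vale.Agent.P291

section main

variable {I E B Λ : Type*} [Fintype E] [DecidableEq I] [Fintype B] [DecidableEq B] [CommRing Λ]
  [IsDomain Λ]
variable (Q : QD I E B Λ)

/-- the correction term -/
theorem exists_corr_gen [Algebra ℚ Λ] (hQ : Q.NonzeroLoops) (P : Submodule Λ (AA B Λ))
    {lam : B → ℤ}
    (hP : ∀ τ ∈ Q.Dec (len lam), Q.SuppOn (lv lam) τ → Q.MT (len lam) τ ∈ P)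
    (h1 : ∀ b, lam b ≤ 1) (h2 : ∀ i, Q.chg i lam = 0) {a : SS B Λ} (ha : Q.InvL lam a)
    (n : ℕ) (i : I) :
    ∃ y ∈ Q.A, y ∈ P ∧ y.coeff 0 = 0 ∧
      y.coeff lam = toK (a * Q.wps n i lam) * Q.e lam ∧
      (∀ mu, y.coeff mu ≠ 0 → (∀ b, mu b ≤ 1) ∧ (∀ i, Q.chg i mu = 0) ∧ nrm mu ≤ nrm lam ∧
        (nrm mu = nrm lam → ∃ σ ∈ Q.W, mu = lact σ lam)) := by
  obtain ⟨τ, hτ, hs, hτl⟩ := exists_MT Q hQ a ha
  set τ' : (Fin (len lam) → Finset (Option B)) → SS B Λ :=
    fun V => τ V * Q.wps n i (∑ j, lamV (V j)) with hτ'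
  have hD : τ' ∈ Q.Dec (len lam) := QD.Dec_mul_wps Q _ hτ n i
  have hS : Q.SuppOn (lv lam) τ' := by
    intro V hV j
    exact hs V (left_ne_zero_of_mul hV) j
  obtain ⟨hl, hn, _⟩ := MT_lead Q hQ hD hS
  refine ⟨Q.MT (len lam) τ', MT_mem Q _ hD, hP _ hD hS, ?_, ?_, ?_⟩
  · rw [MT_coeff]
    refine Finset.sum_eq_zero fun V hV => ?_
    simp only [Finset.mem_filter, Finset.mem_univ, true_and] at hV
    simp [hτ', hV, QD.wps_zero]
  · rw [hl]
    simp only [hτ', hτl, sum_lv]
  · intro mu hmu
    refine ⟨?_, ?_, (hn mu hmu).1, (hn mu hmu).2⟩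
    all_goals
      rw [MT_coeff] at hmu
      obtain ⟨V, hV, hV0⟩ := Finset.exists_ne_zero_of_sum_ne_zero hmu
      simp only [Finset.mem_filter, Finset.mem_univ, true_and] at hV
      have hτV : τ' V ≠ 0 := by
        intro h
        rw [h] at hV0
        simp at hV0
      have horb := hS V hτV
      subst hV
    · exact entries_le Q h1 V horb
    · intro i
      rw [charge_eq Q V horb, h2]

/-- The induction of section 5, with an arbitrary target: if `P` contains all the tuple sums
supported on the orbits of the level sets of the nonzero cocharacters with entries at most one and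
charge zero, then it contains every element of `A` with entries at most one, charge zero and
`z_0 = 0`. -/
theorem partII_gen [Algebra ℚ Λ] (hQ : Q.NonzeroLoops) (P : Submodule Λ (AA B Λ))
    (hP : ∀ lam : B → ℤ, lam ≠ 0 → (∀ b, lam b ≤ 1) → (∀ i, Q.chg i lam = 0) →
      ∀ τ ∈ Q.Dec (len lam), Q.SuppOn (lv lam) τ → Q.MT (len lam) τ ∈ P)
    {z : AA B Λ} (hz : z ∈ Q.A)
    (h1 : ∀ lam, z.coeff lam ≠ 0 → ∀ b, lam b ≤ 1)
    (h2 : ∀ lam, z.coeff lam ≠ 0 → ∀ i, Q.chg i lam = 0)
    (h0 : z.coeff 0 = 0) : z ∈ P := by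
  classical
  -- outer induction on the bound of the norms, inner induction on the number of exponents of
  -- maximal norm
  have key : ∀ N : ℕ, ∀ m : ℕ, ∀ z : AA B Λ, z ∈ Q.A →
      (∀ lam, z.coeff lam ≠ 0 → ∀ b, lam b ≤ 1) →
      (∀ lam, z.coeff lam ≠ 0 → ∀ i, Q.chg i lam = 0) →
      z.coeff 0 = 0 → (∀ lam, z.coeff lam ≠ 0 → nrm lam ≤ N) →
      (z.coeff.support.filter fun lam => nrm lam = N).card = m → z ∈ P := by
    intro N
    induction N with
    | zero =>
      intro m z hz h1 h2 h0 hN _
      have : z = 0 := by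
        ext lam
        by_contra hne
        have hlam : z.coeff lam ≠ 0 := by simpa using hne
        have hn := hN lam hlam
        have : lam = 0 := by
          funext b
          have hle : lam b ^ 2 ≤ nrm lam :=
            Finset.single_le_sum (f := fun b => lam b ^ 2) (fun b _ => sq_nonneg (lam b))
              (Finset.mem_univ b)
          have h3 : lam b ^ 2 ≤ 0 := le_trans hle (by simpa using hn)
          exact pow_eq_zero_iff (two_ne_zero) |>.1 (le_antisymm h3 (sq_nonneg _))
        rw [this] at hlam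
        exact hlam h0
      rw [this]
      exact Submodule.zero_mem _
    | succ N ihN =>
      intro m
      induction m using Nat.strong_induction_on with
      | _ m ihm =>
        intro z hz h1 h2 h0 hN hm
        by_cases hex : ∃ lam, z.coeff lam ≠ 0 ∧ nrm lam = ((N + 1 : ℕ) : ℤ)
        · obtain ⟨lam, hlam, hnl⟩ := hex
          have hmax : ∀ mu, z.coeff mu ≠ 0 → nrm mu ≤ nrm lam := by
            intro mu hmu
            rw [hnl]
            exact hN mu hmu
          have hne : lam ≠ 0 := by
            rintro rfl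
            exact hlam h0
          obtain ⟨h, hh, hinv⟩ := LC Q hQ hz hlam hmax
          obtain ⟨cl, hcl⟩ := exists_cl Q (h1 lam hlam) (h2 lam hlam)
          have hpsi := psi_eq_zero Q hQ hz h1 h2 h0 hlam hmax hh hcl
          obtain ⟨s, a, ha, hsum⟩ := ker_cl Q (h1 lam hlam) (h2 lam hlam) hcl hinv hpsi
          have hY : ∀ p : ℕ × I, ∃ y : AA B Λ, p ∈ s → y ∈ Q.A ∧ y ∈ P ∧ y.coeff 0 = 0 ∧
              y.coeff lam = toK (a p * Q.wps p.1 p.2 lam) * Q.e lam ∧
              (∀ mu, y.coeff mu ≠ 0 → (∀ b, mu b ≤ 1) ∧ (∀ i, Q.chg i mu = 0) ∧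
                nrm mu ≤ nrm lam ∧ (nrm mu = nrm lam → ∃ σ ∈ Q.W, mu = lact σ lam)) := by
            intro p
            by_cases hp : p ∈ s
            · obtain ⟨y, hy, h⟩ := exists_corr_gen Q hQ P (hP lam hne (h1 lam hlam) (h2 lam hlam))
                (h1 lam hlam) (h2 lam hlam) (ha p hp)
                p.1 p.2
              exact ⟨y, fun _ => ⟨hy, h⟩⟩
            · exact ⟨0, fun h => absurd h hp⟩
          choose y hy using hY
          set Y : AA B Λ := ∑ p ∈ s, y p with hYdef
          have hYA : Y ∈ Q.A := Subalgebra.sum_mem _ fun p hp => (hy p hp).1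
          have hYII : Y ∈ P := Submodule.sum_mem _ fun p hp => (hy p hp).2.1
          have hYc : ∀ mu, Y.coeff mu = ∑ p ∈ s, (y p).coeff mu := by
            intro mu
            rw [hYdef, AddMonoidAlgebra.coeff_sum, Finsupp.finsetSum_apply]
          have hY0 : Y.coeff 0 = 0 := by
            rw [hYc]
            exact Finset.sum_eq_zero fun p hp => (hy p hp).2.2.1
          have hYl : Y.coeff lam = z.coeff lam := by
            rw [hYc, Finset.sum_congr rfl fun p hp => (hy p hp).2.2.2.1, ← Finset.sum_mul, hh,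
              hsum]
            congr 1
            exact (map_sum (algebraMap (SS B Λ) (KK B Λ)) _ _).symm
          have hYs : ∀ mu, Y.coeff mu ≠ 0 → (∀ b, mu b ≤ 1) ∧ (∀ i, Q.chg i mu = 0) ∧
                nrm mu ≤ nrm lam ∧ (nrm mu = nrm lam → ∃ σ ∈ Q.W, mu = lact σ lam) := by
            intro mu hmu
            rw [hYc] at hmu
            obtain ⟨p, hp, hp0⟩ := Finset.exists_ne_zero_of_sum_ne_zero hmu
            exact (hy p hp).2.2.2.2 mu hp0
          have hzs : ∀ mu, (z - Y).coeff mu ≠ 0 → z.coeff mu ≠ 0 ∨ Y.coeff mu ≠ 0 := by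
            intro mu hmu
            by_contra hcon
            push Not at hcon
            apply hmu
            simp [hcon.1, hcon.2]
          have hzA : z - Y ∈ Q.A := Subalgebra.sub_mem _ hz hYA
          -- elements of maximal norm of z - Y
          have hsub : ((z - Y).coeff.support.filter fun mu => nrm mu = ((N + 1 : ℕ) : ℤ)) ⊆
              (z.coeff.support.filter fun mu => nrm mu = ((N + 1 : ℕ) : ℤ)).erase lam := by
            intro mu hmu
            simp only [Finset.mem_filter, Finsupp.mem_support_iff] at hmu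
            obtain ⟨hmu, hmun⟩ := hmu
            have hYmu : Y.coeff mu = 0 := by
              by_contra hYmu
              obtain ⟨σ, hσ, rfl⟩ := (hYs mu hYmu).2.2.2 (by rw [hmun, hnl])
              apply hmu
              rw [A_inv Q hzA hσ]
              simp [hYl]
            rw [Finset.mem_erase, Finset.mem_filter, Finsupp.mem_support_iff]
            refine ⟨?_, ?_, hmun⟩
            · rintro rfl
              rw [hYmu] at hYl
              exact hlam hYl.symm
            · intro hz0
              apply hmu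
              simp [hz0, hYmu]
          have hlt : ((z - Y).coeff.support.filter fun mu => nrm mu = ((N + 1 : ℕ) : ℤ)).card
              < m := by
            rw [← hm]
            refine lt_of_le_of_lt (Finset.card_le_card hsub) ?_
            apply Finset.card_erase_lt_of_mem
            simp [hlam, hnl]
          have hfin : z - Y ∈ P := by
            refine ihm _ hlt (z - Y) hzA ?_ ?_ ?_ ?_ rfl
            · intro mu hmu
              rcases hzs mu hmu with h | h
              · exact h1 mu h
              · exact (hYs mu h).1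
            · intro mu hmu
              rcases hzs mu hmu with h | h
              · exact h2 mu h
              · exact (hYs mu h).2.1
            · simp [h0, hY0]
            · intro mu hmu
              rcases hzs mu hmu with h | h
              · exact hN mu h
              · rw [← hnl]
                exact (hYs mu h).2.2.1
          have : z = (z - Y) + Y := by abel
          rw [this]
          exact Submodule.add_mem _ hfin hYII
        · push Not at hex
          refine ihN _ z hz h1 h2 h0 ?_ rfl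
          intro mu hmu
          have h3 := hN mu hmu
          have h4 := hex mu hmu
          have : nrm mu < ((N + 1 : ℕ) : ℤ) := lt_of_le_of_ne h3 h4
          push_cast at this
          omega
  -- bound
  have hbd : ∀ lam, z.coeff lam ≠ 0 → nrm lam ≤ ((∑ mu ∈ z.coeff.support, (nrm mu).toNat : ℕ) : ℤ) := by
    intro lam hlam
    have h3 : (nrm lam).toNat ≤ ∑ mu ∈ z.coeff.support, (nrm mu).toNat :=
      Finset.single_le_sum (f := fun mu => (nrm mu).toNat) (fun _ _ => Nat.zero_le _)
        (by simpa using hlam)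
    have h4 : nrm lam ≤ ((nrm lam).toNat : ℤ) := Int.self_le_toNat _
    exact le_trans h4 (by exact_mod_cast h3)
  exact key _ _ z hz h1 h2 h0 hbd rfl

theorem mem_bx {V : Finset (Option B)} {b : B} : b ∈ bx V ↔ some b ∈ V := by
  simp [bx]

theorem mem_cb {V : Finset (Option B)} {b : B} : b ∈ cb V ↔ some b ∉ V := by
  simp [cb]

/-- charge of a set of positive type -/
theorem chg_lamV_pos {V : Finset (Option B)} (hV : none ∉ V) (i : I) :
    Q.chg i (lamV V) = (Q.db (bx V) i : ℤ) := by
  simp only [QD.chg, QD.db, lamV, if_neg hV, sub_zero, Finset.card_filter]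
  push_cast
  rw [bx, Finset.sum_filter, Finset.sum_filter]
  refine Finset.sum_congr rfl fun b _ => ?_
  by_cases h1 : Q.vx b = i <;> by_cases h2 : some b ∈ V <;> simp [h1, h2]

/-- charge of a set of negative type -/
theorem chg_lamV_neg {V : Finset (Option B)} (hV : none ∈ V) (i : I) :
    Q.chg i (lamV V) = -(Q.db (cb V) i : ℤ) := by
  simp only [QD.chg, QD.db, lamV, if_pos hV, Finset.card_filter]
  push_cast
  rw [cb, Finset.sum_filter, Finset.sum_filter, ← Finset.sum_neg_distrib]
  refine Finset.sum_congr rfl fun b _ => ?_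
  by_cases h1 : Q.vx b = i <;> by_cases h2 : some b ∈ V <;> simp [h1, h2]

/-- the tuple sums of section 5 are of type `KT True` -/
theorem MT_mem_KS {lam : B → ℤ} (hne : lam ≠ 0) (h1 : ∀ b, lam b ≤ 1)
    (h2 : ∀ i, Q.chg i lam = 0) {τ : (Fin (len lam) → Finset (Option B)) → SS B Λ}
    (hτ : τ ∈ Q.Dec (len lam)) (hs : Q.SuppOn (lv lam) τ) : Q.MT (len lam) τ ∈ Q.KS True := by
  classical
  -- a positive and a negative entry
  have hex : ∃ b0, lam b0 ≠ 0 := by
    by_contra hcon
    push Not at hcon
    exact hne (funext hcon)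
  obtain ⟨b0, hb0⟩ := hex
  have hpn : (∃ b, lam b = 1) ∧ ∃ b, lam b < 0 := by
    have hsum := h2 (Q.vx b0)
    unfold QD.chg at hsum
    have hb0m : b0 ∈ Finset.univ.filter (fun b => Q.vx b = Q.vx b0) := by simp
    rcases lt_or_gt_of_ne hb0 with hneg | hpos
    · refine ⟨?_, b0, hneg⟩
      obtain ⟨b, _, hb⟩ := Finset.exists_pos_of_sum_zero_of_exists_nonzero _ hsum ⟨b0, hb0m, hb0⟩
      exact ⟨b, le_antisymm (h1 b) (by omega)⟩
    · refine ⟨⟨b0, le_antisymm (h1 b0) (by omega)⟩, ?_⟩
      have hsum' : ∑ b ∈ Finset.univ.filter (fun b => Q.vx b = Q.vx b0), - lam b = 0 := by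
        rw [Finset.sum_neg_distrib, hsum, neg_zero]
      obtain ⟨b, _, hb⟩ := Finset.exists_pos_of_sum_zero_of_exists_nonzero _ hsum'
        ⟨b0, hb0m, by simpa using hb0⟩
      exact ⟨b, by omega⟩
  obtain ⟨⟨bp, hbp⟩, bn, hbn⟩ := hpn
  have hhi : hi lam = 1 := by
    apply le_antisymm
    · obtain ⟨o, ho⟩ := exists_hi lam
      rw [← ho]
      cases o with
      | none => simp [ext]
      | some b => simpa [ext] using h1 b
    · have := le_hi lam (some bp)
      simpa [ext, hbp] using this
  have hlo : lo lam < 0 := by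
    have := lo_le lam (some bn)
    simp only [ext, Option.elim] at this
    omega
  have hlen : (len lam : ℤ) = 1 - lo lam := by
    rw [len_cast, hhi]
  have hlpos : 0 < len lam := by omega
  set j0 : Fin (len lam) := ⟨len lam - 1, by omega⟩ with hj0
  have hj0v : ((j0 : ℕ) : ℤ) = - lo lam := by
    simp only [hj0]
    omega
  refine Submodule.subset_span ⟨len lam, j0, τ, hτ, ?_, rfl⟩
  intro V hV
  have horb := hs V hV
  have hnone : ∀ j, none ∈ V j ↔ lo lam + 1 + (j : ℤ) ≤ 0 := by
    intro j
    obtain ⟨σ, _, hσ⟩ := horb j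
    rw [← hσ, none_mem_vact, lv, Finset.mem_filter]
    simp [ext]
  have hn0 : none ∉ V j0 := by
    rw [hnone, hj0v]
    omega
  have hnj : ∀ j, j ≠ j0 → none ∈ V j := by
    intro j hj
    rw [hnone]
    have h3 : (j : ℕ) ≠ len lam - 1 := fun h => hj (Fin.ext (by simpa [hj0] using h))
    have h4 := j.2
    omega
  obtain ⟨σ, hσ, hσj⟩ := horb j0
  have hmem : ∀ b, some (σ b) ∈ V j0 ↔ some b ∈ lv lam j0 := by
    intro b
    rw [← hσj, vact, Finset.mem_map]
    constructor
    · rintro ⟨o, ho, h⟩
      cases o with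
      | none => simp at h
      | some c =>
        simp only [Equiv.coe_toEmbedding, Equiv.optionCongr_apply, Option.map_some,
          Option.some.injEq, EmbeddingLike.apply_eq_iff_eq] at h
        rwa [h] at ho
    · intro h
      exact ⟨some b, h, by simp⟩
  refine ⟨hn0, hnj, ⟨σ bp, ?_⟩, ?_, fun _ => ⟨σ bn, ?_⟩⟩
  · rw [mem_bx, hmem, lv, Finset.mem_filter, hj0v]
    simp [ext, hbp]
  · funext i
    have hc := charge_eq Q V horb i
    rw [h2, QD.chg_sum, ← Finset.add_sum_erase _ _ (Finset.mem_univ j0),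
      chg_lamV_pos Q hn0] at hc
    have h5 : ∑ j ∈ Finset.univ.erase j0, Q.chg i (lamV (V j)) =
        - ((∑ j ∈ Finset.univ.erase j0, Q.db (cb (V j)) i : ℕ) : ℤ) := by
      rw [Nat.cast_sum, ← Finset.sum_neg_distrib]
      refine Finset.sum_congr rfl fun j hj => ?_
      exact chg_lamV_neg Q (hnj j (Finset.ne_of_mem_erase hj)) i
    rw [h5] at hc
    rw [Finset.sum_apply]
    omega
  · rw [mem_cb, hmem, lv, Finset.mem_filter, hj0v]
    simp only [Finset.mem_univ, true_and, not_le, ext, Option.elim]
    omega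

theorem partII_KS [Algebra ℚ Λ] (hQ : Q.NonzeroLoops) {z : AA B Λ} (hz : z ∈ Q.A)
    (h1 : ∀ lam, z.coeff lam ≠ 0 → ∀ b, lam b ≤ 1)
    (h2 : ∀ lam, z.coeff lam ≠ 0 → ∀ i, Q.chg i lam = 0)
    (h0 : z.coeff 0 = 0) : z ∈ Q.KS True :=
  partII_gen Q hQ (Q.KS True) (fun _ hne h1 h2 _ hτ hs => MT_mem_KS Q hne h1 h2 hτ hs)
    hz h1 h2 h0

end main

end Vale.Agent.P291
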