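import Vale.Agent.P291.RCore
import Vale.Agent.P291.H363.KapPlus

/-!
# P291, block R2: `kap_lift` with values in `KS`
-/

set_option linter.unusedSectionVars false

open MvPolynomial

namespace Vale.Agent.P291

variable {I E B Λ : Type*} [Fintype E] [DecidableEq I] [Fintype B] [DecidableEq B] [CommRing Λ]
  [IsDomain Λ]
variable (Q : QD I E B Λ)

namespace R2

theorem db_bx (V : Finset (Option B)) (i : I) : Q.db (bx V) i = Q.dm V (some i) := by
  unfold QD.db QD.dm
  refine Finset.card_bij (fun b _ => some b) ?_ ?_ ?_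
  · intro b hb
    simp only [bx, Finset.mem_filter, Finset.mem_univ, true_and] at hb
    rw [Finset.mem_filter]
    exact ⟨hb.1, congrArg some hb.2⟩
  · intro b _ b' _ h
    exact Option.some_injective _ h
  · intro o ho
    rw [Finset.mem_filter] at ho
    cases o with
    | none => simp [QD.vo] at ho
    | some b =>
      refine ⟨b, ?_, rfl⟩
      simp only [bx, Finset.mem_filter, Finset.mem_univ, true_and]
      exact ⟨ho.1, by simpa [QD.vo] using ho.2⟩

theorem cb_eq (V : Finset (Option B)) : cb V = bx Vᶜ := by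
  ext b
  simp [cb, bx]

theorem db_cb (V : Finset (Option B)) (i : I) : Q.db (cb V) i = Q.dm Vᶜ (some i) := by
  rw [cb_eq, db_bx]

end R2

/-- (R2) -/
theorem kap_lift_KS [Algebra ℚ Λ] (g : B → ℕ) (hg : g ≠ 0) (s : SS B Λ) :
    ∃ y ∈ Q.A, y ∈ Q.KS (∃ b, g b = 0) ∧
      (∀ lam, y.coeff lam ≠ 0 → (∀ b, lam b ≤ 1) ∧ ∀ i, Q.chg i lam = 0) ∧
      y.coeff 0 = ∑ σ ∈ Q.Wf, act σ (toK s * Q.kap g) := by
  classical
  obtain ⟨m, τ, hτ, h1, h2⟩ := B2.kap_lift_plus Q g hg s
  refine ⟨Q.MT (m + 1) τ, MT_mem Q _ hτ, Submodule.subset_span ⟨m + 1, 0, τ, hτ, ?_, rfl⟩, ?_, h2⟩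
  · intro V hV
    obtain ⟨h3, h4, h5, _, h7, h8, _, _⟩ := h1 V hV
    refine ⟨h4, fun j hj => ?_, ?_, ?_, fun hu => ?_⟩
    · obtain ⟨j', rfl⟩ := Fin.exists_succ_eq.2 hj
      exact h5 j'
    · obtain ⟨o, ho⟩ := Finset.nonempty_iff_ne_empty.2 h3
      cases o with
      | none => exact absurd ho h4
      | some b => exact ⟨b, by simpa [bx] using ho⟩
    · funext i
      rw [R2.db_bx, h7, Finset.sum_apply]
      have h9 : (Finset.univ.erase (0 : Fin (m + 1))) =
          Finset.univ.map (Fin.succEmb m) := by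
        ext j
        simp only [Finset.mem_erase, Finset.mem_univ, and_true, Finset.mem_map, true_and,
          Fin.coe_succEmb]
        exact Fin.exists_succ_eq.symm
      rw [h9, Finset.sum_map]
      refine Finset.sum_congr rfl fun j _ => ?_
      rw [R2.db_cb]
      rfl
    · obtain ⟨b, hb⟩ := h8 hu
      exact ⟨b, by simpa [cb] using hb⟩
  · intro lam hlam
    rw [MT_coeff] at hlam
    obtain ⟨V', hV', h3⟩ := Finset.exists_ne_zero_of_sum_ne_zero hlam
    rw [Finset.mem_filter] at hV'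
    have h4 : τ V' ≠ 0 := by
      intro h4
      apply h3
      rw [h4]
      simp
    rw [← hV'.2]
    obtain ⟨_, _, _, _, _, _, h5, h6⟩ := h1 V' h4
    exact ⟨h5, h6⟩

end Vale.Agent.P291
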