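import Vale.Agent.P291.RCore
import Vale.Agent.P291.H363.KapPlus
import Vale.Agent.P291.H363.CutGen

/-!
# P291, block R3: the unframed version of `JD_span`
-/

set_option linter.unusedSectionVars false

open MvPolynomial

namespace Vale.Agent.P291

variable {I E B Λ : Type*} [Fintype E] [DecidableEq I] [Fintype B] [DecidableEq B] [CommRing Λ]
  [IsDomain Λ]
variable (Q : QD I E B Λ)

/-- (R3) -/
theorem JDU_span (hU : Q.Unframed) {f : SS B Λ} (hf : Q.D * f ∈ Q.ITU) :
    ∃ s : Finset (B → ℕ), ∃ a : (B → ℕ) → SS B Λ, (∀ g ∈ s, g ≠ 0 ∧ ∃ b, g b = 0) ∧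
      toK f = ∑ g ∈ s, toK (a g) * Q.kap g := by
  classical
  obtain ⟨s, a, h1, h2⟩ := H363.JDU_span Q hf
  have h3 : toK f ∈ Submodule.span (SS B Λ) (Q.kap '' {g | g ≠ 0 ∧ ∃ b, g b = 0}) := by
    rw [h2]
    refine Submodule.sum_mem _ fun g hg => ?_
    obtain ⟨g', h4, h5, h6⟩ := B2.exists_recol (h1 g hg)
    have h7 : toK (a g) * Q.kap g = (a g) • Q.kap g' := by
      rw [Algebra.smul_def, B2.kap_congr Q hU h6]
    rw [h7]
    exact Submodule.smul_mem _ _ (Submodule.subset_span ⟨g', ⟨h4, h5⟩, rfl⟩)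
  rw [Finsupp.mem_span_image_iff_linearCombination] at h3
  obtain ⟨l, hl, hl'⟩ := h3
  refine ⟨l.support, l, ?_, ?_⟩
  · intro g hg
    exact (Finsupp.mem_supported _ _).1 hl hg
  · rw [← hl', Finsupp.linearCombination_apply, Finsupp.sum]
    apply Finset.sum_congr rfl
    intro g _
    rw [Algebra.smul_def]

end Vale.Agent.P291
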