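import Vale.Agent.P291.R1Blk
import Vale.Agent.P291.R2Blk
import Vale.Agent.P291.R3Blk
import Vale.Agent.P291.B1Blk

/-!
# P291, block R4: exact identities from `J_D`
-/

set_option linter.unusedSectionVars false

open MvPolynomial

namespace Vale.Agent.P291

variable {I E B Λ : Type*} [Fintype E] [DecidableEq I] [Fintype B] [DecidableEq B] [CommRing Λ]
  [IsDomain Λ]
variable (Q : QD I E B Λ)

theorem KS_mono {u v : Prop} (h : v → u) : Q.KS u ≤ Q.KS v := by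
  unfold QD.KS
  refine Submodule.span_mono ?_
  rintro z ⟨k, j0, τ, hτ, h1, rfl⟩
  refine ⟨k, j0, τ, hτ, fun V hV => ?_, rfl⟩
  obtain ⟨h2, h3, h4, h5, h6⟩ := h1 V hV
  exact ⟨h2, h3, h4, h5, fun hv => h6 (h hv)⟩

namespace R4

theorem chg_zero (i : I) : Q.chg i 0 = 0 := by
  simp [QD.chg]

theorem coeff_cst (f : SS B Λ) (mu : B → ℤ) :
    (QD.cst f : AA B Λ).coeff mu = if mu = 0 then toK f else 0 := by
  unfold QD.cst
  rw [AddMonoidAlgebra.coeff_single, Finsupp.single_apply]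
  by_cases h : mu = 0
  · rw [if_pos h, if_pos h.symm]
  · rw [if_neg h, if_neg (Ne.symm h)]

/-- elements of `A` with entries at most one and charge zero -/
noncomputable def Om : Submodule Λ (AA B Λ) where
  carrier := {z | z ∈ Q.A ∧ ∀ lam, z.coeff lam ≠ 0 → (∀ b, lam b ≤ 1) ∧ ∀ i, Q.chg i lam = 0}
  add_mem' := by
    rintro x y ⟨hx, hx'⟩ ⟨hy, hy'⟩
    refine ⟨add_mem hx hy, fun lam hlam => ?_⟩
    by_cases h : x.coeff lam = 0
    · refine hy' lam fun h' => hlam ?_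
      rw [AddMonoidAlgebra.coeff_add, Finsupp.add_apply, h, h', add_zero]
    · exact hx' lam h
  zero_mem' := ⟨zero_mem _, fun lam h => absurd (by simp) h⟩
  smul_mem' := by
    rintro c x ⟨hx, hx'⟩
    refine ⟨Subalgebra.smul_mem _ hx c, fun lam hlam => hx' lam fun h => hlam ?_⟩
    rw [AddMonoidAlgebra.coeff_smul, Finsupp.smul_apply, h, smul_zero]

theorem act_toK_R {f : SS B Λ} (hf : f ∈ Q.R) {σ : Equiv.Perm B} (hσ : σ ∈ Q.W) :
    act σ (toK f) = toK f := by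
  rw [act_toK, hf σ hσ]

theorem main [Algebra ℚ Λ] (hQ : Q.NonzeroLoops) (u : Prop) {f : SS B Λ} (hf : f ∈ Q.R)
    (s : Finset (B → ℕ)) (a : (B → ℕ) → SS B Λ) (hs : ∀ g ∈ s, g ≠ 0 ∧ (u → ∃ b, g b = 0))
    (hfs : toK f = ∑ g ∈ s, toK (a g) * Q.kap g) : QD.cst f ∈ Q.KS u := by
  classical
  have hy : ∀ g : B → ℕ, ∃ y : AA B Λ, g ∈ s → y ∈ Om Q ∧ y ∈ Q.KS u ∧
      y.coeff 0 = ∑ σ ∈ Q.Wf, act σ (toK (a g) * Q.kap g) := by
    intro g
    by_cases hg : g ∈ s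
    · obtain ⟨y, h1, h2, h3, h4⟩ := kap_lift_KS Q g (hs g hg).1 (a g)
      exact ⟨y, fun _ => ⟨⟨h1, h3⟩, KS_mono Q (hs g hg).2 h2, h4⟩⟩
    · exact ⟨0, fun h => absurd h hg⟩
  choose y hy using hy
  have hW : (Q.Wf.card : ℚ) ≠ 0 := by
    rw [Nat.cast_ne_zero]
    exact Finset.card_ne_zero_of_mem ((mem_Wf Q).2 Q.W.one_mem)
  let c : Λ := algebraMap ℚ Λ (Q.Wf.card : ℚ)⁻¹
  have hc : c * (Q.Wf.card : Λ) = 1 := by
    have h1 : (Q.Wf.card : Λ) = algebraMap ℚ Λ (Q.Wf.card : ℚ) := by simp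
    rw [h1, ← map_mul, inv_mul_cancel₀ hW, map_one]
  have h0 : (∑ g ∈ s, y g).coeff 0 = (Q.Wf.card : Λ) • toK f := by
    have h1 : (∑ g ∈ s, y g).coeff 0 = ∑ g ∈ s, (y g).coeff 0 := by
      rw [AddMonoidAlgebra.coeff_sum, Finsupp.finsetSum_apply]
    rw [h1, Finset.sum_congr rfl fun g hg => (hy g hg).2.2, Finset.sum_comm]
    have h2 : ∀ σ ∈ Q.Wf, ∑ g ∈ s, act σ (toK (a g) * Q.kap g) = toK f := by
      intro σ hσ
      rw [← map_sum, ← hfs, act_toK_R Q hf ((mem_Wf Q).1 hσ)]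
    rw [Finset.sum_congr rfl h2, Finset.sum_const, Nat.cast_smul_eq_nsmul]
  set w : AA B Λ := c • ∑ g ∈ s, y g with hw
  have hwO : w ∈ Om Q := Submodule.smul_mem _ _ (Submodule.sum_mem _ fun g hg => (hy g hg).1)
  have hwK : w ∈ Q.KS u := Submodule.smul_mem _ _ (Submodule.sum_mem _ fun g hg => (hy g hg).2.1)
  have hw0 : w.coeff 0 = toK f := by
    rw [hw, AddMonoidAlgebra.coeff_smul, Finsupp.smul_apply, h0, smul_smul, hc, one_smul]
  have hf1 : QD.cst f ∈ Om Q := by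
    refine ⟨cst_mem Q hf, fun lam hlam => ?_⟩
    rw [coeff_cst] at hlam
    have h1 : lam = 0 := by
      by_contra h1
      rw [if_neg h1] at hlam
      exact hlam rfl
    rw [h1]
    exact ⟨fun b => by simp, chg_zero Q⟩
  have hz : QD.cst f - w ∈ Om Q := Submodule.sub_mem _ hf1 hwO
  have hz0 : (QD.cst f - w).coeff 0 = 0 := by
    rw [AddMonoidAlgebra.coeff_sub, Finsupp.sub_apply, hw0, coeff_cst, if_pos rfl, sub_self]
  have hzK : QD.cst f - w ∈ Q.KS True :=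
    partII_KS Q hQ hz.1 (fun lam h => (hz.2 lam h).1) (fun lam h => (hz.2 lam h).2) hz0
  have h1 : QD.cst f = (QD.cst f - w) + w := (sub_add_cancel _ _).symm
  rw [h1]
  exact Submodule.add_mem _ (KS_mono Q (fun _ => trivial) hzK) hwK

end R4

theorem JD_KS [Algebra ℚ Λ] (hQ : Q.NonzeroLoops) {f : SS B Λ} (hf : f ∈ Q.JD) :
    QD.cst f ∈ Q.KS False := by
  obtain ⟨s, a, h1, h2⟩ := JD_span Q hf.2
  exact R4.main Q hQ False hf.1 s a (fun g hg => ⟨h1 g hg, fun h => h.elim⟩) h2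

theorem JDU_KS [Algebra ℚ Λ] (hU : Q.Unframed) (hQ : Q.NonzeroLoops) {f : SS B Λ}
    (hf : f ∈ Q.JDU) : QD.cst f ∈ Q.KS True := by
  obtain ⟨s, a, h1, h2⟩ := JDU_span Q hU hf.2
  exact R4.main Q hQ True hf.1 s a (fun g hg => ⟨(h1 g hg).1, fun _ => (h1 g hg).2⟩) h2

end Vale.Agent.P291
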