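import Vale.Agent.P291.RCore
import Vale.Agent.P291.R4Blk
import Vale.Agent.P291.H125.SpBase

/-!
# P291, regular layer, block R5: specialisation of exact identities
-/

set_option linter.unusedSectionVars false

open MvPolynomial

namespace Vale.Agent.P291

namespace R5

variable {I E B Λ Λ' : Type*} [Fintype E] [DecidableEq I] [Fintype B] [DecidableEq B]
  [CommRing Λ] [IsDomain Λ] [CommRing Λ'] [IsDomain Λ']
variable {Q : QD I E B Λ} {Q' : QD I E B Λ'} {φ : Λ' →+* Λ}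

theorem MT_mem_SpA (h : H125.Rel Q Q' φ) (k : ℕ)
    (τ : (Fin k → Finset (Option B)) → SS B Λ') :
    (Q'.MT k τ, Q.MT k (fun V => MvPolynomial.map φ (τ V))) ∈ H125.SpA Q' φ := by
  have h1 : ((∑ V : Fin k → Finset (Option B),
      (AddMonoidAlgebra.single (∑ j, lamV (V j)) (toK (τ V) * ∏ j, Q'.e (lamV (V j))),
       AddMonoidAlgebra.single (∑ j, lamV (V j))
        (toK (MvPolynomial.map φ (τ V)) * ∏ j, Q.e (lamV (V j))))) :
        AA B Λ' × AA B Λ) ∈ H125.SpA Q' φ := by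
    apply Subring.sum_mem
    intro V _
    have h2 : (∏ j, (Q'.e (lamV (V j)), Q.e (lamV (V j)))) ∈ H125.Sp Q' φ :=
      Subring.prod_mem _ fun j _ => h.e_mem (lamV (V j))
    have h3 : (∏ j, (Q'.e (lamV (V j)), Q.e (lamV (V j)))) =
        (∏ j, Q'.e (lamV (V j)), ∏ j, Q.e (lamV (V j))) := by
      apply Prod.ext
      · rw [Prod.fst_prod]
      · rw [Prod.snd_prod]
    rw [h3] at h2
    exact H125.GrA_single (∑ j, lamV (V j))
      ((H125.Sp Q' φ).mul_mem (H125.toK_mem Q' φ (τ V)) h2)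
  have h2 : ((∑ V : Fin k → Finset (Option B),
      (AddMonoidAlgebra.single (∑ j, lamV (V j)) (toK (τ V) * ∏ j, Q'.e (lamV (V j))),
       AddMonoidAlgebra.single (∑ j, lamV (V j))
        (toK (MvPolynomial.map φ (τ V)) * ∏ j, Q.e (lamV (V j))))) :
        AA B Λ' × AA B Λ) = (Q'.MT k τ, Q.MT k (fun V => MvPolynomial.map φ (τ V))) := by
    apply Prod.ext
    · rw [Prod.fst_sum]; rfl
    · rw [Prod.snd_sum]; rfl
  rw [← h2]; exact h1

theorem Dec_map (h : H125.Rel Q Q' φ) {k : ℕ} {τ : (Fin k → Finset (Option B)) → SS B Λ'}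
    (hτ : τ ∈ Q'.Dec k) : (fun V => MvPolynomial.map φ (τ V)) ∈ Q.Dec k := by
  refine Submodule.span_induction
    (p := fun τ _ => (fun V => MvPolynomial.map φ (τ V)) ∈ Q.Dec k) ?_ ?_ ?_ ?_ hτ
  · rintro _ ⟨r, hr, F, hF, rfl⟩
    refine Submodule.subset_span ⟨MvPolynomial.map φ r, ?_,
      fun j V => MvPolynomial.map φ (F j V), fun j => h.Eqv_map (hF j), ?_⟩
    · intro σ hσ
      rw [← MvPolynomial.map_rename, hr σ (by rw [← h.W_eq]; exact hσ)]
    · funext V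
      simp only [map_mul, map_prod]
  · have : (fun V : Fin k → Finset (Option B) =>
        MvPolynomial.map φ ((0 : (Fin k → Finset (Option B)) → SS B Λ') V)) = 0 := by
      funext V; simp
    rw [this]; exact Submodule.zero_mem _
  · intro a b _ _ ha hb
    have : (fun V : Fin k → Finset (Option B) => MvPolynomial.map φ ((a + b) V)) =
        (fun V => MvPolynomial.map φ (a V)) + fun V => MvPolynomial.map φ (b V) := by
      funext V; simp
    rw [this]; exact Submodule.add_mem _ ha hb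
  · intro c a _ ha
    have : (fun V : Fin k → Finset (Option B) => MvPolynomial.map φ ((c • a) V)) =
        φ c • fun V => MvPolynomial.map φ (a V) := by
      funext V
      simp only [Pi.smul_apply, MvPolynomial.smul_eq_C_mul, map_mul, map_C]
    rw [this]; exact Submodule.smul_mem _ _ ha

theorem KT_iff (h : H125.Rel Q Q' φ) (u : Prop) {k : ℕ} (j0 : Fin k)
    (V : Fin k → Finset (Option B)) : Q.KT u j0 V ↔ Q'.KT u j0 V := by
  unfold QD.KT QD.db
  rw [h.vx_eq]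

theorem KS_sub_map (h : H125.Rel Q Q' φ) (u : Prop) {z' : AA B Λ'} (hz : z' ∈ Q'.KS u) :
    ∃ z ∈ Q.KS u, (z', z) ∈ H125.SpA Q' φ := by
  refine Submodule.span_induction (p := fun x _ => ∃ a ∈ Q.KS u, (x, a) ∈ H125.SpA Q' φ)
    ?_ ?_ ?_ ?_ hz
  · rintro x ⟨k, j0, τ, hτ, hT, rfl⟩
    refine ⟨_, Submodule.subset_span ⟨k, j0, _, Dec_map h hτ, ?_, rfl⟩, MT_mem_SpA h k τ⟩
    intro V hV
    rw [KT_iff h]
    apply hT
    intro h0
    exact hV (by rw [h0, map_zero])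
  · exact ⟨0, Submodule.zero_mem _, H125.SpA_zero⟩
  · rintro x y _ _ ⟨a, ha, hxa⟩ ⟨b, hb, hyb⟩
    exact ⟨a + b, Submodule.add_mem _ ha hb, H125.SpA_add hxa hyb⟩
  · rintro c x _ ⟨a, ha, hxa⟩
    refine ⟨φ c • a, Submodule.smul_mem _ _ ha, ?_⟩
    rw [Algebra.smul_def, Algebra.smul_def]
    exact H125.SpA_mul (H125.algebraMap_mem_SpA Q' φ c) hxa

end R5

variable {I E B Λ : Type*} [Fintype E] [DecidableEq I] [Fintype B] [DecidableEq B] [CommRing Λ]
  [IsDomain Λ]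
variable (Q : QD I E B Λ)

theorem KS_map {Λ' : Type*} [CommRing Λ'] [IsDomain Λ'] (Q' : QD I E B Λ') (φ : Λ' →+* Λ)
    (h : Q.src = Q'.src ∧ Q.tgt = Q'.tgt ∧ Q.vx = Q'.vx ∧ ∀ a, Q.t a = φ (Q'.t a))
    (u : Prop) {f : SS B Λ'} (hf : QD.cst f ∈ Q'.KS u) :
    QD.cst (MvPolynomial.map φ f) ∈ Q.KS u := by
  have hR : H125.Rel Q Q' φ := h
  obtain ⟨z, hz, hz'⟩ := R5.KS_sub_map hR u hf
  rw [H125.SpA_uniq hR (H125.cst_mem_SpA Q' φ f) hz']
  exact hz

theorem R5.gen_loops : Q.gen.NonzeroLoops := by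
  classical
  intro a _ h0
  have h1 := congrArg (MvPolynomial.coeff (Finsupp.single a 1)) h0
  have hne : (0 : E →₀ ℕ) ≠ Finsupp.single a 1 := by
    intro h2
    have := DFunLike.congr_fun h2 a
    simp at this
  have h2 : MvPolynomial.coeff (Finsupp.single a 1) (C (Q.t a) : MvPolynomial E Λ) = 0 := by
    rw [MvPolynomial.coeff_C, if_neg hne]
  have h3 : MvPolynomial.coeff (Finsupp.single a 1) (X a : MvPolynomial E Λ) = 1 := by
    rw [MvPolynomial.coeff_X, if_pos rfl]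
  simp only [QD.gen, MvPolynomial.coeff_add, h2, h3, zero_add, MvPolynomial.coeff_zero] at h1
  exact one_ne_zero h1

theorem JH_KS [Algebra ℚ Λ] {f : SS B Λ} (hf : f ∈ Q.JH) : QD.cst f ∈ Q.KS False := by
  obtain ⟨f', hf', rfl⟩ := hf
  exact KS_map Q Q.gen MvPolynomial.constantCoeff
    ⟨rfl, rfl, rfl, fun a => by simp [QD.gen]⟩ False (JD_KS Q.gen (R5.gen_loops Q) hf')

theorem JHU_KS [Algebra ℚ Λ] (hU : Q.Unframed) {f : SS B Λ} (hf : f ∈ Q.JHU) :
    QD.cst f ∈ Q.KS True := by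
  obtain ⟨f', hf', rfl⟩ := hf
  exact KS_map Q Q.gen MvPolynomial.constantCoeff
    ⟨rfl, rfl, rfl, fun a => by simp [QD.gen]⟩ True (JDU_KS Q.gen hU (R5.gen_loops Q) hf')

end Vale.Agent.P291
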